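import Vale.Agent.P054.T3.H807.Deg0P

set_option autoImplicit false
set_option linter.all false

/-!
# P054 / T3: leaves of dimension `0`, with a bound for the edges on the isotropic lines

Same as `H807.card_deg0` etc.; the hypothesis `A ⊆ Ez P B k` (at most `k` points of `P` on the lines)
is replaced by `MuK A k`: at most `k` edges of `A` with a given first end point and a given `mu`.
-/

namespace Vale.Agent.P054.T3.H533

open Finset MvPolynomial Module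
open Vale.Agent.P054.T2 Vale.Agent.P054.T2.SecC
open Vale.Agent.P054.T2.H686 (E zt Ez Sz Gm mu Ez_fst Ez_snd Ez_swap Ez_pairs mu_comm dists)
open Vale.Agent.P054.T3.H807 (card_le_of_fullP')

variable {n : ℕ}

open Classical in
/-- at most `k` edges of `A` with given first end point and given `mu` -/
def MuK (A : Finset (ZZ n × ZZ n)) (k : ℕ) : Prop :=
  ∀ (s : ZZ n) (u : Fin n → ℝ), (A.filter fun e => e.1 = s ∧ mu e.1 e.2 = u).card ≤ k

theorem MuK.subset {A A' : Finset (ZZ n × ZZ n)} {k : ℕ} (h : MuK A k) (hA : A' ⊆ A) :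
    MuK A' k := fun s u =>
  (Finset.card_le_card (Finset.filter_subset_filter _ hA)).trans (h s u)

theorem MuK.mono {A : Finset (ZZ n × ZZ n)} {k k' : ℕ} (h : MuK A k) (hk : k ≤ k') :
    MuK A k' := fun s u => (h s u).trans hk

/-- for a symmetric set of edges -/
theorem MuK.swp {A : Finset (ZZ n × ZZ n)} {k : ℕ} (h : MuK A k)
    (hA : ∀ e ∈ A, e.swap ∈ A) : MuK (swp A) k :=
  h.subset fun e he => by
    have := hA _ (mem_swp.1 he)
    rwa [Prod.swap_swap] at this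

/-- **from isotropic lines**: at most `k` edges of `A` at `s` on every line through `s` -/
theorem MuK.of_lines {P : Finset (E n)} {B : E n ≃ₗᵢ[ℝ] E n} (hB : Gm P B) (hn : 2 ≤ n) {θ k : ℕ}
    {A : Finset (ZZ n × ZZ n)} (hA : A ⊆ Ez P B θ)
    (hk : ∀ (s r₀ : E n × E n) (R : Finset (E n × E n)), (zt B s, zt B r₀) ∈ A →
      (∀ r ∈ R, (zt B s, zt B r) ∈ A ∧ ∃ a : ℝ, r - s = a • (r₀ - s)) → R.card ≤ k) :
    MuK A k := by
  classical
  intro s u
  rcases (A.filter fun e => e.1 = s ∧ mu e.1 e.2 = u).eq_empty_or_nonempty with h0 | ⟨e₀, he₀⟩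
  · rw [h0]; exact Nat.zero_le _
  obtain ⟨heA, hes, heu⟩ := Finset.mem_filter.1 he₀
  obtain ⟨s₀, hs₀, r₀, hr₀, hee, hed⟩ := Ez_pairs (hA heA)
  have hs : s = zt B s₀ := by rw [← hes, hee]
  set R : Finset (E n × E n) := (P ×ˢ P).filter fun r => (zt B s₀, zt B r) ∈ A ∧
    mu (zt B s₀) (zt B r) = u with hR
  have h1 : (A.filter fun e => e.1 = s ∧ mu e.1 e.2 = u) ⊆ R.image fun r => (zt B s₀, zt B r) := by
    intro e he
    obtain ⟨h2, h3, h4⟩ := Finset.mem_filter.1 he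
    obtain ⟨s₁, -, r₁, hr₁, h5, -⟩ := Ez_pairs (hA h2)
    have h6 : zt B s₁ = zt B s₀ := by
      have : e.1 = zt B s₁ := by rw [h5]
      rw [← this, h3, hs]
    rw [h6] at h5
    subst h5
    exact Finset.mem_image.2 ⟨r₁, Finset.mem_filter.2 ⟨hr₁, h2, h4⟩, rfl⟩
  refine ((Finset.card_le_card h1).trans Finset.card_image_le).trans ?_
  refine hk s₀ r₀ R (by rw [← hee]; exact heA) fun r hr => ?_
  obtain ⟨hrP, hrA, hru⟩ := Finset.mem_filter.1 hr
  refine ⟨hrA, ?_⟩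
  have kP' : ∀ x ∈ P ×ˢ P, H588.KK (H588.kP P) x := fun x hx =>
    H588.KK_kP (Finset.mem_product.1 hx).1 (Finset.mem_product.1 hx).2
  have hne : ∀ r : E n × E n, (zt B s₀, zt B r) ∈ A → (zt B s₀).1 0 ≠ (zt B r).1 0 := fun r hr =>
    H686.Ez_ne hB (by omega) (hA hr)
  refine H588.onLine_of_mu_eq hB.gi hn (kP' _ hs₀) (kP' _ hr₀) (kP' _ hrP)
    (hne r₀ (by rw [← hee]; exact heA)) (hne r hrA) ?_
  rw [hru, ← heu, hee]

/-- edges with first end point `s` when the `mu`-values lie in a set `U` -/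
theorem card_leaf_edgesK {k : ℕ} {A : Finset (ZZ n × ZZ n)} (hk : MuK A k) (s : ZZ n)
    (hs : ∀ e ∈ A, e.1 = s) :
    A.card ≤ k * (A.image fun e => mu e.1 e.2).card := by
  classical
  refine Finset.card_le_mul_card_image A k fun u hu => ?_
  refine (Finset.card_le_card ?_).trans (hk s u)
  intro e he
  obtain ⟨h1, h2⟩ := Finset.mem_filter.1 he
  simp only [Finset.mem_filter]
  exact ⟨h1, hs e h1, h2⟩

/-- **[DEG0]**: `σ₁ = 0`, product of the degrees -/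
theorem card_deg0K {k : ℕ} {A : Finset (ZZ n × ZZ n)} (hk : MuK A k) (Sg₁ : Finset (ZZ n))
    (hE1 : ∀ e ∈ A, e.1 ∈ Sg₁) {c : ℕ} (hc : c = n) (f : ZZ n → Fin c → MvPolynomial (Fin n) ℝ)
    (τ : ZZ n → Fin c → ℕ) (hτ1 : ∀ s ∈ Sg₁, ∀ j, 1 ≤ τ s j)
    (hd : ∀ s ∈ Sg₁, ∀ j, (f s j).totalDegree ≤ τ s j)
    (hev : ∀ e ∈ A, ∀ j, eval (mu e.1 e.2) (f e.1 j) = 0)
    (hind : ∀ e ∈ A, LinearIndependent ℝ (fun j => H930.grad (mu e.1 e.2) (f e.1 j))) :
    A.card ≤ ∑ s ∈ Sg₁, k * ((n + 1) ^ n * ∏ j, τ s j) := by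
  classical
  rw [Finset.card_eq_sum_card_fiberwise (f := Prod.fst) (t := Sg₁) (fun e he => hE1 e he)]
  refine Finset.sum_le_sum fun s hs => ?_
  refine (card_leaf_edgesK (hk.subset (Finset.filter_subset _ _)) s
    (fun e he => (Finset.mem_filter.1 he).2)).trans (Nat.mul_le_mul_left _ ?_)
  have h := card_le_of_fullP' (K := ℝ) (σ := Fin n) (fun e : ZZ n × ZZ n => mu e.1 e.2)
    (A.filter fun e => e.1 = s) (c := c) (by rw [Fintype.card_fin]; exact hc) (f s) (τ s)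
    (hτ1 s hs) (hd s hs)
    (fun e he j => by
      obtain ⟨h1, h2⟩ := Finset.mem_filter.1 he
      rw [← h2]
      exact hev e h1 j)
    (fun e he => by
      obtain ⟨h1, h2⟩ := Finset.mem_filter.1 he
      rw [← h2]
      exact hind e h1)
  have h2 : (c + 1) ^ c = (n + 1) ^ n := by rw [hc]
  rw [h2] at h
  exact h

/-- **[DEG0]** mirrored: `σ₂ = 0` -/
theorem card_deg0K' {k : ℕ} {A : Finset (ZZ n × ZZ n)} (hk : MuK (swp A) k) (Sg₂ : Finset (ZZ n))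
    (hE2 : ∀ e ∈ A, e.2 ∈ Sg₂) {c : ℕ} (hc : c = n) (f : ZZ n → Fin c → MvPolynomial (Fin n) ℝ)
    (τ : ZZ n → Fin c → ℕ) (hτ1 : ∀ s ∈ Sg₂, ∀ j, 1 ≤ τ s j)
    (hd : ∀ s ∈ Sg₂, ∀ j, (f s j).totalDegree ≤ τ s j)
    (hev : ∀ e ∈ A, ∀ j, eval (mu e.1 e.2) (f e.2 j) = 0)
    (hind : ∀ e ∈ A, LinearIndependent ℝ (fun j => H930.grad (mu e.1 e.2) (f e.2 j))) :
    A.card ≤ ∑ s ∈ Sg₂, k * ((n + 1) ^ n * ∏ j, τ s j) := by
  classical
  have hmu : ∀ e ∈ swp A, mu e.1 e.2 = mu e.swap.1 e.swap.2 := by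
    intro e he
    exact mu_comm _ _
  have h1 := card_deg0K hk Sg₂
    (fun e he => hE2 _ (mem_swp.1 he)) hc f τ hτ1 hd
    (fun e he j => by
      have h2 := hev _ (mem_swp.1 he) j
      rw [hmu e he]
      exact h2)
    (fun e he => by
      have h2 := hind _ (mem_swp.1 he)
      rw [hmu e he]
      exact h2)
  have h3 : (swp A).card = A.card := Finset.card_map _
  rwa [h3] at h1

open Vale.Agent.P054.T2.H307 (fib mem_fib mem_van xL) in
open Vale.Agent.P054.T2.H580 (kap) in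
/-- **[DEG0] for the output of the lossless section A**: the leaves of the first end points have
dimension `0` at the level `k₀` -/
theorem card_deg0K_famU {k : ℕ} {A : Finset (ZZ n × ZZ n)} (hk : MuK A k) (Sg₁ : Finset (ZZ n))
    (hE1 : ∀ e ∈ A, e.1 ∈ Sg₁) {b β M K₁ : ℕ} {v : ℕ → ℕ} (hb : 1 ≤ b)
    (hU : H461.FamU (xL (K := ℝ) (n := n)) Prod.fst b β M K₁ A v) {k₀ : ℕ} (hk₀ : k₀ ≤ K₁)
    (hv : v k₀ = n) :
    A.card ≤ Sg₁.card * (k * ((n + 1) ^ n * ∏ j : Fin (v k₀), b ^ kap (k₀ + 1) v (j : ℕ))) := by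
  classical
  obtain ⟨f, hf, hind⟩ := hU.sys hk₀
  have h := card_deg0K hk Sg₁ hE1 hv f (fun _ j => b ^ kap (k₀ + 1) v (j : ℕ))
    (fun _ _ _ => Nat.one_le_pow _ _ hb)
    (fun s _ j => (mem_restrictTotalDegree _ _ _).1 (mem_van.1 (hf s j)).1)
    (fun e he j => (mem_van.1 (hf e.1 j)).2 e (mem_fib.2 ⟨he, rfl⟩)) hind
  rwa [Finset.sum_const, smul_eq_mul] at h

open Vale.Agent.P054.T2.H307 (fib mem_fib mem_van xL) in
open Vale.Agent.P054.T2.H580 (kap) in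
/-- mirrored -/
theorem card_deg0K_famU' {k : ℕ} {A : Finset (ZZ n × ZZ n)} (hk : MuK (swp A) k)
    (Sg₂ : Finset (ZZ n))
    (hE2 : ∀ e ∈ A, e.2 ∈ Sg₂) {b β M K₁ : ℕ} {v : ℕ → ℕ} (hb : 1 ≤ b)
    (hU : H461.FamU (xL (K := ℝ) (n := n)) Prod.snd b β M K₁ A v) {k₀ : ℕ} (hk₀ : k₀ ≤ K₁)
    (hv : v k₀ = n) :
    A.card ≤ Sg₂.card * (k * ((n + 1) ^ n * ∏ j : Fin (v k₀), b ^ kap (k₀ + 1) v (j : ℕ))) := by
  classical
  obtain ⟨f, hf, hind⟩ := hU.sys hk₀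
  have h := card_deg0K' hk Sg₂ hE2 hv f (fun _ j => b ^ kap (k₀ + 1) v (j : ℕ))
    (fun _ _ _ => Nat.one_le_pow _ _ hb)
    (fun s _ j => (mem_restrictTotalDegree _ _ _).1 (mem_van.1 (hf s j)).1)
    (fun e he j => (mem_van.1 (hf e.2 j)).2 e (mem_fib.2 ⟨he, rfl⟩)) hind
  rwa [Finset.sum_const, smul_eq_mul] at h

end Vale.Agent.P054.T3.H533
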