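import Vale.Agent.P054.T2.H686.Sep
import Vale.Agent.P054.T2.H428.SecC
import Vale.Agent.P054.T2.H455.Sep

set_option autoImplicit false
set_option linter.all false

/-!
# P054 / T3: separation by the distances to fixed points

`dn a X = ∑ i #{|x - a_i| : x ∈ X}`; the vertices in `X × Y` are separated in degree
`2 (dn a X + dn a Y)`, if the distances to the `a_i` determine the points of `X` and of `Y`.
-/

namespace Vale.Agent.P054.T3.H533

open MvPolynomial Finset
open Vale.Agent.P054.T2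
open Vale.Agent.P054.T2.SecC
open Vale.Agent.P054.T2.H686 (E zt sph totalDegree_sph_le)
open Vale.Agent.P054.T2.H455 (Sep)

variable {n m : ℕ}

open scoped Classical in
/-- the numbers of distances to the points `a i` -/
noncomputable def dn (a : Fin m → E n) (X : Finset (E n)) : ℕ :=
  ∑ i, (X.image fun x => dist x (a i)).card

theorem dn_mono (a : Fin m → E n) {X X' : Finset (E n)} (h : X' ⊆ X) : dn a X' ≤ dn a X :=
  Finset.sum_le_sum fun _ _ => Finset.card_le_card (Finset.image_subset_image h)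

/-- the points of `X` are determined by the distances to the `a i` -/
def Det (a : Fin m → E n) (X : Finset (E n)) : Prop :=
  ∀ x ∈ X, ∀ x' ∈ X, (∀ i, dist x (a i) = dist x' (a i)) → x = x'

theorem Det.subset {a : Fin m → E n} {X X' : Finset (E n)} (h : Det a X) (hX : X' ⊆ X) :
    Det a X' := fun x hx x' hx' => h x (hX hx) x' (hX hx')

open scoped Classical in
/-- product over the distances to the points `a i`, except those of `x` -/
noncomputable def sepD {τ : Type*} (a : Fin m → E n) (X : Finset (E n)) (x : E n)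
    (c : Fin m → Fin (n + 1) → ℝ) (L : Fin (n + 1) → MvPolynomial τ ℝ) : MvPolynomial τ ℝ :=
  ∏ i, ∏ δ ∈ (X.image fun x => dist x (a i)).erase (dist x (a i)), sph L (c i) (δ ^ 2)

theorem totalDegree_sepD {τ : Type*} (a : Fin m → E n) (X : Finset (E n)) (x : E n)
    (c : Fin m → Fin (n + 1) → ℝ) (L : Fin (n + 1) → MvPolynomial τ ℝ)
    (hL : ∀ i, (L i).totalDegree ≤ 1) : (sepD a X x c L).totalDegree ≤ 2 * dn a X := by
  classical
  unfold sepD dn
  refine (totalDegree_finset_prod _ _).trans ?_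
  rw [Finset.mul_sum]
  refine Finset.sum_le_sum fun i _ => ?_
  refine (totalDegree_finset_prod _ _).trans ?_
  refine (Finset.sum_le_sum fun δ _ => totalDegree_sph_le L hL _ _).trans ?_
  rw [Finset.sum_const, smul_eq_mul, mul_comm]
  exact Nat.mul_le_mul_left _ (Finset.card_le_card (Finset.erase_subset _ _))

/-- `y` = the point with coordinates `L` at `u`, `d x' = dist x' (a i)` -/
theorem eval_sepD {τ : Type*} (a : Fin m → E n) (X : Finset (E n)) (x x' : E n)
    (c : Fin m → Fin (n + 1) → ℝ) (L : Fin (n + 1) → MvPolynomial τ ℝ) (u : τ → ℝ)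
    (h : ∀ i, ∑ j, (eval u (L j) - c i j) ^ 2 = dist x' (a i) ^ 2) :
    eval u (sepD a X x c L) = ∏ i, ∏ δ ∈ (X.image fun x => dist x (a i)).erase (dist x (a i)),
      (dist x' (a i) ^ 2 - δ ^ 2) := by
  classical
  unfold sepD sph
  rw [map_prod]
  refine Finset.prod_congr rfl fun i _ => ?_
  rw [map_prod]
  refine Finset.prod_congr (by congr) fun δ _ => ?_
  rw [map_sub, map_sum, eval_C, ← h i]
  congr 1
  refine Finset.sum_congr rfl fun j _ => ?_
  rw [map_pow, map_sub, eval_C]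

theorem prod_ne_zero_D (a : Fin m → E n) (X : Finset (E n)) (x : E n) :
    ∏ i, ∏ δ ∈ (X.image fun x => dist x (a i)).erase (dist x (a i)),
      (dist x (a i) ^ 2 - δ ^ 2) ≠ 0 := by
  classical
  rw [Finset.prod_ne_zero_iff]
  intro i _
  rw [Finset.prod_ne_zero_iff]
  intro δ hδ
  obtain ⟨h1, h2⟩ := Finset.mem_erase.1 hδ
  obtain ⟨z, -, rfl⟩ := Finset.mem_image.1 h2
  intro h
  apply h1
  have h3 : dist x (a i) ^ 2 = dist z (a i) ^ 2 := by linarith
  exact ((sq_eq_sq₀ dist_nonneg dist_nonneg).1 h3).symm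

theorem prod_eq_zero_D {a : Fin m → E n} {X : Finset (E n)} (hX : Det a X) {x x' : E n}
    (hx : x ∈ X) (hx' : x' ∈ X) (hne : x' ≠ x) :
    ∏ i, ∏ δ ∈ (X.image fun x => dist x (a i)).erase (dist x (a i)),
      (dist x' (a i) ^ 2 - δ ^ 2) = 0 := by
  classical
  obtain ⟨i, hi⟩ : ∃ i, dist x' (a i) ≠ dist x (a i) := by
    by_contra hcon
    push Not at hcon
    exact hne (hX x' hx' x hx hcon)
  refine Finset.prod_eq_zero (Finset.mem_univ i) ?_
  exact Finset.prod_eq_zero (Finset.mem_erase.2 ⟨hi, Finset.mem_image_of_mem _ hx'⟩) (sub_self _)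

open scoped Classical in
/-- **separation of the vertices in `X × Y`** -/
theorem sep_of_dn (a : Fin m → E n) {X Y : Finset (E n)} (hX : Det a X) (hY : Det a Y)
    (B : E n ≃ₗᵢ[ℝ] E n) (V : Finset (E n × E n)) (hV : V ⊆ X ×ˢ Y) :
    Sep (fun s : ZZ n => pt s) (2 * (dn a X + dn a Y)) (V.image (zt B)) := by
  set L1 : Fin (n + 1) → MvPolynomial (Fin (n + 1) ⊕ Fin (n + 1)) ℝ := fun i =>
    C (1 / 2) * (MvPolynomial.X (Sum.inl i) + MvPolynomial.X (Sum.inr i)) with hL1
  set L2 : Fin (n + 1) → MvPolynomial (Fin (n + 1) ⊕ Fin (n + 1)) ℝ := fun i =>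
    C (1 / 2) * (MvPolynomial.X (Sum.inr i) - MvPolynomial.X (Sum.inl i)) with hL2
  have hd1 : ∀ i, (L1 i).totalDegree ≤ 1 := by
    intro i
    refine (totalDegree_mul _ _).trans ?_
    rw [totalDegree_C, zero_add]
    exact (totalDegree_add _ _).trans (max_le (totalDegree_X _).le (totalDegree_X _).le)
  have hd2 : ∀ i, (L2 i).totalDegree ≤ 1 := by
    intro i
    refine (totalDegree_mul _ _).trans ?_
    rw [totalDegree_C, zero_add]
    exact (totalDegree_sub _ _).trans (max_le (totalDegree_X _).le (totalDegree_X _).le)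
  have he1 : ∀ (s' : E n × E n) i, eval (pt (zt B s')) (L1 i) = s'.1 i := by
    intro s' i
    simp only [hL1, map_mul, map_add, eval_C, eval_X, pt, Sum.elim_inl, Sum.elim_inr, zt]
    ring
  have he2 : ∀ (s' : E n × E n) i, eval (pt (zt B s')) (L2 i) = (B s'.2) i := by
    intro s' i
    simp only [hL2, map_mul, map_sub, eval_C, eval_X, pt, Sum.elim_inl, Sum.elim_inr, zt]
    ring
  have hs1 : ∀ s' : E n × E n, ∀ i, ∑ j, (eval (pt (zt B s')) (L1 j) - (a i) j) ^ 2 =
      dist s'.1 (a i) ^ 2 := by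
    intro s' i
    rw [EuclideanSpace.dist_eq, Real.sq_sqrt (Finset.sum_nonneg fun i _ => sq_nonneg _)]
    refine Finset.sum_congr rfl fun j _ => ?_
    rw [he1, Real.dist_eq, sq_abs]
  have hs2 : ∀ s' : E n × E n, ∀ i, ∑ j, (eval (pt (zt B s')) (L2 j) - (B (a i)) j) ^ 2 =
      dist s'.2 (a i) ^ 2 := by
    intro s' i
    rw [← B.dist_map, EuclideanSpace.dist_eq,
      Real.sq_sqrt (Finset.sum_nonneg fun i _ => sq_nonneg _)]
    refine Finset.sum_congr rfl fun j _ => ?_
    rw [he2, Real.dist_eq, sq_abs]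
  intro z hz
  obtain ⟨s, hs, rfl⟩ := Finset.mem_image.1 hz
  have hsV := Finset.mem_product.1 (hV hs)
  refine ⟨sepD a X s.1 (fun i j => (a i) j) L1 * sepD a Y s.2 (fun i j => (B (a i)) j) L2,
    ?_, ?_, ?_⟩
  · refine (totalDegree_mul _ _).trans ?_
    have h1 := totalDegree_sepD a X s.1 (fun i j => (a i) j) L1 hd1
    have h2 := totalDegree_sepD a Y s.2 (fun i j => (B (a i)) j) L2 hd2
    omega
  · show eval (pt (zt B s)) _ ≠ 0
    rw [map_mul, eval_sepD a X s.1 s.1 _ L1 _ (hs1 s), eval_sepD a Y s.2 s.2 _ L2 _ (hs2 s)]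
    exact mul_ne_zero (prod_ne_zero_D a X s.1) (prod_ne_zero_D a Y s.2)
  · intro z' hz' hne
    obtain ⟨s', hs', rfl⟩ := Finset.mem_image.1 hz'
    have hsV' := Finset.mem_product.1 (hV hs')
    show eval (pt (zt B s')) _ = 0
    rw [map_mul, eval_sepD a X s.1 s'.1 _ L1 _ (hs1 s'), eval_sepD a Y s.2 s'.2 _ L2 _ (hs2 s')]
    by_cases h1 : s'.1 = s.1
    · have h2 : s'.2 ≠ s.2 := fun h2 => hne (by rw [Prod.ext h1 h2])
      rw [prod_eq_zero_D hY hsV.2 hsV'.2 h2, mul_zero]
    · rw [prod_eq_zero_D hX hsV.1 hsV'.1 h1, zero_mul]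

end Vale.Agent.P054.T3.H533
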