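import Vale.Agent.P054.T3.H533.Sph1
import Mathlib.Analysis.InnerProductSpace.PiL2

set_option autoImplicit false
set_option linter.all false

/-!
# P054 / T3: spheres and sign classes; the numbers of distances of the classes

`card_sgn_sphere`: a sphere in `ℝ ^ (n + 1)` meets at most `(n (3 D + 2)) ^ n + 1` sign classes.
`sum_dist_cells`: `∑_c #{|x - a| : x ∈ X_c} ≤ ((n (3 D + 2)) ^ n + 1) * #{|x - a| : x ∈ X}`.
-/

namespace Vale.Agent.P054.T3.H533

open Finset MvPolynomial
open Vale.Agent.P054.T3.H109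

/-- **spheres** -/
theorem card_sgn_sphere {n : ℕ} {ι : Type*} {J : ℕ} (f : Fin J → MvPolynomial (Fin (n + 1)) ℝ)
    (a : Fin (n + 1) → ℝ) (ρ : ℝ) (T : Finset ι) (φ : ι → Fin (n + 1) → ℝ)
    (hT : ∀ t ∈ T, ∑ i, (φ t i - a i) ^ 2 = ρ ^ 2)
    (h0 : ∀ t ∈ T, ∀ j, eval (φ t) (f j) ≠ 0) :
    (T.image fun t => sgn f (φ t)).card ≤ (n * (3 * ∑ j, (f j).totalDegree + 2)) ^ n + 1 := by
  have hev : ∀ t j, eval (Sum.elim (φ t) (fun _ : Fin 0 => (0 : ℝ)))
      (rename (Sum.inl : Fin (n + 1) → Fin (n + 1) ⊕ Fin 0) (f j)) = eval (φ t) (f j) := by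
    intro t j
    rw [eval_rename]
    rfl
  classical
  have h := card_sgn_cyl (m := 0)
    (fun j => rename (Sum.inl : Fin (n + 1) → Fin (n + 1) ⊕ Fin 0) (f j)) a ρ T
    (fun t => Sum.elim (φ t) (fun _ : Fin 0 => (0 : ℝ))) (fun t ht => hT t ht)
    (fun t ht j => by rw [hev]; exact h0 t ht j)
  have h1 : (T.image fun t => sgn (fun j => rename (Sum.inl : Fin (n + 1) → Fin (n + 1) ⊕ Fin 0)
      (f j)) (Sum.elim (φ t) (fun _ : Fin 0 => (0 : ℝ)))) = T.image fun t => sgn f (φ t) := by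
    refine Finset.image_congr fun t _ => ?_
    funext j
    unfold sgn
    simp only [hev]
  rw [← h1]
  refine (le_trans (le_of_eq (by congr)) h).trans ?_
  rw [pow_zero, Nat.add_zero]
  refine Nat.add_le_add_right (Nat.pow_le_pow_left (Nat.mul_le_mul_left _ ?_) _) _
  refine Nat.add_le_add_right (Nat.mul_le_mul_left _ ?_) _
  exact Finset.sum_le_sum fun j _ => totalDegree_rename_le _ _

/-- double counting: the values of `g` on the classes of `cl`, if every level set of `g` meets at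
most `K` classes -/
theorem sum_image_le {α κ γ : Type*} [DecidableEq κ] [DecidableEq γ] (S : Finset α) (cl : α → κ) (g : α → γ) {K : ℕ}
    (h : ∀ δ ∈ S.image g, ((S.filter fun s => g s = δ).image cl).card ≤ K) :
    ∑ c ∈ S.image cl, ((S.filter fun s => cl s = c).image g).card ≤ K * (S.image g).card := by
  have h1 : ∀ c ∈ S.image cl, ((S.filter fun s => cl s = c).image g).card =
      ((S.image fun s => (cl s, g s)).filter fun p => p.1 = c).card := by
    intro c _
    refine Finset.card_bij' (fun x _ => (c, x)) (fun p _ => p.2) ?_ ?_ ?_ ?_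
    · intro x hx
      obtain ⟨s, hs, rfl⟩ := Finset.mem_image.1 hx
      obtain ⟨h1, h2⟩ := Finset.mem_filter.1 hs
      exact Finset.mem_filter.2 ⟨Finset.mem_image.2 ⟨s, h1, by rw [h2]⟩, rfl⟩
    · intro p hp
      obtain ⟨h1, h2⟩ := Finset.mem_filter.1 hp
      obtain ⟨s, hs, rfl⟩ := Finset.mem_image.1 h1
      exact Finset.mem_image.2 ⟨s, Finset.mem_filter.2 ⟨hs, h2⟩, rfl⟩
    · intro x _; rfl
    · intro p hp
      obtain ⟨h1, h2⟩ := Finset.mem_filter.1 hp
      exact Prod.ext h2.symm rfl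
  have h2 : ∀ δ ∈ S.image g, ((S.image fun s => (cl s, g s)).filter fun p => p.2 = δ).card ≤
      K := by
    intro δ hδ
    refine le_trans (le_of_eq ?_) (h δ hδ)
    refine Finset.card_bij' (fun p _ => p.1) (fun x _ => (x, δ)) ?_ ?_ ?_ ?_
    · intro p hp
      obtain ⟨h1, h2⟩ := Finset.mem_filter.1 hp
      obtain ⟨s, hs, rfl⟩ := Finset.mem_image.1 h1
      exact Finset.mem_image.2 ⟨s, Finset.mem_filter.2 ⟨hs, h2⟩, rfl⟩
    · intro x hx
      obtain ⟨s, hs, rfl⟩ := Finset.mem_image.1 hx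
      obtain ⟨h1, h2⟩ := Finset.mem_filter.1 hs
      exact Finset.mem_filter.2 ⟨Finset.mem_image.2 ⟨s, h1, by rw [h2]⟩, rfl⟩
    · intro p hp
      obtain ⟨h1, h2⟩ := Finset.mem_filter.1 hp
      exact Prod.ext rfl h2.symm
    · intro x _; rfl
  rw [Finset.sum_congr rfl h1, ← Finset.card_eq_sum_card_fiberwise (f := Prod.fst)
    (s := S.image fun s => (cl s, g s)) (t := S.image cl) (fun p hp => by
      obtain ⟨s, hs, rfl⟩ := Finset.mem_image.1 hp
      exact Finset.mem_image_of_mem _ hs),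
    Finset.card_eq_sum_card_fiberwise (f := Prod.snd)
    (s := S.image fun s => (cl s, g s)) (t := S.image g) (fun p hp => by
      obtain ⟨s, hs, rfl⟩ := Finset.mem_image.1 hp
      exact Finset.mem_image_of_mem _ hs)]
  calc ∑ δ ∈ S.image g, ((S.image fun s => (cl s, g s)).filter fun p => p.2 = δ).card
      ≤ ∑ δ ∈ S.image g, K := Finset.sum_le_sum h2
    _ = K * (S.image g).card := by rw [Finset.sum_const, smul_eq_mul, mul_comm]

open scoped Classical in
/-- **distances of the classes**: `X` off the zero sets of the `f j` -/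
theorem sum_dist_cells {n J : ℕ} (f : Fin J → MvPolynomial (Fin (n + 1)) ℝ)
    (X : Finset (EuclideanSpace ℝ (Fin (n + 1)))) (a : EuclideanSpace ℝ (Fin (n + 1)))
    (h0 : ∀ x ∈ X, ∀ j, eval (fun i => x i) (f j) ≠ 0) :
    ∑ c ∈ X.image (fun x => sgn f (fun i => x i)),
      ((X.filter fun x => sgn f (fun i => x i) = c).image fun x => dist x a).card ≤
      ((n * (3 * ∑ j, (f j).totalDegree + 2)) ^ n + 1) * (X.image fun x => dist x a).card := by
  refine sum_image_le X (fun x => sgn f (fun i => x i)) (fun x => dist x a) fun δ hδ => ?_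
  refine card_sgn_sphere f (fun i => a i) δ (X.filter fun x => dist x a = δ)
    (fun x i => x i) (fun x hx => ?_) (fun x hx => h0 x (Finset.mem_filter.1 hx).1)
  have h1 := (Finset.mem_filter.1 hx).2
  rw [← h1, EuclideanSpace.dist_eq, Real.sq_sqrt (Finset.sum_nonneg fun i _ => sq_nonneg _)]
  refine Finset.sum_congr rfl fun i _ => ?_
  rw [Real.dist_eq, sq_abs]

end Vale.Agent.P054.T3.H533
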