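import Vale.Agent.P054.T3.H533.CaseV

set_option autoImplicit false
set_option linter.all false

/-!
# P054 / T3, `n = 2`: SEAM + B + C with thresholds which depend on the vertex ('or' version)
-/

namespace Vale.Agent.P054.T3.H533

open MvPolynomial Finset Module
open Vale.Agent.P054.T2
open Vale.Agent.P054.T2.SecC
open Vale.Agent.P054.T2.H163
open Vale.Agent.P054.T2.H686 (mu Qf Bf Crd zt dists E Ez Gm Ez_pairs Ez_ne Ez_Qf toX toY toX_zt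
  toY_zt)
open Vale.Agent.P054.T2.H192 (Iso)
open Vale.Agent.P054.T2.H455 (Sep)
open Vale.Agent.P054.T2.H580 (Vw wh kap)
open Vale.Agent.P054.T2.H930 (germ Pt edgePt ZData)
open Vale.Agent.P054.T2.H269 (Cs)
open Vale.Agent.P054.T2.H307 (Ed NN xF xL)
open Vale.Agent.P054.T3.H182 (F5 BData BOut CB qB secB)
open Vale.Agent.P054.T3.H461 (FamU)
open Vale.Agent.P054.T3.H637 (IsoE EdgeX EdgeW CntG FlatQ dt dt_mul)
open Vale.Agent.P054.T3.H807 (leafB pdeg leafB_eq)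
open Vale.Agent.P054.T3.H533.B (KB ML mS lenS exists_BD)

variable {n : ℕ}

/-- in the cases (A'), (B'): the direction space of the other side lies in the maximal isotropic
space -/
def VSubH (n : ℕ) : Prop :=
  ∀ (A : Finset (ZZ n × ZZ n)) (W D σ v : ℕ) (S : Side n A W D σ v) (e : ZZ n × ZZ n), e ∈ A →
    ∀ V₁ : Submodule ℝ (ZZ n), (∀ a ∈ S.V e, ∀ b ∈ V₁, Bf a b = 0) → e.1 - e.2 ∉ V₁ →
      finrank ℝ V₁ = n → Iso (V₁ ⊔ Submodule.span ℝ {e.1 - e.2}) →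
      S.V e ≤ V₁ ⊔ Submodule.span ℝ {e.1 - e.2}

theorem leafB_two (σ t G G' Gf : ℕ) (h : σ < 2 → G = G') : leafB 2 σ t G Gf = leafB 2 σ t G' Gf := by
  rw [← leafB_eq, ← leafB_eq]
  by_cases hσ : σ < 2
  · rw [h hσ]
  · rw [if_neg hσ, if_neg hσ, if_neg hσ]

section bout

variable {W D c₀ σ₁ σ₂ : ℕ} {E' : Finset (ZZ n × ZZ n)} {P : Finset (E n)}
  {B : E n ≃ₗᵢ[ℝ] E n} {dF d1 d2 : ℕ → ℕ} (O : BOut n W D c₀ σ₁ σ₂ E' P B dF d1 d2)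

include O

open Classical in
/-- `n = 2`: the count, thresholds `m` which depend on the vertex; no rich isometries of determinant
`dt B` (local version) at the edges outside `R` -/
theorem BOut.count2V (hn : n = 2) (hVS : VSubH n)
    (hdF1 : ∀ i < c₀, 1 ≤ dF i) (hd11 : ∀ i < n - σ₁, 1 ≤ d1 i)
    (hd21 : ∀ i < n - σ₂, 1 ≤ d2 i) {t β' : ℕ} (ht1 : 1 ≤ t)
    (hB : Gm P B) (hE : E' ⊆ Ez P B β') {Gf b a₁ : ℕ} (hF : FlatQ n P Gf) (hPG : P.card ≤ Gf)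
    {E0 : Finset (ZZ n × ZZ n)} (hE0 : E' ⊆ E0) (m : ZZ n → ℕ)
    (R : Finset (ZZ n × ZZ n)) (hN : ∀ e ∈ E', e ∉ R → NoRichL B E0 m (dt B) e)
    {Sg₁ Sg₂ : Finset (ZZ n)}
    (hs1 : Sep (fun s : ZZ n => pt s) (4 * t) Sg₁) (hs2 : Sep (fun s : ZZ n => pt s) (4 * t) Sg₂)
    (hE1 : ∀ e ∈ E', e.1 ∈ Sg₁) (hE2 : ∀ e ∈ E', e.2 ∈ Sg₂)
    (hD : D ≤ b ^ a₁) (hCs : Cs n ≤ b) (hCx : H819.Cx n ≤ b) (h9 : 9 ^ n ≤ b)
    (h100 : 4 * 25 ^ n ≤ b) :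
    E'.card ≤ 2 * (R.card + b ^ (a₁ * (4 * (n + 1)) + 2) *
      ((∏ i : Fin (n - σ₁), d1 i) * (∑ s ∈ Sg₁, leafB n σ₁ t (m s) Gf) +
        (∏ i : Fin (n - σ₂), d2 i) * (∑ s ∈ Sg₂, leafB n σ₂ t (m s) Gf) +
        termF n σ₁ σ₂ t (∏ i : Fin c₀, dF i))) := by
  subst hn
  have hAE : O.A ⊆ Ez P B β' := O.sub.trans hE
  have hA1 : ∀ e ∈ O.A, ∃ s ∈ P ×ˢ P, e.1 = zt B s := by
    intro e he
    obtain ⟨s, hs, r, hr, rfl, -⟩ := Ez_pairs (hAE he)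
    exact ⟨s, hs, rfl⟩
  have hA2 : ∀ e ∈ O.A, ∃ r ∈ P ×ˢ P, e.2 = zt B r := by
    intro e he
    obtain ⟨s, hs, r, hr, rfl, -⟩ := Ez_pairs (hAE he)
    exact ⟨r, hr, rfl⟩
  have hA : ∀ e ∈ O.A, ∃ s r : E 2 × E 2, e = (zt B s, zt B r) := by
    intro e he
    obtain ⟨s, -, h1⟩ := hA1 e he
    obtain ⟨r, -, h2⟩ := hA2 e he
    exact ⟨s, r, Prod.ext h1 h2⟩
  have hEW := BOut.edgeW O (by omega) hB hE
  set G₁ : ZZ 2 → ℕ := fun s => if σ₁ < 2 then m s else max (m s) O.A.card with hG₁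
  set G₂ : ZZ 2 → ℕ := fun s => if σ₂ < 2 then m s else max (m s) (swp O.A).card with hG₂
  have hm₁ : ∀ s, m s ≤ G₁ s := by
    intro s
    rw [hG₁]
    dsimp only
    split_ifs
    · exact le_rfl
    · exact le_max_left _ _
  have hm₂ : ∀ s, m s ≤ G₂ s := by
    intro s
    rw [hG₂]
    dsimp only
    split_ifs
    · exact le_rfl
    · exact le_max_left _ _
  have key : ∀ e ∈ O.A, e ∈ R ∨ EdgeV O.S₁ O.S₂ (G₁ e.1) (G₂ e.2) e := by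
    intro e he
    by_cases hR : e ∈ R
    · exact Or.inl hR
    right
    have he2 : e.swap ∈ swp O.A := mem_swp.2 (by rwa [Prod.swap_swap])
    refine edgeV_of_edgeW rfl O.S₁ O.S₂ B (O.sub.trans hE0) hA ?_ ?_ he (hm₁ _) (hm₂ _)
      (hN e (O.sub he) hR) (hEW e he) ?_ ?_
    · intro h e' he' _ _ _
      have h3 : ¬ σ₁ < 2 := by omega
      rw [hG₁]
      dsimp only
      rw [if_neg h3]
      exact (Finset.card_le_card fun x hx => (O.S₁.mem_cls.1 hx).1).trans (le_max_right _ _)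
    · intro h e' he' _ _ _
      have h3 : ¬ σ₂ < 2 := by omega
      rw [hG₂]
      dsimp only
      rw [if_neg h3]
      exact (Finset.card_le_card fun x hx => (O.S₂.mem_cls.1 hx).1).trans (le_max_right _ _)
    · intro a1 a2 a3
      have h4 := hVS _ _ _ _ _ O.S₂ e.swap he2 (O.S₁.V e) (hEW e he).hperp
        (by rwa [mem_swap_iff]) a2 (by rwa [span_swap])
      rwa [span_swap] at h4
    · intro a1 a2 a3
      refine hVS _ _ _ _ _ O.S₁ e he (O.S₂.V e.swap) (fun a ha b hb => ?_) a1 a2 a3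
      rw [H192.Bf_comm]
      exact (hEW e he).hperp b hb a ha
  have hcase := hcase_TV O.S₁ O.S₂ R O.ste key hs1 hs2 (fun e he => hE1 e (O.sub he))
    (fun e he => hE2 e (O.sub he)) hF hPG B hA1 hA2
  have hmain := BOut.countV O hdF1 hd11 hd21 ht1 R hcase hs1 hs2 hE1 hE2 hD hCs hCx h9 h100
  have e1 : ∀ s ∈ Sg₁, leafB 2 σ₁ t (G₁ s) Gf = leafB 2 σ₁ t (m s) Gf := fun s _ =>
    leafB_two _ _ _ _ _ fun h => by rw [hG₁]; exact if_pos h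
  have e2 : ∀ s ∈ Sg₂, leafB 2 σ₂ t (G₂ s) Gf = leafB 2 σ₂ t (m s) Gf := fun s _ =>
    leafB_two _ _ _ _ _ fun h => by rw [hG₂]; exact if_pos h
  rw [Finset.sum_congr rfl e1, Finset.sum_congr rfl e2] at hmain
  exact hmain

end bout

open Classical in
/-- **SEAM + B + C**, `n = 2`, thresholds `m` which depend on the vertex, 'or' version; `Rp` = the
edges where rich isometries of determinant `dt B` are allowed -/
theorem abc2V (hVS : VSubH 2) (L M : ℕ) (hL : 0 < L) :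
    ∃ β₀ : ℕ, ∀ β, β₀ ≤ β → ∀ (K₁ k₀ : ℕ) (E₁ : Finset (Ed 2 ℝ)) (vF v1 v2 : ℕ → ℕ),
      E₁.Nonempty →
      FamU (xF (n := 2) (K := ℝ)) (fun _ => ()) (β ^ L) β M K₁ E₁ vF →
      FamU (xL (n := 2) (K := ℝ)) Prod.fst (β ^ L) β M K₁ E₁ v1 →
      FamU (xL (n := 2) (K := ℝ)) Prod.snd (β ^ L) β M K₁ E₁ v2 →
      k₀ + lenBC 2 L M ≤ K₁ + 1 →
      (∀ l, k₀ ≤ l → l < k₀ + lenBC 2 L M → vF l = vF k₀ ∧ v1 l = v1 k₀ ∧ v2 l = v2 k₀) →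
      (2 * 2 + 1) - vF k₀ = (2 - v1 k₀) + (2 - v2 k₀) → v1 k₀ < 2 → v2 k₀ < 2 →
      ∀ (P : Finset (E 2)) (B : E 2 ≃ₗᵢ[ℝ] E 2) (β' t : ℕ), Gm P B → E₁ ⊆ Ez P B β' →
      1 ≤ t →
      ∀ Gf : ℕ, FlatQ 2 P Gf → P.card ≤ Gf →
      ∀ (E0 : Finset (ZZ 2 × ZZ 2)) (m : ZZ 2 → ℕ), E₁ ⊆ E0 →
      ∀ Rp : ZZ 2 × ZZ 2 → Prop, (∀ e ∈ E₁, ¬ Rp e → NoRichL B E0 m (dt B) e) →
      ∀ Sg₁ Sg₂ : Finset (ZZ 2), Sep (fun s : ZZ 2 => pt s) (4 * t) Sg₁ →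
      Sep (fun s : ZZ 2 => pt s) (4 * t) Sg₂ →
      (∀ e ∈ E₁, e.1 ∈ Sg₁) → (∀ e ∈ E₁, e.2 ∈ Sg₂) →
      ∃ E₂ ⊆ E₁, E₂.Nonempty ∧ E₁.card ≤ β ^ lossBC 2 * E₂.card ∧
        E₂.card ≤ 2 * ((E₂.filter Rp).card + (β ^ L) ^ aBC 2 L M *
          (pdeg (β ^ L) k₀ v1 * (∑ s ∈ Sg₁, leafB 2 (2 - v1 k₀) t (m s) Gf) +
            pdeg (β ^ L) k₀ v2 * (∑ s ∈ Sg₂, leafB 2 (2 - v2 k₀) t (m s) Gf) +
            termF 2 (2 - v1 k₀) (2 - v2 k₀) t (pdeg (β ^ L) k₀ vF))) := by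
  obtain ⟨β₀, h⟩ := exists_BOut 2 L M (by omega) hL
  refine ⟨max β₀ (max 1 (max (Cs 2) (max (H819.Cx 2) (max (9 ^ 2) (4 * 25 ^ 2))))),
    fun β hβ => ?_⟩
  have hβ1 : 1 ≤ β := (le_max_left _ _).trans ((le_max_right _ _).trans hβ)
  have hb : β ≤ β ^ L := Nat.le_self_pow hL.ne' _
  have hr2 := (le_max_right _ _).trans ((le_max_right _ _).trans hβ)
  have hCs : Cs 2 ≤ β ^ L := ((le_max_left _ _).trans hr2).trans hb
  have hr3 := (le_max_right _ _).trans hr2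
  have hCx : H819.Cx 2 ≤ β ^ L := ((le_max_left _ _).trans hr3).trans hb
  have hr4 := (le_max_right _ _).trans hr3
  have h9 : 9 ^ 2 ≤ β ^ L := ((le_max_left _ _).trans hr4).trans hb
  have h100 : 4 * 25 ^ 2 ≤ β ^ L := ((le_max_right _ _).trans hr4).trans hb
  have hb1 : 1 ≤ β ^ L := hβ1.trans hb
  intro K₁ k₀ E₁ vF v1 v2 hE₁ hF h1 h2 hlen hwin htight hp1 hp2 P B β' t hB hE ht1
    Gf hFl hPG E0 m hE0 Rp hR Sg₁ Sg₂ hs1 hs2 hE1 hE2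
  obtain ⟨E₂, hE₂, hne, hc, D, hD, O, -⟩ := h β ((le_max_left _ _).trans hβ) K₁ k₀ E₁ vF v1 v2 hE₁
    hF h1 h2 hlen hwin htight hp1 hp2 P B β' hB hE
  refine ⟨E₂, hE₂, hne, hc, ?_⟩
  have h3 := BOut.count2V O rfl hVS (fun i _ => Nat.one_le_pow _ _ hb1)
    (fun i _ => Nat.one_le_pow _ _ hb1) (fun i _ => Nat.one_le_pow _ _ hb1) ht1 hB
    (hE₂.trans hE) hFl hPG (hE₂.trans hE0) m (E₂.filter Rp)
    (fun e he hn => hR e (hE₂ he) fun h4 => hn (Finset.mem_filter.2 ⟨he, h4⟩)) hs1 hs2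
    (fun e he => hE1 e (hE₂ he)) (fun e he => hE2 e (hE₂ he)) hD hCs hCx h9 h100
  rw [prod_eq_pdeg (n := 2) (σ := 2 - v1 k₀) (v := v1) (by omega),
    prod_eq_pdeg (n := 2) (σ := 2 - v2 k₀) (v := v2) (by omega)] at h3
  exact h3

end Vale.Agent.P054.T3.H533
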