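import Vale.Agent.P054.T3.H533.CountV2

set_option autoImplicit false
set_option linter.all false

/-!
# P054 / T3: in the cases (A'), (B') the direction space of the other side lies in the maximal
isotropic space

`w = s - r ∉ V₁`, `dim V₁ = n`, `U = V₁ ⊔ ⟨w⟩` isotropic, `V ⊥ V₁` the direction space of the variety
of `r`. Then `V ≤ U`: on `V₁^⊥` the form is `Bf w · Bf w'`, and `Q(r' - s) = 0` splits.
-/

namespace Vale.Agent.P054.T3.H533

open MvPolynomial Finset Module
open Vale.Agent.P054.T2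
open Vale.Agent.P054.T2.SecC
open Vale.Agent.P054.T2.H686 (Qf Bf)
open Vale.Agent.P054.T2.H192 (Iso orth mem_orth mem_orth' finrank_orth finrank_sup_span)
open Vale.Agent.P054.T2.H930 (germ germ_isPrime)

variable {n : ℕ} {A : Finset (ZZ n × ZZ n)} {W D σ v : ℕ}

theorem Pr_isPrime (S : Side n A W D σ v) {e : ZZ n × ZZ n} (he : e ∈ A) : (S.Pr e).IsPrime := by
  have hP : (S.P e).IsPrime := germ_isPrime (S.hzero e he) (S.hind e he)
  exact Ideal.IsPrime.comap _

theorem vsub (S : Side n A W D σ v) {e : ZZ n × ZZ n} (he : e ∈ A) {V₁ : Submodule ℝ (ZZ n)}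
    (hperp : ∀ a ∈ S.V e, ∀ b ∈ V₁, Bf a b = 0) (hw : e.1 - e.2 ∉ V₁) (hd : finrank ℝ V₁ = n)
    (hI : Iso (V₁ ⊔ Submodule.span ℝ {e.1 - e.2})) :
    S.V e ≤ V₁ ⊔ Submodule.span ℝ {e.1 - e.2} := by
  set w := e.1 - e.2 with hwdef
  set U := V₁ ⊔ Submodule.span ℝ {w} with hU
  have hdU : finrank ℝ U = n + 1 := by
    rw [hU, finrank_sup_span _ hw, hd]
  have hUo : U = orth U := hI.eq_orth hdU
  have hwU : w ∈ U := Submodule.mem_sup_right (Submodule.mem_span_singleton_self _)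
  have hV₁U : V₁ ≤ U := le_sup_left
  have hQw : Qf w = 0 := hI w hwU
  have hww : Bf w w = 0 := by rw [H192.Bf_self, hQw, mul_zero]
  -- `x ⊥ V₁`, `x ⊥ w` gives `x ∈ U`
  have hmemU : ∀ x : ZZ n, (∀ b ∈ V₁, Bf x b = 0) → Bf w x = 0 → x ∈ U := by
    intro x h1 h2
    rw [hUo, mem_orth']
    intro u hu
    obtain ⟨b, hb, c, hc, rfl⟩ := Submodule.mem_sup.1 hu
    obtain ⟨α, rfl⟩ := Submodule.mem_span_singleton.1 hc
    rw [H192.Bf_add_right, h1 b hb, H686.Bf_smul_right, H192.Bf_comm x w, h2, mul_zero, add_zero]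
  -- the second isotropic vector
  obtain ⟨w', hw'1, hw'2, hw'3⟩ : ∃ w' : ZZ n, (∀ b ∈ V₁, Bf w' b = 0) ∧ Bf w w' = 1 ∧ Qf w' = 0 := by
    have h1 : ∃ y ∈ orth V₁, y ∉ U := by
      by_contra hcon
      push Not at hcon
      have h2 : orth V₁ ≤ U := fun y hy => hcon y hy
      have h3 : finrank ℝ (orth V₁) ≤ n + 1 := (Submodule.finrank_mono h2).trans (le_of_eq hdU)
      have h4 := finrank_orth V₁
      rw [hd] at h4
      omega
    obtain ⟨y, hy, hyU⟩ := h1
    have hy' : ∀ b ∈ V₁, Bf y b = 0 := mem_orth'.1 hy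
    have hc : Bf w y ≠ 0 := fun h => hyU (hmemU y hy' h)
    set c := Bf w y with hcdef
    set y' : ZZ n := c⁻¹ • y with hy'def
    have h5 : Bf w y' = 1 := by
      rw [hy'def, H686.Bf_smul_right, ← hcdef, inv_mul_cancel₀ hc]
    have h6 : ∀ b ∈ V₁, Bf y' b = 0 := by
      intro b hb
      rw [hy'def, H192.Bf_smul_left, hy' b hb, mul_zero]
    refine ⟨y' + (-Qf y') • w, fun b hb => ?_, ?_, ?_⟩
    · rw [H192.Bf_add_left, h6 b hb, H192.Bf_smul_left, hI.Bf_eq_zero hwU (hV₁U hb), mul_zero,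
        add_zero]
    · rw [H192.Bf_add_right, h5, H686.Bf_smul_right, hww, mul_zero, add_zero]
    · have hq : Qf ((-Qf y') • w) = 0 := by rw [H686.Qf_smul, hQw, mul_zero]
      rw [H686.Qf_add, hq, H686.Bf_smul_right, H192.Bf_comm y' w, h5]
      ring
  -- the form on `V₁^⊥`
  have hform : ∀ b : ZZ n, (∀ a ∈ V₁, Bf b a = 0) → Qf b = Bf w b * Bf w' b := by
    intro b hb
    set β := Bf w b with hβ
    have hu : b + (-β) • w' ∈ U := by
      refine hmemU _ (fun a ha => ?_) ?_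
      · rw [H192.Bf_add_left, hb a ha, H192.Bf_smul_left, hw'1 a ha, mul_zero, add_zero]
      · rw [H192.Bf_add_right, H686.Bf_smul_right, hw'2, ← hβ]
        ring
    have h1 := hI _ hu
    have hq : Qf ((-β) • w') = 0 := by rw [H686.Qf_smul, hw'3, mul_zero]
    rw [H686.Qf_add, hq, H686.Bf_smul_right, H192.Bf_comm b w'] at h1
    linarith
  -- the product is in the prime
  have hev : ∀ (l : ZZ n) (b : ZZ n), eval (pt (e.2 + b)) (linL (Side.BfL l) e.2) = Bf l b := by
    intro l b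
    rw [eval_linL, map_add, add_sub_cancel_left]
    rfl
  have hG : linL (Side.BfL w) e.2 * (linL (Side.BfL w') e.2 - 1) ∈ S.Pr e := by
    have h1 : Side.qq e.1 - linL (Side.BfL w) e.2 * (linL (Side.BfL w') e.2 - 1) ∈ S.Pr e := by
      refine S.mem_Pr_of_flat fun b hb => ?_
      have h2 : e.2 + b - e.1 = b + (-1 : ℝ) • w := by
        rw [hwdef, neg_one_smul]
        abel
      have hq : Qf ((-1 : ℝ) • w) = 0 := by rw [H686.Qf_smul, hQw, mul_zero]
      rw [map_sub, Side.eval_qq, map_mul, map_sub, hev, hev, map_one, h2, H686.Qf_add,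
        hq, H686.Bf_smul_right, H192.Bf_comm b w, hform b (hperp b hb)]
      ring
    have h2 := Ideal.sub_mem _ (S.qq_mem he) h1
    rwa [sub_sub_cancel] at h2
  have hw0 : linL (Side.BfL w) e.2 ∈ S.Pr e := by
    rcases (Pr_isPrime S he).mem_or_mem hG with h | h
    · exact h
    · exfalso
      have h1 := S.eval_eq_zero_of_mem_Pr he h
      have h2 := hev w' 0
      rw [add_zero] at h2
      rw [map_sub, h2, map_one] at h1
      have h3 : Bf w' (0 : ZZ n) = 0 := (Side.BfL w').map_zero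
      rw [h3] at h1
      norm_num at h1
  intro b hb
  exact hmemU b (hperp b hb) (S.mem_V.1 hb _ hw0)

/-- **[VSUB]** -/
theorem vSubH (n : ℕ) : VSubH n :=
  fun _ _ _ _ _ S _ he _ hperp hw hd hI => vsub S he hperp hw hd hI

end Vale.Agent.P054.T3.H533
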