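import Vale.Agent.P054.T3.H533.CountBD

set_option autoImplicit false
set_option linter.all false

/-!
# P054 / T3, sections B + C: the count with an abstract separation degree

`(dists P).card ≤ t` is replaced by: the vertices of the edges are separated in degree `4 * t`
(`H455.Sep`), `t` any number.  `NoRichS`: no rich isometries on a set of vertices.
-/

namespace Vale.Agent.P054.T3.H533

open MvPolynomial Finset Module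
open Vale.Agent.P054.T2
open Vale.Agent.P054.T2.SecC
open Vale.Agent.P054.T2.H163
open Vale.Agent.P054.T2.H686 (mu Qf Bf Crd zt dists E Ez Gm Ez_pairs Ez_ne Ez_Qf toX toY toX_zt
  toY_zt)
open Vale.Agent.P054.T2.H441 (hF rkY)
open Vale.Agent.P054.T2.H192 (Iso)
open Vale.Agent.P054.T2.H455 (Sep)
open Vale.Agent.P054.T2.H580 (Vw wh kap)
open Vale.Agent.P054.T2.H930 (germ Pt edgePt ZData)
open Vale.Agent.P054.T2.H269 (Cs)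
open Vale.Agent.P054.T2.H307 (Ed NN xF xL)
open Vale.Agent.P054.T3.H182 (F5 BData BOut CB qB secB)
open Vale.Agent.P054.T3.H461 (FamU)
open Vale.Agent.P054.T3.H637 (IsoE EdgeX EdgeW PSEdge CntG FlatQ NoRich dt dt_mul edgeX_or_ps
  edgeX_of_edgeW vertSW card_cls_of_flatQ exists_graph_dt exists_graph_wrong)
open Vale.Agent.P054.T3.H807 (leafB pdeg CntQ card_main2 side_countQ exists_primesP leaf_natP
  pair_natP pow_N_le leafB_eq)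
open Vale.Agent.P054.T3.H854 (IsoBL)
open Vale.Agent.P054.T3.H533.B (KB ML mS lenS exists_BD)

variable {n : ℕ} {A : Finset (ZZ n × ZZ n)} {W D σ v : ℕ}

/-! ## separation -/

theorem sep_cls_T (S : Side n A W D σ v) {N : ℕ} {Sg : Finset (ZZ n)}
    (hs : Sep (fun s : ZZ n => pt s) N Sg) (hE2 : ∀ e ∈ A, e.2 ∈ Sg) (e : ZZ n × ZZ n) :
    Sep (fun e' : ZZ n × ZZ n => pt e'.2) N (S.cls e) := by
  intro e₁ he₁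
  have h1 := S.mem_cls.1 he₁
  obtain ⟨F, h2, h3, h4⟩ := hs e₁.2 (hE2 _ h1.1)
  refine ⟨F, h2, h3, fun e₂ he₂ hne => h4 e₂.2 (hE2 _ (S.mem_cls.1 he₂).1) fun h => hne ?_⟩
  exact Prod.ext ((S.mem_cls.1 he₂).2.1.trans h1.2.1.symm) h

/-- **[C10]** the number of bad points, `v = 0` -/
theorem card_bad_T (S : Side n A W D σ v) (hv : v = 0) {N : ℕ} {e : ZZ n × ZZ n} (he : e ∈ A)
    (Y : Finset (ZZ n)) (hsep : Sep (fun s : ZZ n => pt s) N Y)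
    (hbad : ∀ s ∈ Y, Bad (S.Pr e) (pt s)) : Y.card ≤ 2 * (N + 1) ^ σ := by
  classical
  subst hv
  obtain ⟨C, hC⟩ := H84.hF_Pr_le S he
  have hcard : (Y.image fun s : ZZ n => pt s).card = Y.card :=
    Finset.card_image_of_injective _ pt_injective
  have h1 := H431.card_bad_le (S.Pr e) (Δ := C) (σ := σ) hC
    (H431.one_le_hF (S.Pr e) (H84.Pr_ne_top S he)) (Y.image fun s : ZZ n => pt s) (D := N)
    (by rw [hsep.rkY_eq, hcard]) (by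
      intro p hp
      obtain ⟨s, hs, rfl⟩ := Finset.mem_image.1 hp
      exact hbad s hs)
  rwa [hcard] at h1

/-! ## section C -/

/-- **section C, product of the degrees, bipartite, abstract separation degree `4 * t`** -/
theorem secC_prodT {E0 E1 A : Finset (ZZ n × ZZ n)} {N c₀ c₁ c₂ σ₁ σ₂ W D v₁ v₂ : ℕ}
    (Z : ZData ℝ n E0 E1 A (wh (Crd n) (Pt n) W) N c₀ c₁ c₂ σ₁ σ₂)
    (S₁ : Side n A W D σ₁ v₂) (S₂ : Side n (swp A) W D σ₂ v₁)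
    (hK1 : ∀ e ∈ A, ∀ F : MvPolynomial (ZI n) ℝ, rename (fun x => Sum.inr (Sum.inr x)) F ∈
      germ (edgePt e.1 e.2) Z.F ↔ F ∈ S₁.Pr e)
    (hK2 : ∀ e ∈ A, ∀ F : MvPolynomial (ZI n) ℝ, rename (fun x => Sum.inr (Sum.inl x)) F ∈
      germ (edgePt e.1 e.2) Z.F ↔ F ∈ S₂.Pr e.swap)
    (hhd : ∀ i, Z.h i ∈ Vw ℝ (wh (Crd n) (Pt n) W) (D * W))
    (hhd' : ∀ i, Z.h' i ∈ Vw ℝ (wh (Crd n) (Pt n) W) (D * W))
    (hc₁ : c₁ + v₁ = 2 * (n + 1)) (hc₂ : c₂ + v₂ = 2 * (n + 1))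
    {τF : Fin c₀ → ℕ} (hτF1 : ∀ i, 1 ≤ τF i) (hτF : ∀ i, (Z.f i).totalDegree ≤ τF i)
    {τ₁ : ZZ n → Fin (n - σ₁) → ℕ} (hτ₁1 : ∀ s i, 1 ≤ τ₁ s i)
    {τ₂ : ZZ n → Fin (n - σ₂) → ℕ} (hτ₂1 : ∀ s i, 1 ≤ τ₂ s i)
    {t : ℕ} {Sg₁ Sg₂ : Finset (ZZ n)}
    (hs1 : Sep (fun s : ZZ n => pt s) (4 * t) Sg₁) (hs2 : Sep (fun s : ZZ n => pt s) (4 * t) Sg₂)
    (hE1 : ∀ e ∈ A, e.1 ∈ Sg₁) (hE2 : ∀ e ∈ A, e.2 ∈ Sg₂)
    (hτ₁ : ∀ s ∈ Sg₁, ∀ i, (S₁.f s i).totalDegree ≤ τ₁ s i)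
    (hτ₂ : ∀ s ∈ Sg₂, ∀ i, (S₂.f s i).totalDegree ≤ τ₂ s i)
    {N₁ N₂ G₁ G₂ κ₁ κ₂ : ℕ} {q₁ q₂ : Prop} (hκ₁ : q₁ → (N₁ + 1) ^ σ₁ ≤ κ₁)
    (hκ₂ : q₂ → (N₂ + 1) ^ σ₂ ≤ κ₂) (R : Finset (ZZ n × ZZ n))
    (hcase : ∀ e ∈ A, e ∈ R ∨ CntQ S₁ q₁ N₁ G₁ e ∨ CntQ S₂ q₂ N₂ G₂ e.swap ∨ BB S₁ S₂ e) :
    A.card ≤ R.card +
      ((∑ s ∈ Sg₁, Cs n * D ^ (2 * (n + 1)) * (∏ i, τ₁ s i) * (κ₁ + G₁)) +
      (∑ s ∈ Sg₂, Cs n * D ^ (2 * (n + 1)) * (∏ i, τ₂ s i) * (κ₂ + G₂)) +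
      (H819.Cx n * D ^ (4 * (n + 1)) * ∏ i, τF i) *
        ((2 * (4 * t + 1) ^ σ₁) * (2 * (4 * t + 1) ^ σ₂))) := by
  classical
  obtain ⟨X, hX1, hX2⟩ := exists_primesP Z S₁.hW S₁.hD hτF1 hτF hhd hhd' hc₁ hc₂
  refine card_main2 S₁ S₂ Sg₁ Sg₂ hE1 hE2 (H82.Qe Z) ?_ ?_ R _ _ hcase ?_ ?_ ?_ ?_ ?_
  · intro e he e' he' h
    unfold H82.Qe at h
    ext F
    rw [← hK1 e he F, ← hK1 e' he' F, h]
  · intro e he e' he' h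
    unfold H82.Qe at h
    ext F
    rw [← hK2 e he F, ← hK2 e' he' F, h]
  · intro s hs
    exact side_countQ S₁ s (hτ₁1 s) (hτ₁ s hs) q₁ N₁ G₁ κ₁ hκ₁
  · intro s hs
    exact side_countQ S₂ s (hτ₂1 s) (hτ₂ s hs) q₂ N₂ G₂ κ₂ hκ₂
  · intro _ _
    refine le_trans (Finset.card_le_card ?_) hX2
    intro q hq
    obtain ⟨e, he, rfl⟩ := Finset.mem_image.1 hq
    exact hX1 e he
  · intro _ hv e he Y hY hbad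
    exact card_bad_T S₁ hv he Y (hs1.subset hY) hbad
  · intro hv _ e he Y hY hbad
    exact card_bad_T S₂ hv (mem_swp.2 (by simpa using he)) Y (hs2.subset hY) hbad

/-- **section C, normalised**, abstract separation degree -/
theorem secC_ineqT {E0 E1 A : Finset (ZZ n × ZZ n)} {N c₀ c₁ c₂ σ₁ σ₂ W D v₁ v₂ : ℕ}
    (Z : ZData ℝ n E0 E1 A (wh (Crd n) (Pt n) W) N c₀ c₁ c₂ σ₁ σ₂)
    (S₁ : Side n A W D σ₁ v₂) (S₂ : Side n (swp A) W D σ₂ v₁)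
    (hK1 : ∀ e ∈ A, ∀ F : MvPolynomial (ZI n) ℝ, rename (fun x => Sum.inr (Sum.inr x)) F ∈
      germ (edgePt e.1 e.2) Z.F ↔ F ∈ S₁.Pr e)
    (hK2 : ∀ e ∈ A, ∀ F : MvPolynomial (ZI n) ℝ, rename (fun x => Sum.inr (Sum.inl x)) F ∈
      germ (edgePt e.1 e.2) Z.F ↔ F ∈ S₂.Pr e.swap)
    (hhd : ∀ i, Z.h i ∈ Vw ℝ (wh (Crd n) (Pt n) W) (D * W))
    (hhd' : ∀ i, Z.h' i ∈ Vw ℝ (wh (Crd n) (Pt n) W) (D * W))
    (hc₁ : c₁ + v₁ = 2 * (n + 1)) (hc₂ : c₂ + v₂ = 2 * (n + 1))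
    {τF : Fin c₀ → ℕ} (hτF1 : ∀ i, 1 ≤ τF i) (hτF : ∀ i, (Z.f i).totalDegree ≤ τF i)
    {τ₁ : ZZ n → Fin (n - σ₁) → ℕ} (hτ₁1 : ∀ s i, 1 ≤ τ₁ s i)
    {τ₂ : ZZ n → Fin (n - σ₂) → ℕ} (hτ₂1 : ∀ s i, 1 ≤ τ₂ s i)
    {pF pd₁ pd₂ : ℕ} (hpF : ∏ i, τF i ≤ pF)
    {t : ℕ} (ht1 : 1 ≤ t) {Sg₁ Sg₂ : Finset (ZZ n)}
    (hs1 : Sep (fun s : ZZ n => pt s) (4 * t) Sg₁) (hs2 : Sep (fun s : ZZ n => pt s) (4 * t) Sg₂)
    (hE1 : ∀ e ∈ A, e.1 ∈ Sg₁) (hE2 : ∀ e ∈ A, e.2 ∈ Sg₂)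
    (hτ₁ : ∀ s ∈ Sg₁, ∀ i, (S₁.f s i).totalDegree ≤ τ₁ s i)
    (hτ₂ : ∀ s ∈ Sg₂, ∀ i, (S₂.f s i).totalDegree ≤ τ₂ s i)
    (hpd₁ : ∀ s ∈ Sg₁, ∏ i, τ₁ s i ≤ pd₁) (hpd₂ : ∀ s ∈ Sg₂, ∏ i, τ₂ s i ≤ pd₂)
    {N₁ N₂ G₁ G₂ κ₁ κ₂ b a₁ : ℕ} {q₁ q₂ : Prop}
    (hκ₁ : q₁ → t ^ σ₁ ≤ κ₁) (hκ₂ : q₂ → t ^ σ₂ ≤ κ₂) (R : Finset (ZZ n × ZZ n))
    (hcase : ∀ e ∈ A, e ∈ R ∨ CntQ S₁ q₁ N₁ G₁ e ∨ CntQ S₂ q₂ N₂ G₂ e.swap ∨ BB S₁ S₂ e)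
    (hN₁ : N₁ + 1 ≤ 9 * t) (hN₂ : N₂ + 1 ≤ 9 * t)
    (hD : D ≤ b ^ a₁) (hCs : Cs n ≤ b) (hCx : H819.Cx n ≤ b) (h9 : 9 ^ n ≤ b)
    (h100 : 4 * 25 ^ n ≤ b) :
    A.card ≤ R.card + b ^ (a₁ * (4 * (n + 1)) + 2) *
      (Sg₁.card * (pd₁ * (κ₁ + G₁)) + Sg₂.card * (pd₂ * (κ₂ + G₂)) +
        pF * t ^ (σ₁ + σ₂)) := by
  have hb1 : 1 ≤ b := by
    have h3 : 1 ≤ 9 ^ n := Nat.one_le_pow _ _ (by norm_num)
    omega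
  have hmain := secC_prodT Z S₁ S₂ hK1 hK2 hhd hhd' hc₁ hc₂ hτF1 hτF hτ₁1 hτ₂1 hs1 hs2
    hE1 hE2 hτ₁ hτ₂ (κ₁ := 9 ^ n * κ₁) (κ₂ := 9 ^ n * κ₂)
    (fun h => (pow_N_le S₁.hσ hN₁).trans (Nat.mul_le_mul_left _ (hκ₁ h)))
    (fun h => (pow_N_le S₂.hσ hN₂).trans (Nat.mul_le_mul_left _ (hκ₂ h))) R hcase
  have e1 : b ^ (a₁ * (2 * (n + 1)) + 1) * b ≤ b ^ (a₁ * (4 * (n + 1)) + 2) := by
    rw [← pow_succ]
    exact Nat.pow_le_pow_right hb1 (by nlinarith)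
  set bb := b ^ (a₁ * (4 * (n + 1)) + 2) with hbb
  have key : ∀ pd κ G : ℕ, Cs n * D ^ (2 * (n + 1)) * pd * (9 ^ n * κ + G) ≤
      bb * (pd * (κ + G)) := by
    intro pd κ G
    refine (leaf_natP (σ := 0) (t := 0) hD hCs hb1).trans ?_
    have h2 : 9 ^ n * κ + G ≤ b * (κ + G) := by
      have h4 : 9 ^ n * κ ≤ b * κ := Nat.mul_le_mul_right _ h9
      have h5 : G ≤ b * G := Nat.le_mul_of_pos_left _ (by omega)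
      calc 9 ^ n * κ + G ≤ b * κ + b * G := Nat.add_le_add h4 h5
        _ = _ := by ring
    calc b ^ (a₁ * (2 * (n + 1)) + 1) * (pd * (9 ^ n * κ + G)) ≤
        b ^ (a₁ * (2 * (n + 1)) + 1) * (pd * (b * (κ + G))) := by gcongr
      _ = b ^ (a₁ * (2 * (n + 1)) + 1) * b * (pd * (κ + G)) := by ring
      _ ≤ _ := Nat.mul_le_mul_right _ e1
  have h1 : ∑ s ∈ Sg₁, Cs n * D ^ (2 * (n + 1)) * (∏ i, τ₁ s i) * (9 ^ n * κ₁ + G₁) ≤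
      Sg₁.card * (bb * (pd₁ * (κ₁ + G₁))) := by
    refine (Finset.sum_le_card_nsmul _ _ _ fun s hs => ?_).trans (le_of_eq (by rw [smul_eq_mul]))
    exact (key _ _ _).trans (Nat.mul_le_mul_left _ (Nat.mul_le_mul_right _ (hpd₁ s hs)))
  have h2 : ∑ s ∈ Sg₂, Cs n * D ^ (2 * (n + 1)) * (∏ i, τ₂ s i) * (9 ^ n * κ₂ + G₂) ≤
      Sg₂.card * (bb * (pd₂ * (κ₂ + G₂))) := by
    refine (Finset.sum_le_card_nsmul _ _ _ fun s hs => ?_).trans (le_of_eq (by rw [smul_eq_mul]))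
    exact (key _ _ _).trans (Nat.mul_le_mul_left _ (Nat.mul_le_mul_right _ (hpd₂ s hs)))
  have h3 : (H819.Cx n * D ^ (4 * (n + 1)) * ∏ i, τF i) *
      ((2 * (4 * t + 1) ^ σ₁) * (2 * (4 * t + 1) ^ σ₂)) ≤ bb * (pF * t ^ (σ₁ + σ₂)) := by
    refine (pair_natP S₁.hσ S₂.hσ ht1 hD hCx h100).trans ?_
    exact Nat.mul_le_mul_left _ (Nat.mul_le_mul_right _ hpF)
  calc A.card ≤ _ := hmain
    _ ≤ R.card + (Sg₁.card * (bb * (pd₁ * (κ₁ + G₁))) + Sg₂.card * (bb * (pd₂ * (κ₂ + G₂))) +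
        bb * (pF * t ^ (σ₁ + σ₂))) :=
        Nat.add_le_add_left (Nat.add_le_add (Nat.add_le_add h1 h2) h3) _
    _ = _ := by ring

/-! ## the case theorem -/

/-- **the case theorem**, abstract separation degree, remaining edges `R`; `bad × bad` only if
`σ₁, σ₂ < n` -/
theorem hcase_T {σ₁ σ₂ v₁ v₂ : ℕ} (S₁ : Side n A W D σ₁ v₂) (S₂ : Side n (swp A) W D σ₂ v₁)
    {G₁ G₂ : ℕ} (R : Finset (ZZ n × ZZ n)) (hste : ∀ e ∈ A, Ste S₁ e)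
    (hE : ∀ e ∈ A, e ∈ R ∨ EdgeX S₁ S₂ G₁ G₂ e)
    {P : Finset (E n)} {t : ℕ} {Gf : ℕ} {Sg₁ Sg₂ : Finset (ZZ n)}
    (hs1 : Sep (fun s : ZZ n => pt s) (4 * t) Sg₁) (hs2 : Sep (fun s : ZZ n => pt s) (4 * t) Sg₂)
    (hE1 : ∀ e ∈ A, e.1 ∈ Sg₁) (hE2 : ∀ e ∈ A, e.2 ∈ Sg₂) (hF : FlatQ n P Gf)
    (hPG : P.card ≤ Gf)
    (B : E n ≃ₗᵢ[ℝ] E n) (hA1 : ∀ e ∈ A, ∃ s ∈ P ×ˢ P, e.1 = zt B s)
    (hA2 : ∀ e ∈ A, ∃ r ∈ P ×ˢ P, e.2 = zt B r) :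
    ∀ e ∈ A, e ∈ R ∨ CntG S₁ (8 * t) G₁ Gf e ∨ CntG S₂ (8 * t) G₂ Gf e.swap ∨
      (BB S₁ S₂ e ∧ σ₁ < n ∧ σ₂ < n) := by
  have hA1' : ∀ e ∈ swp A, ∃ r ∈ P ×ˢ P, e.2 = zt B r := by
    intro e he
    exact hA1 e.swap (mem_swp.1 he)
  have hA2' : ∀ e ∈ swp A, ∃ r ∈ P ×ˢ P, e.1 = zt B r := by
    intro e he
    exact hA2 e.swap (mem_swp.1 he)
  intro e he
  rcases hE e he with h | hX
  · exact Or.inl h
  right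
  have he2 : e.swap ∈ swp A := mem_swp.2 (by rwa [Prod.swap_swap])
  have h0 := hcase_oneN S₁ S₂ (N := 4 * t) hste (fun e _ => sep_cls_T S₁ hs2 hE2 e)
    (fun e _ => sep_cls_T S₂ hs1 (fun e he => hE1 _ (mem_swp.1 he)) e) he hX
  have h8 : 2 * (4 * t) = 8 * t := by ring
  rw [h8] at h0
  rcases h0 with ⟨h1, h2⟩ | ⟨h1, h2⟩ | ⟨h, hI1, hI2⟩
  · left
    rcases lt_or_eq_of_le S₁.hσ with h | h
    · exact Or.inl ⟨h, h1⟩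
    · exact Or.inr ⟨h, card_cls_of_flatQ S₁ hF B hA1 hA2 he h2⟩
  · right; left
    rcases lt_or_eq_of_le S₂.hσ with h | h
    · exact Or.inl ⟨h, h1⟩
    · exact Or.inr ⟨h, card_cls_of_flatQ S₂ hF B hA2' hA1' he2 h2⟩
  · rcases lt_or_eq_of_le S₁.hσ with h3 | h3
    · rcases lt_or_eq_of_le S₂.hσ with h4 | h4
      · exact Or.inr (Or.inr ⟨h, h3, h4⟩)
      · exact Or.inr (Or.inl (Or.inr ⟨h4, (card_cls_of_iso S₂ B hA1' hI2).trans hPG⟩))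
    · exact Or.inl (Or.inr ⟨h3, (card_cls_of_iso S₁ B hA2 hI1).trans hPG⟩)

/-- **[BC] the count**, abstract separation degree `4 * t`. -/
theorem count_XT {E0 E1 : Finset (ZZ n × ZZ n)} {N c₀ c₁ c₂ σ₁ σ₂ v₁ v₂ : ℕ}
    (Z : ZData ℝ n E0 E1 A (wh (Crd n) (Pt n) W) N c₀ c₁ c₂ σ₁ σ₂)
    (S₁ : Side n A W D σ₁ v₂) (S₂ : Side n (swp A) W D σ₂ v₁)
    (hK1 : ∀ e ∈ A, ∀ F : MvPolynomial (ZI n) ℝ, rename (fun x => Sum.inr (Sum.inr x)) F ∈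
      germ (edgePt e.1 e.2) Z.F ↔ F ∈ S₁.Pr e)
    (hK2 : ∀ e ∈ A, ∀ F : MvPolynomial (ZI n) ℝ, rename (fun x => Sum.inr (Sum.inl x)) F ∈
      germ (edgePt e.1 e.2) Z.F ↔ F ∈ S₂.Pr e.swap)
    (hhd : ∀ i, Z.h i ∈ Vw ℝ (wh (Crd n) (Pt n) W) (D * W))
    (hhd' : ∀ i, Z.h' i ∈ Vw ℝ (wh (Crd n) (Pt n) W) (D * W))
    (hc₁ : c₁ + v₁ = 2 * (n + 1)) (hc₂ : c₂ + v₂ = 2 * (n + 1))
    {dF d₁ d₂ : ℕ → ℕ} (hdF1 : ∀ i < c₀, 1 ≤ dF i) (hdF : ∀ i, (Z.f i).totalDegree ≤ dF i)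
    (hd₁1 : ∀ i < n - σ₁, 1 ≤ d₁ i) (hd₁ : ∀ s i, (S₁.f s i).totalDegree ≤ d₁ i)
    (hd₂1 : ∀ i < n - σ₂, 1 ≤ d₂ i) (hd₂ : ∀ s i, (S₂.f s i).totalDegree ≤ d₂ i)
    {P : Finset (E n)} {B : E n ≃ₗᵢ[ℝ] E n} {t β' : ℕ} (ht1 : 1 ≤ t)
    (hA : A ⊆ Ez P B β') {G₁ G₂ Gf b a₁ : ℕ} (hF : FlatQ n P Gf) (hPG : P.card ≤ Gf)
    (R : Finset (ZZ n × ZZ n)) (hste : ∀ e ∈ A, Ste S₁ e)
    (hE : ∀ e ∈ A, e ∈ R ∨ EdgeX S₁ S₂ G₁ G₂ e)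
    {Sg₁ Sg₂ : Finset (ZZ n)}
    (hs1 : Sep (fun s : ZZ n => pt s) (4 * t) Sg₁) (hs2 : Sep (fun s : ZZ n => pt s) (4 * t) Sg₂)
    (hE1 : ∀ e ∈ A, e.1 ∈ Sg₁) (hE2 : ∀ e ∈ A, e.2 ∈ Sg₂)
    (hD : D ≤ b ^ a₁) (hCs : Cs n ≤ b) (hCx : H819.Cx n ≤ b) (h9 : 9 ^ n ≤ b)
    (h100 : 4 * 25 ^ n ≤ b) :
    A.card ≤ R.card + b ^ (a₁ * (4 * (n + 1)) + 2) *
      (Sg₁.card * ((∏ i : Fin (n - σ₁), d₁ i) * leafB n σ₁ t G₁ Gf) +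
        Sg₂.card * ((∏ i : Fin (n - σ₂), d₂ i) * leafB n σ₂ t G₂ Gf) +
        termF n σ₁ σ₂ t (∏ i : Fin c₀, dF i)) := by
  have hA1 : ∀ e ∈ A, ∃ s ∈ P ×ˢ P, e.1 = zt B s := by
    intro e he
    obtain ⟨s, hs, r, hr, rfl, -⟩ := Ez_pairs (hA he)
    exact ⟨s, hs, rfl⟩
  have hA2 : ∀ e ∈ A, ∃ r ∈ P ×ˢ P, e.2 = zt B r := by
    intro e he
    obtain ⟨s, hs, r, hr, rfl, -⟩ := Ez_pairs (hA he)
    exact ⟨r, hr, rfl⟩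
  have hcase := hcase_T S₁ S₂ R hste hE hs1 hs2 hE1 hE2 hF hPG B hA1 hA2
  by_cases hσ : σ₁ < n ∧ σ₂ < n
  · unfold termF
    rw [if_pos hσ]
    have h := secC_ineqT Z S₁ S₂ hK1 hK2 hhd hhd' hc₁ hc₂ (τF := fun i => dF i)
      (fun i => hdF1 i i.2) hdF
      (τ₁ := fun _ i => d₁ i) (fun _ i => hd₁1 i i.2) (τ₂ := fun _ i => d₂ i)
      (fun _ i => hd₂1 i i.2) le_rfl ht1 hs1 hs2 hE1 hE2 (fun s _ i => hd₁ s i)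
      (fun s _ i => hd₂ s i) (fun _ _ => le_rfl) (fun _ _ => le_rfl)
      (q₁ := σ₁ < n) (q₂ := σ₂ < n) (N₁ := 8 * t) (N₂ := 8 * t)
      (κ₁ := if σ₁ < n then t ^ σ₁ else 0) (κ₂ := if σ₂ < n then t ^ σ₂ else 0)
      (G₁ := if σ₁ < n then G₁ else Gf) (G₂ := if σ₂ < n then G₂ else Gf)
      (fun h => by rw [if_pos h]) (fun h => by rw [if_pos h]) R
      (fun e he => by
        rcases hcase e he with h | h | h | h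
        · exact Or.inl h
        · exact Or.inr (Or.inl (CntQ.of_cntG h))
        · exact Or.inr (Or.inr (Or.inl (CntQ.of_cntG h)))
        · exact Or.inr (Or.inr (Or.inr h.1)))
      (by omega) (by omega) hD hCs hCx h9 h100
    rwa [leafB_eq, leafB_eq] at h
  · unfold termF
    rw [if_neg hσ, Nat.add_zero]
    refine secC_noBB S₁ S₂ (τ₁ := fun _ i => d₁ i) (fun _ i => hd₁1 i i.2)
      (τ₂ := fun _ i => d₂ i) (fun _ i => hd₂1 i i.2) ht1 hE1 hE2 (fun s _ i => hd₁ s i)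
      (fun s _ i => hd₂ s i) (fun _ _ => le_rfl) (fun _ _ => le_rfl) (N₁ := 8 * t) (N₂ := 8 * t) R
      (fun e he => ?_) (by omega) (by omega) hD hCs h9
    rcases hcase e he with h | h | h | h
    · exact Or.inl h
    · exact Or.inr (Or.inl h)
    · exact Or.inr (Or.inr h)
    · exact absurd h.2 hσ

/-! ## no rich isometries on a set of vertices -/

/-- at the edge `(s, r)` the graph of every isometry with determinant `ε` through `s` and `r` has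
at most `M` points in `V` -/
def NoRichS (V : Finset (E n × E n)) (M : ℕ) (ε : ℝ) (s r : E n × E n) : Prop :=
  ∀ Φ : E n ≃ₗᵢ[ℝ] E n, dt Φ = ε → r.1 - s.1 = Φ (r.2 - s.2) →
    ∀ cl : Finset (E n × E n), cl ⊆ V → (∀ x ∈ cl, x.1 - s.1 = Φ (x.2 - s.2)) → cl.card ≤ M

theorem NoRichS.symm {V : Finset (E n × E n)} {M : ℕ} {ε : ℝ} {s r : E n × E n}
    (h : NoRichS V M ε s r) : NoRichS V M ε r s := by
  intro Φ hΦ h1 cl hcl hx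
  have h2 : r.1 - s.1 = Φ (r.2 - s.2) := by
    rw [← neg_sub, h1, ← map_neg, neg_sub]
  refine h Φ hΦ h2 cl hcl fun x hx' => ?_
  have h3 := hx x hx'
  have h4 : x.1 - s.1 = (x.1 - r.1) + (r.1 - s.1) := by abel
  have h5 : x.2 - s.2 = (x.2 - r.2) + (r.2 - s.2) := by abel
  rw [h4, h3, h2, ← map_add, ← h5]

theorem NoRichS.of_noRich {P : Finset (E n)} {M : ℕ} {ε : ℝ} {s r : E n × E n}
    (h : NoRich P M ε s r) {V : Finset (E n × E n)} (hV : V ⊆ P ×ˢ P) : NoRichS V M ε s r :=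
  fun Φ hΦ h1 cl hcl hx => h Φ hΦ h1 cl (hcl.trans hV) hx

theorem NoRichS.mono {V V' : Finset (E n × E n)} {M M' : ℕ} {ε : ℝ} {s r : E n × E n}
    (h : NoRichS V M ε s r) (hV : V' ⊆ V) (hM : M ≤ M') : NoRichS V' M' ε s r :=
  fun Φ hΦ h1 cl hcl hx => (h Φ hΦ h1 cl (hcl.trans hV) hx).trans hM

/-- a class in an isotropic subspace (containing `s - r`) which is not of the right type -/
theorem card_cls_of_noRichS (S : Side n A W D σ v) {V : Finset (E n × E n)} {M : ℕ}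
    (B : E n ≃ₗᵢ[ℝ] E n) (hA2 : ∀ e ∈ A, ∃ r ∈ V, e.2 = zt B r) {e : ZZ n × ZZ n}
    (he : e ∈ A) {s r : E n × E n} (hs : e.1 = zt B s) (hr : e.2 = zt B r)
    (hN : NoRichS V M ((-1) ^ n * dt B) s r) (hE : EdgeS S e)
    (hI : Iso (S.V e ⊔ Submodule.span ℝ {e.1 - e.2}))
    (hd : finrank ℝ (S.V e ⊔ Submodule.span ℝ {e.1 - e.2} : Submodule ℝ (ZZ n)) ≤ n ∨
      (finrank ℝ (S.V e ⊔ Submodule.span ℝ {e.1 - e.2} : Submodule ℝ (ZZ n)) = n + 1 ∧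
      ¬ ZInj (S.V e ⊔ Submodule.span ℝ {e.1 - e.2}))) : (S.cls e).card ≤ M := by
  classical
  set U := S.V e ⊔ Submodule.span ℝ {e.1 - e.2} with hU
  obtain ⟨φ, hφd, hφ⟩ : ∃ φ : E n ≃ₗᵢ[ℝ] E n, dt φ = (-1) ^ n ∧ ∀ w ∈ U, toX w = φ (toY w) := by
    rcases hd with hd | ⟨hd, hz⟩
    · exact exists_graph_dt hI hd (neg_one_pow_eq_or ℝ n)
    · rcases hE.genww hI hd with h | ⟨n₀, h1, h2, h3, h4, -⟩
      · exact absurd h hz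
      · exact exists_graph_wrong hI hd h1 h2 h3 h4
  have key : ∀ x y : E n × E n, zt B x - zt B y ∈ U → x.1 - y.1 = (φ * B) (x.2 - y.2) := by
    intro x y hxy
    have h1 := hφ _ hxy
    rw [map_sub, map_sub, toX_zt, toX_zt, toY_zt, toY_zt, ← map_sub B] at h1
    exact h1
  have hw : e.1 - e.2 ∈ U := Submodule.mem_sup_right (Submodule.mem_span_singleton_self _)
  set cl : Finset (E n × E n) := V.filter fun x => (e.1, zt B x) ∈ S.cls e with hcl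
  have h1 : S.cls e ⊆ cl.image fun r => (e.1, zt B r) := by
    intro e' he'
    have h2 := S.mem_cls.1 he'
    obtain ⟨r', hr', hre⟩ := hA2 e' h2.1
    have h3 : e' = (e.1, zt B r') := Prod.ext h2.2.1 hre
    refine Finset.mem_image.2 ⟨r', ?_, h3.symm⟩
    rw [hcl, Finset.mem_filter]
    exact ⟨hr', h3 ▸ he'⟩
  refine ((Finset.card_le_card h1).trans Finset.card_image_le).trans ?_
  refine hN (φ * B) (by rw [dt_mul, hφd]) ?_ cl (Finset.filter_subset _ _) fun x hx => ?_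
  · refine key r s ?_
    rw [← hs, ← hr, ← neg_sub]
    exact U.neg_mem hw
  · rw [hcl, Finset.mem_filter] at hx
    refine key x s ?_
    have h2 : zt B x - e.2 ∈ S.V e := S.sub_mem_V hx.2
    have h3 : zt B x - zt B s = (zt B x - e.2) - (e.1 - e.2) := by
      rw [hs]; abel
    rw [h3]
    exact U.sub_mem (Submodule.mem_sup_left h2) hw

theorem edgeX_of_edgeWS {σ₁ σ₂ v₁ v₂ : ℕ} (hn : n = 2) (S₁ : Side n A W D σ₁ v₂)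
    (S₂ : Side n (swp A) W D σ₂ v₁) {V : Finset (E n × E n)} {M G₁ G₂ : ℕ} (B : E n ≃ₗᵢ[ℝ] E n)
    (hA1 : ∀ e ∈ A, ∃ s ∈ V, e.1 = zt B s) (hA2 : ∀ e ∈ A, ∃ r ∈ V, e.2 = zt B r)
    (h₁ : 2 ≤ σ₁ → IsoE S₁ G₁) (h₂ : 2 ≤ σ₂ → IsoE S₂ G₂) (hM₁ : M ≤ G₁) (hM₂ : M ≤ G₂)
    {e : ZZ n × ZZ n} (he : e ∈ A) {s r : E n × E n} (hs : e.1 = zt B s) (hr : e.2 = zt B r)
    (hN : NoRichS V M (dt B) s r) (hE : EdgeW S₁ S₂ e) : EdgeX S₁ S₂ G₁ G₂ e := by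
  have he2 : e.swap ∈ swp A := mem_swp.2 (by rwa [Prod.swap_swap])
  have hA1' : ∀ e ∈ swp A, ∃ r ∈ V, e.2 = zt B r := fun e he => hA1 e.swap (mem_swp.1 he)
  have hs1 := S₁.hσ1
  have hs2 := S₂.hσ1
  have h1n : ((-1 : ℝ) ^ n) = 1 := by rw [hn]; norm_num
  have hdt : ((-1 : ℝ) ^ n * dt B) = dt B := by rw [h1n, one_mul]
  -- the two class bounds
  have c1 : Iso (S₁.V e ⊔ Submodule.span ℝ {e.1 - e.2}) →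
      (finrank ℝ (S₁.V e ⊔ Submodule.span ℝ {e.1 - e.2} : Submodule ℝ (ZZ n)) ≤ n ∨
      (finrank ℝ (S₁.V e ⊔ Submodule.span ℝ {e.1 - e.2} : Submodule ℝ (ZZ n)) = n + 1 ∧
      ¬ ZInj (S₁.V e ⊔ Submodule.span ℝ {e.1 - e.2}))) → (S₁.cls e).card ≤ G₁ := fun hI hd =>
    (card_cls_of_noRichS S₁ B hA2 he hs hr (by rw [hdt]; exact hN) hE.side₁ hI hd).trans hM₁
  have c2 : Iso (S₂.V e.swap ⊔ Submodule.span ℝ {e.1 - e.2}) →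
      (finrank ℝ (S₂.V e.swap ⊔ Submodule.span ℝ {e.1 - e.2} : Submodule ℝ (ZZ n)) ≤ n ∨
      (finrank ℝ (S₂.V e.swap ⊔ Submodule.span ℝ {e.1 - e.2} : Submodule ℝ (ZZ n)) = n + 1 ∧
      ¬ ZInj (S₂.V e.swap ⊔ Submodule.span ℝ {e.1 - e.2}))) → (S₂.cls e.swap).card ≤ G₂ := by
    intro hI hd
    refine (card_cls_of_noRichS S₂ B hA1' he2 (s := r) (r := s) hr hs
      (by rw [hdt]; exact hN.symm) hE.side₂ ?_ ?_).trans hM₂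
    · rwa [span_swap]
    · rwa [span_swap]
  refine ⟨hE.side₁, hE.side₂, hE.hperp, hE.hw₁, hE.hw₂, hE.ste, ?_, ?_, ?_⟩
  · intro a1 a2 a3
    have hsup : S₁.V e ⊔ Submodule.span ℝ {e.1 - e.2} = S₁.V e :=
      sup_eq_left.2 ((Submodule.span_singleton_le_iff_mem _ _).2 a1)
    have hsup2 : S₂.V e.swap ⊔ Submodule.span ℝ {e.1 - e.2} = S₁.V e := by rw [← a2, hsup]
    rw [hsup] at c1
    rw [hsup2] at c2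
    rcases hE.vert.vertN a1 a2 a3 with h | h | h | h
    · exact Or.inl h
    · right; left
      rcases Nat.lt_or_ge 1 σ₁ with h3 | h3
      · exact h₁ h3 e he (by rw [hsup]; exact a3) h (Or.inl a1)
      · exact c1 a3 (Or.inl (h.trans (by omega)))
    · right; right
      rcases Nat.lt_or_ge 1 σ₂ with h3 | h3
      · refine h₂ h3 e.swap he2 ?_ ?_ (Or.inl ?_)
        · rw [span_swap, hsup2]
          exact a3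
        · rw [← a2]; exact h
        · rw [mem_swap_iff, ← a2]; exact a1
      · exact c2 a3 (Or.inl (h.trans (by omega)))
    · exact Or.inr (Or.inl (c1 a3 (Or.inr h)))
  · intro a1 a2 a3 a4 a5
    refine Or.inl (c1 a3 (Or.inr ⟨?_, a4⟩))
    rw [H192.finrank_sup_span _ a1, a2]
  · intro a1 a2 a3 a4 a5
    refine Or.inl (c2 a3 (Or.inr ⟨?_, a4⟩))
    rw [H192.finrank_sup_span _ a1, a2]

/-! ## the count over `BOut` -/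

section bout

variable {c₀ σ₁ σ₂ : ℕ} {E' : Finset (ZZ n × ZZ n)} {P : Finset (E n)}
  {B : E n ≃ₗᵢ[ℝ] E n} {dF d1 d2 : ℕ → ℕ} (O : BOut n W D c₀ σ₁ σ₂ E' P B dF d1 d2)

include O

/-- **the count of `BOut`**, general form, abstract separation degree -/
theorem BOut.countT (hdF1 : ∀ i < c₀, 1 ≤ dF i) (hd11 : ∀ i < n - σ₁, 1 ≤ d1 i)
    (hd21 : ∀ i < n - σ₂, 1 ≤ d2 i) {t β' : ℕ} (ht1 : 1 ≤ t)
    (hE : E' ⊆ Ez P B β') {G₁ G₂ Gf b a₁ : ℕ} (hF : FlatQ n P Gf) (hPG : P.card ≤ Gf)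
    (R : Finset (ZZ n × ZZ n)) (hX : ∀ e ∈ O.A, e ∈ R ∨ EdgeX O.S₁ O.S₂ G₁ G₂ e)
    {Sg₁ Sg₂ : Finset (ZZ n)}
    (hs1 : Sep (fun s : ZZ n => pt s) (4 * t) Sg₁) (hs2 : Sep (fun s : ZZ n => pt s) (4 * t) Sg₂)
    (hE1 : ∀ e ∈ E', e.1 ∈ Sg₁) (hE2 : ∀ e ∈ E', e.2 ∈ Sg₂)
    (hD : D ≤ b ^ a₁) (hCs : Cs n ≤ b) (hCx : H819.Cx n ≤ b) (h9 : 9 ^ n ≤ b)
    (h100 : 4 * 25 ^ n ≤ b) :
    E'.card ≤ 2 * (R.card + b ^ (a₁ * (4 * (n + 1)) + 2) *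
      (Sg₁.card * ((∏ i : Fin (n - σ₁), d1 i) * leafB n σ₁ t G₁ Gf) +
        Sg₂.card * ((∏ i : Fin (n - σ₂), d2 i) * leafB n σ₂ t G₂ Gf) +
        termF n σ₁ σ₂ t (∏ i : Fin c₀, dF i))) :=
  O.card.trans (Nat.mul_le_mul_left _ (count_XT O.Z O.S₁ O.S₂ O.hK1 O.hK2 O.hhd O.hhd' O.hc₁
    O.hc₂ hdF1 O.hfd hd11 O.hd1 hd21 O.hd2 ht1 (O.sub.trans hE) hF hPG R O.ste hX hs1 hs2
    (fun e he => hE1 e (O.sub he)) (fun e he => hE2 e (O.sub he)) hD hCs hCx h9 h100))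

open Classical in
/-- `n ≥ 3`: the remaining edges are the `PSEdge`s -/
theorem BOut.count3T (hn : 3 ≤ n) (hdF1 : ∀ i < c₀, 1 ≤ dF i) (hd11 : ∀ i < n - σ₁, 1 ≤ d1 i)
    (hd21 : ∀ i < n - σ₂, 1 ≤ d2 i) {t β' : ℕ} (ht1 : 1 ≤ t)
    (hB : Gm P B) (hE : E' ⊆ Ez P B β') {G : ℕ → ℕ} (hG : IsoBL n P G)
    {G₁ G₂ Gf b a₁ : ℕ} (hF : FlatQ n P Gf) (hPG : P.card ≤ Gf)
    (hG₁ : 2 ≤ σ₁ → G σ₁ ≤ G₁) (hG₂ : 2 ≤ σ₂ → G σ₂ ≤ G₂)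
    {Sg₁ Sg₂ : Finset (ZZ n)}
    (hs1 : Sep (fun s : ZZ n => pt s) (4 * t) Sg₁) (hs2 : Sep (fun s : ZZ n => pt s) (4 * t) Sg₂)
    (hE1 : ∀ e ∈ E', e.1 ∈ Sg₁) (hE2 : ∀ e ∈ E', e.2 ∈ Sg₂)
    (hD : D ≤ b ^ a₁) (hCs : Cs n ≤ b) (hCx : H819.Cx n ≤ b) (h9 : 9 ^ n ≤ b)
    (h100 : 4 * 25 ^ n ≤ b) :
    E'.card ≤ 2 * ((O.A.filter fun e => PSEdge O.S₁ O.S₂ G₁ G₂ e).card +
      b ^ (a₁ * (4 * (n + 1)) + 2) *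
      (Sg₁.card * ((∏ i : Fin (n - σ₁), d1 i) * leafB n σ₁ t G₁ Gf) +
        Sg₂.card * ((∏ i : Fin (n - σ₂), d2 i) * leafB n σ₂ t G₂ Gf) +
        termF n σ₁ σ₂ t (∏ i : Fin c₀, dF i))) := by
  have hAE : O.A ⊆ Ez P B β' := O.sub.trans hE
  have hA1 : ∀ e ∈ O.A, ∃ s ∈ P ×ˢ P, e.1 = zt B s := by
    intro e he
    obtain ⟨s, hs, r, hr, rfl, -⟩ := Ez_pairs (hAE he)
    exact ⟨s, hs, rfl⟩
  have hA2 : ∀ e ∈ O.A, ∃ r ∈ P ×ˢ P, e.2 = zt B r := by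
    intro e he
    obtain ⟨s, hs, r, hr, rfl, -⟩ := Ez_pairs (hAE he)
    exact ⟨r, hr, rfl⟩
  have hA1' : ∀ e ∈ swp O.A, ∃ r ∈ P ×ˢ P, e.2 = zt B r := by
    intro e he
    exact hA1 e.swap (mem_swp.1 he)
  have h₁ : 2 ≤ σ₁ → IsoE O.S₁ G₁ := fun h e he a1 a2 a3 =>
    (isoE_of_isoBL O.S₁ hG B hA2 h e he a1 a2 a3).trans (hG₁ h)
  have h₂ : 2 ≤ σ₂ → IsoE O.S₂ G₂ := fun h e he a1 a2 a3 =>
    (isoE_of_isoBL O.S₂ hG B hA1' h e he a1 a2 a3).trans (hG₂ h)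
  have hEB := Vale.Agent.P054.T3.H182.BOut.edgeB O (H622.vertS hn) hB hE
  refine BOut.countT O hdF1 hd11 hd21 ht1 hE hF hPG
    (O.A.filter fun e => PSEdge O.S₁ O.S₂ G₁ G₂ e) (fun e he => ?_)
    hs1 hs2 hE1 hE2 hD hCs hCx h9 h100
  rcases edgeX_or_ps hn O.S₁ O.S₂ h₁ h₂ he (hEB e he) with h | h
  · exact Or.inr h
  · exact Or.inl (Finset.mem_filter.2 ⟨he, h⟩)

/-- `n = 2`: no remaining edges, if there are no rich isometries of determinant `dt B` at the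
edges outside `R`; `V` = a set of pairs of points which contains the vertices of `E'` -/
theorem BOut.count2T (hn : n = 2) (hdF1 : ∀ i < c₀, 1 ≤ dF i) (hd11 : ∀ i < n - σ₁, 1 ≤ d1 i)
    (hd21 : ∀ i < n - σ₂, 1 ≤ d2 i) {t β' : ℕ} (ht1 : 1 ≤ t)
    (hB : Gm P B) (hE : E' ⊆ Ez P B β') {G : ℕ → ℕ} (hG : IsoBL n P G)
    {M G₁ G₂ Gf b a₁ : ℕ} (hF : FlatQ n P Gf) (hPG : P.card ≤ Gf)
    (hG₁ : 2 ≤ σ₁ → G σ₁ ≤ G₁) (hG₂ : 2 ≤ σ₂ → G σ₂ ≤ G₂) (hM₁ : M ≤ G₁) (hM₂ : M ≤ G₂)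
    (V : Finset (E n × E n)) (hV : ∀ e ∈ E', ∃ s ∈ V, ∃ r ∈ V, e = (zt B s, zt B r))
    (R : Finset (ZZ n × ZZ n))
    (hN : ∀ e ∈ E', e ∉ R → ∀ s r : E n × E n, e.1 = zt B s → e.2 = zt B r →
      NoRichS V M (dt B) s r)
    {Sg₁ Sg₂ : Finset (ZZ n)}
    (hs1 : Sep (fun s : ZZ n => pt s) (4 * t) Sg₁) (hs2 : Sep (fun s : ZZ n => pt s) (4 * t) Sg₂)
    (hE1 : ∀ e ∈ E', e.1 ∈ Sg₁) (hE2 : ∀ e ∈ E', e.2 ∈ Sg₂)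
    (hD : D ≤ b ^ a₁) (hCs : Cs n ≤ b) (hCx : H819.Cx n ≤ b) (h9 : 9 ^ n ≤ b)
    (h100 : 4 * 25 ^ n ≤ b) :
    E'.card ≤ 2 * (R.card + b ^ (a₁ * (4 * (n + 1)) + 2) *
      (Sg₁.card * ((∏ i : Fin (n - σ₁), d1 i) * leafB n σ₁ t G₁ Gf) +
        Sg₂.card * ((∏ i : Fin (n - σ₂), d2 i) * leafB n σ₂ t G₂ Gf) +
        termF n σ₁ σ₂ t (∏ i : Fin c₀, dF i))) := by
  have hAE : O.A ⊆ Ez P B β' := O.sub.trans hE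
  have hA1 : ∀ e ∈ O.A, ∃ s ∈ P ×ˢ P, e.1 = zt B s := by
    intro e he
    obtain ⟨s, hs, r, hr, rfl, -⟩ := Ez_pairs (hAE he)
    exact ⟨s, hs, rfl⟩
  have hA2 : ∀ e ∈ O.A, ∃ r ∈ P ×ˢ P, e.2 = zt B r := by
    intro e he
    obtain ⟨s, hs, r, hr, rfl, -⟩ := Ez_pairs (hAE he)
    exact ⟨r, hr, rfl⟩
  have hA1' : ∀ e ∈ swp O.A, ∃ r ∈ P ×ˢ P, e.2 = zt B r := by
    intro e he
    exact hA1 e.swap (mem_swp.1 he)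
  have hV1 : ∀ e ∈ O.A, ∃ s ∈ V, e.1 = zt B s := by
    intro e he
    obtain ⟨s, hs, r, hr, h⟩ := hV e (O.sub he)
    exact ⟨s, hs, by rw [h]⟩
  have hV2 : ∀ e ∈ O.A, ∃ r ∈ V, e.2 = zt B r := by
    intro e he
    obtain ⟨s, hs, r, hr, h⟩ := hV e (O.sub he)
    exact ⟨r, hr, by rw [h]⟩
  have h₁ : 2 ≤ σ₁ → IsoE O.S₁ G₁ := fun h e he a1 a2 a3 =>
    (isoE_of_isoBL O.S₁ hG B hA2 h e he a1 a2 a3).trans (hG₁ h)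
  have h₂ : 2 ≤ σ₂ → IsoE O.S₂ G₂ := fun h e he a1 a2 a3 =>
    (isoE_of_isoBL O.S₂ hG B hA1' h e he a1 a2 a3).trans (hG₂ h)
  have hEW := BOut.edgeW O (by omega) hB hE
  refine BOut.countT O hdF1 hd11 hd21 ht1 hE hF hPG R (fun e he => ?_)
    hs1 hs2 hE1 hE2 hD hCs hCx h9 h100
  by_cases hR : e ∈ R
  · exact Or.inl hR
  right
  obtain ⟨s, -, hs⟩ := hV1 e he
  obtain ⟨r, -, hr⟩ := hV2 e he
  exact edgeX_of_edgeWS hn O.S₁ O.S₂ B hV1 hV2 h₁ h₂ hM₁ hM₂ he hs hr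
    (hN e (O.sub he) hR s r hs hr) (hEW e he)

end bout

/-! ## the composites -/

open Classical in
/-- **SEAM + B + C**, `n ≥ 3`, abstract separation degree -/
theorem abc3T (n L M : ℕ) (hn : 3 ≤ n) (hL : 0 < L) :
    ∃ β₀ : ℕ, ∀ β, β₀ ≤ β → ∀ (K₁ k₀ : ℕ) (E₁ : Finset (Ed n ℝ)) (vF v1 v2 : ℕ → ℕ),
      E₁.Nonempty →
      FamU (xF (n := n) (K := ℝ)) (fun _ => ()) (β ^ L) β M K₁ E₁ vF →
      FamU (xL (n := n) (K := ℝ)) Prod.fst (β ^ L) β M K₁ E₁ v1 →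
      FamU (xL (n := n) (K := ℝ)) Prod.snd (β ^ L) β M K₁ E₁ v2 →
      k₀ + lenBC n L M ≤ K₁ + 1 →
      (∀ l, k₀ ≤ l → l < k₀ + lenBC n L M → vF l = vF k₀ ∧ v1 l = v1 k₀ ∧ v2 l = v2 k₀) →
      (2 * n + 1) - vF k₀ = (n - v1 k₀) + (n - v2 k₀) → v1 k₀ < n → v2 k₀ < n →
      ∀ (P : Finset (E n)) (B : E n ≃ₗᵢ[ℝ] E n) (β' t : ℕ), Gm P B → E₁ ⊆ Ez P B β' →
      1 ≤ t →
      ∀ (G : ℕ → ℕ) (G₁ G₂ Gf : ℕ), IsoBL n P G → FlatQ n P Gf → P.card ≤ Gf →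
      (2 ≤ n - v1 k₀ → G (n - v1 k₀) ≤ G₁) → (2 ≤ n - v2 k₀ → G (n - v2 k₀) ≤ G₂) →
      ∀ Sg₁ Sg₂ : Finset (ZZ n), Sep (fun s : ZZ n => pt s) (4 * t) Sg₁ →
      Sep (fun s : ZZ n => pt s) (4 * t) Sg₂ →
      (∀ e ∈ E₁, e.1 ∈ Sg₁) → (∀ e ∈ E₁, e.2 ∈ Sg₂) →
      ∃ E₂ ⊆ E₁, E₂.Nonempty ∧ E₁.card ≤ β ^ lossBC n * E₂.card ∧
        ∃ (D : ℕ) (O : BOut n ((β ^ L) ^ k₀) D (vF k₀) (n - v1 k₀) (n - v2 k₀) E₂ P B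
          (fun j => (β ^ L) ^ kap (k₀ + 1) vF j) (fun j => (β ^ L) ^ kap (k₀ + 1) v1 j)
          (fun j => (β ^ L) ^ kap (k₀ + 1) v2 j)),
        (∀ e ∈ O.A, EdgeB O.S₁ O.S₂ e) ∧
        E₂.card ≤ 2 * ((O.A.filter fun e => PSEdge O.S₁ O.S₂ G₁ G₂ e).card +
          (β ^ L) ^ aBC n L M *
          (Sg₁.card * (pdeg (β ^ L) k₀ v1 * leafB n (n - v1 k₀) t G₁ Gf) +
            Sg₂.card * (pdeg (β ^ L) k₀ v2 * leafB n (n - v2 k₀) t G₂ Gf) +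
            termF n (n - v1 k₀) (n - v2 k₀) t (pdeg (β ^ L) k₀ vF))) := by
  obtain ⟨β₀, h⟩ := exists_BOut n L M (by omega) hL
  refine ⟨max β₀ (max 1 (max (Cs n) (max (H819.Cx n) (max (9 ^ n) (4 * 25 ^ n))))),
    fun β hβ => ?_⟩
  have hβ1 : 1 ≤ β := (le_max_left _ _).trans ((le_max_right _ _).trans hβ)
  have hb : β ≤ β ^ L := Nat.le_self_pow hL.ne' _
  have hr2 := (le_max_right _ _).trans ((le_max_right _ _).trans hβ)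
  have hCs : Cs n ≤ β ^ L := ((le_max_left _ _).trans hr2).trans hb
  have hr3 := (le_max_right _ _).trans hr2
  have hCx : H819.Cx n ≤ β ^ L := ((le_max_left _ _).trans hr3).trans hb
  have hr4 := (le_max_right _ _).trans hr3
  have h9 : 9 ^ n ≤ β ^ L := ((le_max_left _ _).trans hr4).trans hb
  have h100 : 4 * 25 ^ n ≤ β ^ L := ((le_max_right _ _).trans hr4).trans hb
  have hb1 : 1 ≤ β ^ L := hβ1.trans hb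
  intro K₁ k₀ E₁ vF v1 v2 hE₁ hF h1 h2 hlen hwin htight hp1 hp2 P B β' t hB hE ht1 G G₁ G₂ Gf
    hG hFl hPG hG₁ hG₂ Sg₁ Sg₂ hs1 hs2 hE1 hE2
  obtain ⟨E₂, hE₂, hne, hc, D, hD, O, -⟩ := h β ((le_max_left _ _).trans hβ) K₁ k₀ E₁ vF v1 v2 hE₁
    hF h1 h2 hlen hwin htight hp1 hp2 P B β' hB hE
  refine ⟨E₂, hE₂, hne, hc, D, O,
    Vale.Agent.P054.T3.H182.BOut.edgeB O (H622.vertS hn) hB (hE₂.trans hE), ?_⟩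
  have h3 := BOut.count3T O hn (fun i _ => Nat.one_le_pow _ _ hb1)
    (fun i _ => Nat.one_le_pow _ _ hb1) (fun i _ => Nat.one_le_pow _ _ hb1) ht1 hB
    (hE₂.trans hE) hG hFl hPG hG₁ hG₂ hs1 hs2 (fun e he => hE1 e (hE₂ he))
    (fun e he => hE2 e (hE₂ he)) hD hCs hCx h9 h100
  rw [prod_eq_pdeg (σ := n - v1 k₀) (v := v1) (by omega),
    prod_eq_pdeg (σ := n - v2 k₀) (v := v2) (by omega)] at h3
  exact h3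

open Classical in
/-- **SEAM + B + C**, `n = 2`, abstract separation degree; `Rp` = the edges where rich isometries
of determinant `dt B` are allowed; `V` contains the vertices -/
theorem abc2T (L M : ℕ) (hL : 0 < L) :
    ∃ β₀ : ℕ, ∀ β, β₀ ≤ β → ∀ (K₁ k₀ : ℕ) (E₁ : Finset (Ed 2 ℝ)) (vF v1 v2 : ℕ → ℕ),
      E₁.Nonempty →
      FamU (xF (n := 2) (K := ℝ)) (fun _ => ()) (β ^ L) β M K₁ E₁ vF →
      FamU (xL (n := 2) (K := ℝ)) Prod.fst (β ^ L) β M K₁ E₁ v1 →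
      FamU (xL (n := 2) (K := ℝ)) Prod.snd (β ^ L) β M K₁ E₁ v2 →
      k₀ + lenBC 2 L M ≤ K₁ + 1 →
      (∀ l, k₀ ≤ l → l < k₀ + lenBC 2 L M → vF l = vF k₀ ∧ v1 l = v1 k₀ ∧ v2 l = v2 k₀) →
      (2 * 2 + 1) - vF k₀ = (2 - v1 k₀) + (2 - v2 k₀) → v1 k₀ < 2 → v2 k₀ < 2 →
      ∀ (P : Finset (E 2)) (B : E 2 ≃ₗᵢ[ℝ] E 2) (β' t : ℕ), Gm P B → E₁ ⊆ Ez P B β' →
      1 ≤ t →
      ∀ (G : ℕ → ℕ) (M' G₁ G₂ Gf : ℕ), IsoBL 2 P G → FlatQ 2 P Gf → P.card ≤ Gf →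
      (2 ≤ 2 - v1 k₀ → G (2 - v1 k₀) ≤ G₁) → (2 ≤ 2 - v2 k₀ → G (2 - v2 k₀) ≤ G₂) →
      M' ≤ G₁ → M' ≤ G₂ →
      ∀ V : Finset (E 2 × E 2), (∀ e ∈ E₁, ∃ s ∈ V, ∃ r ∈ V, e = (zt B s, zt B r)) →
      ∀ Rp : ZZ 2 × ZZ 2 → Prop, (∀ e ∈ E₁, ¬ Rp e → ∀ s r : E 2 × E 2, e.1 = zt B s →
        e.2 = zt B r → NoRichS V M' (dt B) s r) →
      ∀ Sg₁ Sg₂ : Finset (ZZ 2), Sep (fun s : ZZ 2 => pt s) (4 * t) Sg₁ →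
      Sep (fun s : ZZ 2 => pt s) (4 * t) Sg₂ →
      (∀ e ∈ E₁, e.1 ∈ Sg₁) → (∀ e ∈ E₁, e.2 ∈ Sg₂) →
      ∃ E₂ ⊆ E₁, E₂.Nonempty ∧ E₁.card ≤ β ^ lossBC 2 * E₂.card ∧
        E₂.card ≤ 2 * ((E₂.filter Rp).card + (β ^ L) ^ aBC 2 L M *
          (Sg₁.card * (pdeg (β ^ L) k₀ v1 * leafB 2 (2 - v1 k₀) t G₁ Gf) +
            Sg₂.card * (pdeg (β ^ L) k₀ v2 * leafB 2 (2 - v2 k₀) t G₂ Gf) +
            termF 2 (2 - v1 k₀) (2 - v2 k₀) t (pdeg (β ^ L) k₀ vF))) := by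
  obtain ⟨β₀, h⟩ := exists_BOut 2 L M (by omega) hL
  refine ⟨max β₀ (max 1 (max (Cs 2) (max (H819.Cx 2) (max (9 ^ 2) (4 * 25 ^ 2))))),
    fun β hβ => ?_⟩
  have hβ1 : 1 ≤ β := (le_max_left _ _).trans ((le_max_right _ _).trans hβ)
  have hb : β ≤ β ^ L := Nat.le_self_pow hL.ne' _
  have hr2 := (le_max_right _ _).trans ((le_max_right _ _).trans hβ)
  have hCs : Cs 2 ≤ β ^ L := ((le_max_left _ _).trans hr2).trans hb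
  have hr3 := (le_max_right _ _).trans hr2
  have hCx : H819.Cx 2 ≤ β ^ L := ((le_max_left _ _).trans hr3).trans hb
  have hr4 := (le_max_right _ _).trans hr3
  have h9 : 9 ^ 2 ≤ β ^ L := ((le_max_left _ _).trans hr4).trans hb
  have h100 : 4 * 25 ^ 2 ≤ β ^ L := ((le_max_right _ _).trans hr4).trans hb
  have hb1 : 1 ≤ β ^ L := hβ1.trans hb
  intro K₁ k₀ E₁ vF v1 v2 hE₁ hF h1 h2 hlen hwin htight hp1 hp2 P B β' t hB hE ht1 G M' G₁ G₂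
    Gf hG hFl hPG hG₁ hG₂ hM₁ hM₂ V hV Rp hR Sg₁ Sg₂ hs1 hs2 hE1 hE2
  obtain ⟨E₂, hE₂, hne, hc, D, hD, O, -⟩ := h β ((le_max_left _ _).trans hβ) K₁ k₀ E₁ vF v1 v2 hE₁
    hF h1 h2 hlen hwin htight hp1 hp2 P B β' hB hE
  refine ⟨E₂, hE₂, hne, hc, ?_⟩
  have h3 := BOut.count2T O rfl (fun i _ => Nat.one_le_pow _ _ hb1)
    (fun i _ => Nat.one_le_pow _ _ hb1) (fun i _ => Nat.one_le_pow _ _ hb1) ht1 hB
    (hE₂.trans hE) hG hFl hPG hG₁ hG₂ hM₁ hM₂ V (fun e he => hV e (hE₂ he)) (E₂.filter Rp)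
    (fun e he hn => ?_) hs1 hs2
    (fun e he => hE1 e (hE₂ he)) (fun e he => hE2 e (hE₂ he)) hD hCs hCx h9 h100
  · rw [prod_eq_pdeg (n := 2) (σ := 2 - v1 k₀) (v := v1) (by omega),
      prod_eq_pdeg (n := 2) (σ := 2 - v2 k₀) (v := v2) (by omega)] at h3
    exact h3
  · exact hR e (hE₂ he) fun h4 => hn (Finset.mem_filter.2 ⟨he, h4⟩)

end Vale.Agent.P054.T3.H533
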