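import Vale.Agent.P054.T3.H533.Seam0
import Vale.Agent.P054.T3.H182.BData
import Vale.Agent.P054.T2.H84.HatWin
import Vale.Agent.P054.T2.H580.Inst

set_option autoImplicit false
set_option linter.unusedSectionVars false
set_option linter.unusedVariables false

/-!
# P054 / T3, seam A -> B: helper182's `BData` from the lossless families `F`, `L1`, `L2`

`WD`: a window for the five families without any assumption on the values of `F`, `L1`, `L2`.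
`exists_WD`, `exists_BD`: existence on a dense subset, with the degrees of the systems.
-/

namespace Vale.Agent.P054.T3.H533.B

open Finset MvPolynomial Module
open Vale.Agent.P054.T2.H307 (gfr gfr_mono_set gfr_le gr gr_mono gr_le fib mem_fib
  fib_mono fib_subset self_mem_fib van van_mono mem_van pts mem_pts pts_mono pts_nonempty
  IsUnif IsFam exists_unif FI Ed NN xF xL xH1 xH2 wB ZK)
open Vale.Agent.P054.T2.H580 (rkF IsFilt isFilt_total isFilt_Vw kap sum_kap_window Vw wh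
  wh_ne_zero Vw_mono Par exists_par)
open Vale.Agent.P054.T2.H686 (Crd Qf)
open Vale.Agent.P054.T2.H930 (Pt)
open Vale.Agent.P054.T2.H84 (exists_geo_window geoLen geoSeq geoSeq_mono)
open Vale.Agent.P054.T3.H461
open Vale.Agent.P054.T3.H182 (Base F5 cW JW mem_JW card_JW cW_mono cW_le fam_H1 fam_H2 BData)

section base

variable {ι S σ K : Type*} [Field K] [Fintype σ] [DecidableEq σ]

/-- **base data from the lossless section A** (helper182's record) -/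
theorem exists_Base [CharZero K] [Infinite K] {x : ι → σ → K} {p : ι → S}
    {bf b β L M K₁ q : ℕ} {E : Finset ι} {v : ℕ → ℕ} (hbβ : bf = β ^ L) (hβ : 2 ≤ β)
    (hb : bmin (Fintype.card σ) ≤ bf) (h : FamU x p bf β M K₁ E v) (hE : E.Nonempty)
    {k₀ : ℕ} (hk₀ : k₀ ≤ K₁) (hq : q ≤ β)
    (hm : bf ^ (loA (Fintype.card σ) L + loC (Fintype.card σ) L M) ≤ b)
    {c : ℕ} (hc : c = v k₀) :
    ∃ D : Base x p E (bf ^ k₀) b q c, D.d = (fun j => bf ^ kap (k₀ + 1) v j) ∧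
      D.R = bf ^ (∑ l ∈ range k₀, (Fintype.card σ - v l)) := by
  subst hc
  have hB := BaseFam.of_famU hbβ hβ hb h hE hk₀ hq hm
  obtain ⟨f, hf, hind⟩ := hB.sys
  have hbN := bmin_ge (Fintype.card σ)
  have hbf1 : 1 ≤ bf := by omega
  exact ⟨{ f := f
           d := fun j => bf ^ kap (k₀ + 1) v j
           R := bf ^ (∑ l ∈ range k₀, (Fintype.card σ - v l))
           d_pos := hB.d1
           d_le := hB.dW
           deg := fun s j => (mem_restrictTotalDegree _ _ _).1 (mem_van.1 (hf s j)).1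
           zero := fun e he j => (mem_van.1 (hf (p e) j)).2 e (mem_fib.2 ⟨he, rfl⟩)
           ind := hind
           c_le := hB.le
           R_pos := Nat.one_le_pow _ _ hbf1
           up := by
             have h1 := hB.up
             rwa [Finset.prod_range]
           low := hB.lo }, rfl, rfl⟩

end base

variable {n : ℕ}

/-- **a window for the five families** at the base scale `W`, coarse step `b = β ^ L`; nothing is
assumed on the values of `F`, `L1`, `L2` inside the window -/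
structure WD (n W k β C₁ L K₀ q C i₀ i₁ : ℕ) (E' : Finset (Ed n ℝ)) (v : F5 × ℕ → ℕ)
    (cF c1 c2 : ℕ) where
  par : Par (NN n) k β C₁ L K₀ q (JW K₀).card
  unif : IsUnif (cW n ℝ W (β ^ L)) (JW K₀) β E' v
  ne : E'.Nonempty
  adj : ∀ e ∈ E', e.1.1 0 ≠ e.2.1 0 ∧ Qf (e.1 - e.2) = 0
  hW : 1 ≤ W
  bF : Base (K := ℝ) xF (fun _ => ()) E' W (β ^ L) q cF
  b1 : Base (K := ℝ) xL Prod.fst E' W (β ^ L) q c1
  b2 : Base (K := ℝ) xL Prod.snd E' W (β ^ L) q c2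
  winH1 : ∀ i, i₀ ≤ i → i ≤ i₁ → v (F5.H1, i) = v (F5.H1, i₀)
  winH2 : ∀ i, i₀ ≤ i → i ≤ i₁ → v (F5.H2, i) = v (F5.H2, i₀)
  geo : C * i₀ + C ≤ i₁
  long : C * i₁ + C ≤ K₀

/-- the number of coarse levels -/
def KB (n C : ℕ) : ℕ := geoLen (2 * NN n) C

/-- monotonicity of the values of a hat -/
theorem hat_mono {W b β K₀ : ℕ} {E' : Finset (Ed n ℝ)} {v : F5 × ℕ → ℕ} (hW : 1 ≤ W)
    (hU : IsUnif (cW n ℝ W b) (JW K₀) β E' v) (hE : E'.Nonempty) (hβ : 1 < β) (hb : 1 ≤ b)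
    {f : F5} (hf : f = F5.H1 ∨ f = F5.H2) {i j : ℕ} (hij : i ≤ j) (hj : j ≤ K₀) :
    v (f, i) ≤ v (f, j) := by
  rcases hf with rfl | rfl
  · exact hU.fam_mono hE hβ (isFilt_Vw (k := ℝ) _ (wh_ne_zero hW)).mono hb
      (fam_H1 (K := ℝ) W b K₀) hij hj
  · exact hU.fam_mono hE hβ (isFilt_Vw (k := ℝ) _ (wh_ne_zero hW)).mono hb
      (fam_H2 (K := ℝ) W b K₀) hij hj

/-- the geometric window of the two hats -/
theorem exists_hat_win {W b β K₀ : ℕ} {E' : Finset (Ed n ℝ)} {v : F5 × ℕ → ℕ} (hW : 1 ≤ W)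
    (hU : IsUnif (cW n ℝ W b) (JW K₀) β E' v) (hE : E'.Nonempty) (hβ : 1 < β) (hb : 1 ≤ b)
    (C : ℕ) (hK : KB n C ≤ K₀) :
    ∃ i₀ i₁, C * i₀ + C ≤ i₁ ∧ C * i₁ + C ≤ K₀ ∧
      (∀ i, i₀ ≤ i → i ≤ i₁ → v (F5.H1, i) = v (F5.H1, i₀)) ∧
      (∀ i, i₀ ≤ i → i ≤ i₁ → v (F5.H2, i) = v (F5.H2, i₀)) := by
  have hle : ∀ f i, i ≤ K₀ → v (f, i) ≤ NN n := by
    intro f i hi
    obtain ⟨e, he⟩ := hE
    exact (hU.le (f, i) (mem_JW.2 hi) E' (Finset.Subset.refl _) e he).trans (cW_le _ _ _ _ _)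
  obtain ⟨i₀, i₁, h1, h2, h3, h4, h5⟩ := exists_geo_window (2 * NN n) C
    (fun i => v (F5.H1, i) + v (F5.H2, i))
    (fun i j hij hj => Nat.add_le_add
      (hat_mono hW hU hE hβ hb (Or.inl rfl) hij (hj.trans hK))
      (hat_mono hW hU hE hβ hb (Or.inr rfl) hij (hj.trans hK)))
    (by
      have h1 := hle F5.H1 _ hK
      have h2 := hle F5.H2 _ hK
      unfold KB at h1 h2
      omega)
  have key : ∀ i, i₀ ≤ i → i ≤ i₁ → v (F5.H1, i) = v (F5.H1, i₀) ∧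
      v (F5.H2, i) = v (F5.H2, i₀) := by
    intro i hi1 hi2
    have h6 := h5 i hi1 hi2
    have h7 := hat_mono hW hU hE hβ hb (Or.inl rfl : F5.H1 = F5.H1 ∨ F5.H1 = F5.H2) hi1
      ((hi2.trans h4).trans hK)
    have h8 := hat_mono hW hU hE hβ hb (Or.inr rfl : F5.H2 = F5.H1 ∨ F5.H2 = F5.H2) hi1
      ((hi2.trans h4).trans hK)
    omega
  exact ⟨i₀, i₁, h1, h2.trans hK, fun i a b => (key i a b).1, fun i a b => (key i a b).2⟩

/-- the density loss of the seam -/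
def ML (n K₀ : ℕ) : ℕ := NN n * (5 * (K₀ + 1))

/-- the ratio coarse step / fine step, for sets with the defect `M` -/
def mS (n L K₀ M : ℕ) : ℕ :=
  (loA (2 * n + 1) L + loC (2 * n + 1) L (M + ML n K₀)) +
    (loA n L + loC n L (M + ML n K₀)) + 1

/-- the length of the fine window -/
def lenS (n L K₀ M : ℕ) : ℕ := mS n L K₀ M * K₀ + (M + ML n K₀) + 1

/-- **SEAM A -> B, general form**: from the three lossless families (defect `M`) a dense subset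
which is uniform for the five families above the scale `(β ^ L) ^ k₀`.  If one of the three
families is constant on the fine window, it is constant on the coarse one, with the same value. -/
theorem exists_WD (n L C q M : ℕ) (hL : 0 < L) :
    ∃ β₀ : ℕ, ∀ β, β₀ ≤ β → ∃ k C₁ : ℕ, ∀ (K₁ k₀ : ℕ) (E₁ : Finset (Ed n ℝ)) (vF v1 v2 : ℕ → ℕ),
      E₁.Nonempty → (∀ e ∈ E₁, e.1.1 0 ≠ e.2.1 0 ∧ Qf (e.1 - e.2) = 0) →
      FamU (xF (n := n) (K := ℝ)) (fun _ => ()) (β ^ L) β M K₁ E₁ vF →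
      FamU (xL (n := n) (K := ℝ)) Prod.fst (β ^ L) β M K₁ E₁ v1 →
      FamU (xL (n := n) (K := ℝ)) Prod.snd (β ^ L) β M K₁ E₁ v2 →
      k₀ + lenS n L (KB n C) M ≤ K₁ + 1 →
      ∃ E₂ ⊆ E₁, E₁.card ≤ β ^ ML n (KB n C) * E₂.card ∧ ∃ (v : F5 × ℕ → ℕ) (i₀ i₁ : ℕ),
        (∃ D : WD n ((β ^ L) ^ k₀) k β C₁ (L * mS n L (KB n C) M) (KB n C) q C i₀ i₁ E₂ v
          (vF k₀) (v1 k₀) (v2 k₀), D.bF.d = (fun j => (β ^ L) ^ kap (k₀ + 1) vF j) ∧
          D.b1.d = (fun j => (β ^ L) ^ kap (k₀ + 1) v1 j) ∧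
          D.b2.d = (fun j => (β ^ L) ^ kap (k₀ + 1) v2 j)) ∧
        ((∀ l, k₀ ≤ l → l < k₀ + lenS n L (KB n C) M → vF l = vF k₀) →
          ∀ i ≤ KB n C, v (F5.F, i) = vF k₀) ∧
        ((∀ l, k₀ ≤ l → l < k₀ + lenS n L (KB n C) M → v1 l = v1 k₀) →
          ∀ i ≤ KB n C, v (F5.L1, i) = v1 k₀) ∧
        ((∀ l, k₀ ≤ l → l < k₀ + lenS n L (KB n C) M → v2 l = v2 k₀) →
          ∀ i ≤ KB n C, v (F5.L2, i) = v2 k₀) := by
  classical
  set K₀ := KB n C with hK₀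
  set m := mS n L K₀ M with hm
  have hm1 : 1 ≤ m := by rw [hm]; unfold mS; omega
  obtain ⟨C₁, β₁, hβ₁⟩ := exists_par (NN n) (L * m) K₀ q (JW K₀).card
    (Nat.mul_pos hL (by omega))
  refine ⟨max β₁ (max 2 (max q (max (bmin (2 * n + 1)) (bmin n)))), fun β hβ => ?_⟩
  have hβ1 : β₁ ≤ β := (le_max_left _ _).trans hβ
  have hβ2 : 2 ≤ β := (le_max_left _ _).trans ((le_max_right _ _).trans hβ)
  have hβ3 : q ≤ β := (le_max_left _ _).trans
    ((le_max_right _ _).trans ((le_max_right _ _).trans hβ))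
  have hβ4 : bmin (2 * n + 1) ≤ β := (le_max_left _ _).trans ((le_max_right _ _).trans
    ((le_max_right _ _).trans ((le_max_right _ _).trans hβ)))
  have hβ5 : bmin n ≤ β := (le_max_right _ _).trans ((le_max_right _ _).trans
    ((le_max_right _ _).trans ((le_max_right _ _).trans hβ)))
  obtain ⟨k, hP⟩ := hβ₁ β hβ1
  refine ⟨k, C₁, ?_⟩
  intro K₁ k₀ E₁ vF v1 v2 hE₁ hadj hF h1 h2 hlen
  have hbL : β ≤ β ^ L := Nat.le_self_pow hL.ne' _
  have hbf1 : 1 ≤ β ^ L := by omega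
  have hcC : Fintype.card (Crd n) = 2 * n + 1 := by simp [Crd]; ring
  have hcn : Fintype.card (Fin n) = n := Fintype.card_fin n
  have hbc : β ^ (L * m) = (β ^ L) ^ m := by rw [pow_mul]
  -- uniformisation of the five families
  obtain ⟨E₂, hE₂, hE₂n, v, hvN, hcard, hU⟩ := exists_unif E₁ hE₁ (JW K₀)
    (cW n ℝ ((β ^ L) ^ k₀) (β ^ (L * m))) (NN n) β (by omega)
    (fun j _ A _ e _ => cW_le _ _ _ _ _) (fun j _ A B hAB _ e _ => cW_mono _ _ _ hAB e)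
  rw [card_JW] at hcard
  have hcard' : E₁.card ≤ β ^ ML n K₀ * E₂.card := hcard
  have hF2 := FamU.subset hF hE₂ hcard'
  have h12 := FamU.subset h1 hE₂ hcard'
  have h22 := FamU.subset h2 hE₂ hcard'
  have hlS : lenS n L K₀ M = m * K₀ + (M + ML n K₀) + 1 := rfl
  rw [hlS] at hlen ⊢
  have hlev : ∀ i ≤ K₀, m * i ≤ m * K₀ := fun i hi => Nat.mul_le_mul_left _ hi
  have hpow : ∀ i, (β ^ L) ^ k₀ * (β ^ (L * m)) ^ i = (β ^ L) ^ (k₀ + m * i) := by
    intro i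
    rw [hbc, ← pow_mul (β ^ L) m i, ← pow_add]
  -- the values
  have hval : ∀ {S σ : Type} [Fintype σ] [DecidableEq σ] (x : Ed n ℝ → σ → ℝ) (p : Ed n ℝ → S)
      (w : ℕ → ℕ) (f : F5), FamU x p (β ^ L) β (M + ML n K₀) K₁ E₂ w →
      (∀ i, ∀ e ∈ E₂, cW n ℝ ((β ^ L) ^ k₀) (β ^ (L * m)) (f, i) E₂ e =
        gfr x p (restrictTotalDegree σ ℝ) ((β ^ L) ^ k₀ * (β ^ (L * m)) ^ i) E₂ e) →
      (∀ l, k₀ ≤ l → l < k₀ + (m * K₀ + (M + ML n K₀) + 1) → w l = w k₀) →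
      ∀ i ≤ K₀, v (f, i) = w k₀ := by
    intro S σ _ _ x p w f hw hc hwc i hi
    have hi' := hlev i hi
    have e1 : v (f, i) = w (k₀ + m * i) := by
      refine FamU.val_eq hw hE₂n hβ2 hU (mem_JW.2 hi) (by omega) (fun e he => ?_) ?_
      · rw [hc i e he, hpow]
      · have h3 := rem_ge (K₀ := K₁) (v := w) (i := k₀ + m * i)
          (en := k₀ + (m * K₀ + (M + ML n K₀) + 1)) (by omega) (fun l hl hl' => by
            rw [hwc l (by omega) hl', hwc (k₀ + m * i) (by omega) (by omega)])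
        omega
    rw [e1]
    exact hwc _ (by omega) (by omega)
  -- the geometric window
  obtain ⟨i₀, i₁, hg1, hg2, hg3, hg4⟩ := exists_hat_win (Nat.one_le_pow _ _ hbf1) hU hE₂n
    (by omega)
    (Nat.one_le_pow _ _ (by omega)) C hK₀.symm.le
  have hΛF : (β ^ L) ^ (loA (Fintype.card (Crd n)) L +
      loC (Fintype.card (Crd n)) L (M + ML n K₀)) ≤ β ^ (L * m) := by
    rw [hbc, hcC]
    refine Nat.pow_le_pow_right hbf1 ?_
    rw [hm]; unfold mS; omega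
  have hΛn : (β ^ L) ^ (loA (Fintype.card (Fin n)) L +
      loC (Fintype.card (Fin n)) L (M + ML n K₀)) ≤ β ^ (L * m) := by
    rw [hbc, hcn]
    refine Nat.pow_le_pow_right hbf1 ?_
    rw [hm]; unfold mS; omega
  obtain ⟨hbF, hbFd, -⟩ := exists_Base rfl hβ2 (by rw [hcC]; exact hβ4.trans hbL) hF2 hE₂n
    (k₀ := k₀) (by omega) hβ3 hΛF rfl
  obtain ⟨hb1, hb1d, -⟩ := exists_Base rfl hβ2 (by rw [hcn]; exact hβ5.trans hbL) h12 hE₂n
    (k₀ := k₀) (by omega) hβ3 hΛn rfl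
  obtain ⟨hb2, hb2d, -⟩ := exists_Base rfl hβ2 (by rw [hcn]; exact hβ5.trans hbL) h22 hE₂n
    (k₀ := k₀) (by omega) hβ3 hΛn rfl
  refine ⟨E₂, hE₂, hcard', v, i₀, i₁, ⟨
      { par := hP
        hW := Nat.one_le_pow _ _ hbf1
        unif := hU
        ne := hE₂n
        adj := fun e he => hadj e (hE₂ he)
        winH1 := hg3
        winH2 := hg4
        geo := hg1
        long := hg2
        bF := hbF
        b1 := hb1
        b2 := hb2 }, hbFd, hb1d, hb2d⟩, ?_, ?_, ?_⟩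
  · exact hval xF (fun _ => ()) vF F5.F hF2 (fun i e _ => rfl)
  · exact hval xL Prod.fst v1 F5.L1 h12 (fun i e _ => rfl)
  · exact hval xL Prod.snd v2 F5.L2 h22 (fun i e _ => rfl)

/-- from a window with constant tight values to helper182's `BData` -/
theorem WD.toBD {W k β C₁ L K₀ q C i₀ i₁ : ℕ} {E' : Finset (Ed n ℝ)} {v : F5 × ℕ → ℕ}
    {cF c1 c2 : ℕ} (D : WD n W k β C₁ L K₀ q C i₀ i₁ E' v cF c1 c2)
    (hF : ∀ i ≤ K₀, v (F5.F, i) = cF) (h1 : ∀ i ≤ K₀, v (F5.L1, i) = c1)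
    (h2 : ∀ i ≤ K₀, v (F5.L2, i) = c2) (ht : (2 * n + 1) - cF = (n - c1) + (n - c2))
    (p1 : c1 < n) (p2 : c2 < n) :
    ∃ B : BData n W k β C₁ L K₀ q C i₀ i₁ E' v,
      B.bF.d = D.bF.d ∧ B.b1.d = D.b1.d ∧ B.b2.d = D.b2.d := by
  have eF := hF 0 (Nat.zero_le _)
  have e1 := h1 0 (Nat.zero_le _)
  have e2 := h2 0 (Nat.zero_le _)
  subst eF
  subst e1
  subst e2
  exact ⟨{ par := D.par
           unif := D.unif
           ne := D.ne
           adj := D.adj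
           hW := D.hW
           bF := D.bF
           b1 := D.b1
           b2 := D.b2
           winF := hF
           winL1 := h1
           winL2 := h2
           tight := ht
           pos1 := p1
           pos2 := p2
           winH1 := D.winH1
           winH2 := D.winH2
           geo := D.geo
           long := D.long }, rfl, rfl, rfl⟩

/-- **SEAM A -> B.** -/
theorem exists_BD (n L C q M : ℕ) (hL : 0 < L) :
    ∃ β₀ : ℕ, ∀ β, β₀ ≤ β → ∃ k C₁ : ℕ, ∀ (K₁ k₀ : ℕ) (E₁ : Finset (Ed n ℝ)) (vF v1 v2 : ℕ → ℕ),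
      E₁.Nonempty → (∀ e ∈ E₁, e.1.1 0 ≠ e.2.1 0 ∧ Qf (e.1 - e.2) = 0) →
      FamU (xF (n := n) (K := ℝ)) (fun _ => ()) (β ^ L) β M K₁ E₁ vF →
      FamU (xL (n := n) (K := ℝ)) Prod.fst (β ^ L) β M K₁ E₁ v1 →
      FamU (xL (n := n) (K := ℝ)) Prod.snd (β ^ L) β M K₁ E₁ v2 →
      k₀ + lenS n L (KB n C) M ≤ K₁ + 1 →
      (∀ l, k₀ ≤ l → l < k₀ + lenS n L (KB n C) M →
        vF l = vF k₀ ∧ v1 l = v1 k₀ ∧ v2 l = v2 k₀) →
      (2 * n + 1) - vF k₀ = (n - v1 k₀) + (n - v2 k₀) → v1 k₀ < n → v2 k₀ < n →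
      ∃ E₂ ⊆ E₁, E₁.card ≤ β ^ ML n (KB n C) * E₂.card ∧ ∃ (v : F5 × ℕ → ℕ) (i₀ i₁ : ℕ),
        (∃ B : BData n ((β ^ L) ^ k₀) k β C₁ (L * mS n L (KB n C) M) (KB n C) q C i₀ i₁ E₂ v,
          B.bF.d = (fun j => (β ^ L) ^ kap (k₀ + 1) vF j) ∧
          B.b1.d = (fun j => (β ^ L) ^ kap (k₀ + 1) v1 j) ∧
          B.b2.d = (fun j => (β ^ L) ^ kap (k₀ + 1) v2 j)) ∧
        v (F5.F, 0) = vF k₀ ∧ v (F5.L1, 0) = v1 k₀ ∧ v (F5.L2, 0) = v2 k₀ := by
  obtain ⟨β₀, h⟩ := exists_WD n L C q M hL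
  refine ⟨β₀, fun β hβ => ?_⟩
  obtain ⟨k, C₁, h⟩ := h β hβ
  refine ⟨k, C₁, ?_⟩
  intro K₁ k₀ E₁ vF v1 v2 hE₁ hadj hF h1 h2 hlen hwin htight hp1 hp2
  obtain ⟨E₂, hE₂, hc, v, i₀, i₁, ⟨D, dF, d1, d2⟩, a1, a2, a3⟩ :=
    h K₁ k₀ E₁ vF v1 v2 hE₁ hadj hF h1 h2 hlen
  have b1 := a1 fun l hl hl' => (hwin l hl hl').1
  have b2 := a2 fun l hl hl' => (hwin l hl hl').2.1
  have b3 := a3 fun l hl hl' => (hwin l hl hl').2.2
  obtain ⟨B, e1, e2, e3⟩ := D.toBD b1 b2 b3 htight hp1 hp2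
  exact ⟨E₂, hE₂, hc, v, i₀, i₁, ⟨B, e1.trans dF, e2.trans d1, e3.trans d2⟩,
    b1 0 (Nat.zero_le _), b2 0 (Nat.zero_le _), b3 0 (Nat.zero_le _)⟩

end Vale.Agent.P054.T3.H533.B
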