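import Vale.Agent.P054.T3.H533.CountV

set_option autoImplicit false
set_option linter.all false

/-!
# P054 / T3, `n = 2`: the case theorem with thresholds which depend on the vertex, 'or' version

`NoRichL`: at an edge `(s, r)` and for every isometry graph of determinant `ε` through `s` and `r`,
`s` has few neighbours in the graph or `r` has few neighbours in the graph.
-/

namespace Vale.Agent.P054.T3.H533

open MvPolynomial Finset Module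
open Vale.Agent.P054.T2
open Vale.Agent.P054.T2.SecC
open Vale.Agent.P054.T2.H163
open Vale.Agent.P054.T2.H686 (mu Qf Bf Crd zt dists E Ez Gm Ez_pairs Ez_ne Ez_Qf toX toY toX_zt
  toY_zt)
open Vale.Agent.P054.T2.H192 (Iso)
open Vale.Agent.P054.T2.H455 (Sep)
open Vale.Agent.P054.T3.H637 (IsoE EdgeX EdgeW VertW CntG FlatQ dt dt_mul cnt_A'x
  card_cls_of_flatQ exists_graph_dt exists_graph_wrong)

variable {n : ℕ} {A : Finset (ZZ n × ZZ n)} {W D σ v : ℕ}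

/-- `EdgeX` with a third alternative in the cases (A'), (B'): the class from the other end point is
small -/
structure EdgeV {σ₁ σ₂ v₁ v₂ : ℕ} (S₁ : Side n A W D σ₁ v₂)
    (S₂ : Side n (swp A) W D σ₂ v₁) (G₁ G₂ : ℕ) (e : ZZ n × ZZ n) : Prop where
  side₁ : EdgeS S₁ e
  side₂ : EdgeS S₂ e.swap
  hperp : ∀ a ∈ S₂.V e.swap, ∀ b ∈ S₁.V e, Bf a b = 0
  hw₁ : e.1 - e.2 ∈ S₂.V e.swap → S₁.V e ≤ S₂.V e.swap
  hw₂ : e.1 - e.2 ∈ S₁.V e → S₂.V e.swap ≤ S₁.V e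
  ste : Ste S₁ e
  vertN : e.1 - e.2 ∈ S₁.V e → S₁.V e = S₂.V e.swap → Iso (S₁.V e) →
    (v₁ = 0 ∧ v₂ = 0) ∨ (S₁.cls e).card ≤ G₁ ∨ (S₂.cls e.swap).card ≤ G₂
  vertA₁ : e.1 - e.2 ∉ S₁.V e → finrank ℝ (S₁.V e) = n →
    Iso (S₁.V e ⊔ Submodule.span ℝ {e.1 - e.2}) →
    ¬ ZInj (S₁.V e ⊔ Submodule.span ℝ {e.1 - e.2}) → v₂ ≠ 0 →
    (S₁.cls e).card ≤ G₁ ∨ ((e.1 - e.2 ∉ S₂.V e.swap ∧ finrank ℝ (S₂.V e.swap) < n) ∨
      ((S₂.cls e.swap).card ≤ G₂ ∧ finrank ℝ (S₂.V e.swap) ≤ n + 1))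
  vertA₂ : e.1 - e.2 ∉ S₂.V e.swap → finrank ℝ (S₂.V e.swap) = n →
    Iso (S₂.V e.swap ⊔ Submodule.span ℝ {e.1 - e.2}) →
    ¬ ZInj (S₂.V e.swap ⊔ Submodule.span ℝ {e.1 - e.2}) → v₁ ≠ 0 →
    (S₂.cls e.swap).card ≤ G₂ ∨ ((e.1 - e.2 ∉ S₁.V e ∧ finrank ℝ (S₁.V e) < n) ∨
      ((S₁.cls e).card ≤ G₁ ∧ finrank ℝ (S₁.V e) ≤ n + 1))

theorem EdgeV.of_edgeX {σ₁ σ₂ v₁ v₂ : ℕ} {S₁ : Side n A W D σ₁ v₂}
    {S₂ : Side n (swp A) W D σ₂ v₁} {G₁ G₂ : ℕ} {e : ZZ n × ZZ n} (h : EdgeX S₁ S₂ G₁ G₂ e) :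
    EdgeV S₁ S₂ G₁ G₂ e where
  side₁ := h.side₁
  side₂ := h.side₂
  hperp := h.hperp
  hw₁ := h.hw₁
  hw₂ := h.hw₂
  ste := h.ste
  vertN := h.vertN
  vertA₁ := fun a b c d f => (h.vertA₁ a b c d f).imp_right Or.inl
  vertA₂ := fun a b c d f => (h.vertA₂ a b c d f).imp_right Or.inl

/-- **the case theorem** for one edge, third alternative -/
theorem hcase_oneV {σ₁ σ₂ v₁ v₂ : ℕ} (S₁ : Side n A W D σ₁ v₂) (S₂ : Side n (swp A) W D σ₂ v₁)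
    {N G₁ G₂ : ℕ} (hste : ∀ e ∈ A, Ste S₁ e)
    (hsep₁ : ∀ e ∈ A, Sep (fun e' : ZZ n × ZZ n => pt e'.2) N (S₁.cls e))
    (hsep₂ : ∀ e ∈ swp A, Sep (fun e' : ZZ n × ZZ n => pt e'.2) N (S₂.cls e))
    {e : ZZ n × ZZ n} (he : e ∈ A) (hEe : EdgeV S₁ S₂ G₁ G₂ e) :
    (S₁.Cnt (2 * N) G₁ e ∧ finrank ℝ (S₁.V e) ≤ n + 1) ∨
      (S₂.Cnt (2 * N) G₂ e.swap ∧ finrank ℝ (S₂.V e.swap) ≤ n + 1) ∨
      (BB S₁ S₂ e ∧ Iso (S₁.V e) ∧ Iso (S₂.V e.swap)) := by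
  have he2 : e.swap ∈ swp A := mem_swp.2 (by rwa [Prod.swap_swap])
  have hs1 := hsep₁ e he
  have hs2 := hsep₂ e.swap he2
  have h2N : N ≤ 2 * N := by omega
  have hiso1' : Iso (S₁.V e) → ∀ b ∈ S₁.V e, Bf (e.1 - e.2) b = 0 := fun h => S₁.iso_perp he h
  have hneg : ∀ b, Bf (e.1 - e.2) b = - Bf (e.swap.1 - e.swap.2) b := by
    intro b
    rw [sub_swap]
    unfold Bf
    rw [← Finset.sum_neg_distrib]
    refine Finset.sum_congr rfl fun i _ => ?_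
    simp only [Prod.fst_neg, Prod.snd_neg, Pi.neg_apply]
    ring
  have hiso2' : Iso (S₂.V e.swap) → ∀ b ∈ S₂.V e.swap, Bf (e.1 - e.2) b = 0 := by
    intro h b hb
    rw [hneg, S₂.iso_perp he2 h b hb, neg_zero]
  rcases H192.tree (k := ℝ) two_ne_zero (S₂.V e.swap) (S₁.V e) (e.1 - e.2) hEe.hperp hiso2' hiso1'
    hEe.hw₁ hEe.hw₂ with ⟨h1, h2, h3⟩ | ⟨h1, h2, h3, h4⟩ | ⟨h1, h2, h3⟩ | ⟨h1, h2, h3, h4⟩ |
    ⟨h1, h2, h3, h4, h5, h6, h7, h8⟩ | ⟨h1, h2, h3, h4⟩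
  · -- (A0)
    exact Or.inl ⟨cnt_mono_N S₁ h2N (cnt_A0 S₁ he hEe.side₁ h1 h2 h3 hs1 G₁),
      h2.trans (Nat.le_succ n)⟩
  · -- (A')
    rcases cnt_A'x S₁ he hEe.side₁ h1 h2 h3 (hEe.vertA₁ h1 h2 h3) hs1 with h | ⟨h5, h6⟩ | ⟨h5, h6⟩
    · exact Or.inl ⟨cnt_mono_N S₁ h2N h, (le_of_eq h2).trans (Nat.le_succ n)⟩
    · refine Or.inr (Or.inl ⟨cnt_mono_N S₂ h2N (cnt_A0 S₂ he2 hEe.side₂ ?_ h6.le (Or.inl h6)
        hs2 G₂), h6.le.trans (Nat.le_succ n)⟩)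
      rwa [mem_swap_iff]
    · exact Or.inr (Or.inl ⟨Or.inl h5, h6⟩)
  · -- (B0)
    refine Or.inr (Or.inl ⟨cnt_mono_N S₂ h2N (cnt_A0 S₂ he2 hEe.side₂ ?_ h2 ?_ hs2 G₂),
      h2.trans (Nat.le_succ n)⟩)
    · rwa [mem_swap_iff]
    · rwa [span_swap]
  · -- (B')
    have h1' : e.swap.1 - e.swap.2 ∉ S₂.V e.swap := by rwa [mem_swap_iff]
    have h3' : Iso (S₂.V e.swap ⊔ Submodule.span ℝ {e.swap.1 - e.swap.2}) := by rwa [span_swap]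
    rcases cnt_A'x S₂ he2 hEe.side₂ h1' h2 h3' (by
      rw [span_swap]
      exact hEe.vertA₂ h1 h2 h3) hs2 with h | ⟨h5, h6⟩ | ⟨h5, h6⟩
    · exact Or.inr (Or.inl ⟨cnt_mono_N S₂ h2N h, (le_of_eq h2).trans (Nat.le_succ n)⟩)
    · exact Or.inl ⟨cnt_mono_N S₁ h2N (cnt_A0 S₁ he hEe.side₁ h5 h6.le (Or.inl h6) hs1 G₁),
        h6.le.trans (Nat.le_succ n)⟩
    · exact Or.inl ⟨Or.inl h5, h6⟩
  · -- (C)
    have hz : ZInj (S₁.V e) := hEe.side₁.geni (le_of_eq h4) (Or.inr h8)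
    exact Or.inl ⟨cnt_ste S₁ he h2 h4 hz hste hs1 G₁, h4.le⟩
  · -- (N)
    have h4' : finrank ℝ (S₂.V e.swap) ≤ n + 1 := h4
    have h2' := h2
    have h3' := h3
    rw [h2] at h1 h3 h4
    rcases hEe.vertN h1 h2.symm h3 with ⟨hv1, hv2⟩ | h5 | h5
    · have hg : ∀ {A' : Finset (ZZ n × ZZ n)} {σ' v' : ℕ} (S : Side n A' W D σ' v')
          (e' : ZZ n × ZZ n), EdgeS S e' → Iso (S.V e') → finrank ℝ (S.V e') ≤ n + 1 →
          ZInj (S.V e') ∨ WData v' (S.Pr e') e'.1 (S.V e') := by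
        intro A' σ' v' S e' hS hI hd
        rcases Nat.lt_or_ge (finrank ℝ (S.V e')) (n + 1) with hlt | hge
        · exact Or.inl (hS.geni hd (Or.inl hlt))
        · exact hS.genw hI (le_antisymm hd hge)
      rcases cnt_N S₁ he hv2 h1 (hg S₁ e hEe.side₁ h3 h4) hs1 G₁ with h6 | h6
      · exact Or.inl ⟨cnt_mono_N S₁ h2N h6, h4⟩
      · have h1' : e.swap.1 - e.swap.2 ∈ S₂.V e.swap := by rw [mem_swap_iff, h2]; exact h1
        rcases cnt_N S₂ he2 hv1 h1' (hg S₂ e.swap hEe.side₂ (by rw [h2]; exact h3)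
          (by rw [h2]; exact h4)) hs2 G₂ with h7 | h7
        · exact Or.inr (Or.inl ⟨cnt_mono_N S₂ h2N h7, h4'⟩)
        · exact Or.inr (Or.inr ⟨⟨hv1, hv2, h6, h7⟩, h3, h3'⟩)
    · exact Or.inl ⟨Or.inl h5, h4⟩
    · exact Or.inr (Or.inl ⟨Or.inl h5, h4'⟩)

/-- **the case theorem** for the count `BOut.countV` -/
theorem hcase_TV {σ₁ σ₂ v₁ v₂ : ℕ} (S₁ : Side n A W D σ₁ v₂) (S₂ : Side n (swp A) W D σ₂ v₁)
    {G₁ G₂ : ZZ n → ℕ} (R : Finset (ZZ n × ZZ n)) (hste : ∀ e ∈ A, Ste S₁ e)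
    (hE : ∀ e ∈ A, e ∈ R ∨ EdgeV S₁ S₂ (G₁ e.1) (G₂ e.2) e)
    {P : Finset (E n)} {t : ℕ} {Gf : ℕ} {Sg₁ Sg₂ : Finset (ZZ n)}
    (hs1 : Sep (fun s : ZZ n => pt s) (4 * t) Sg₁) (hs2 : Sep (fun s : ZZ n => pt s) (4 * t) Sg₂)
    (hE1 : ∀ e ∈ A, e.1 ∈ Sg₁) (hE2 : ∀ e ∈ A, e.2 ∈ Sg₂) (hF : FlatQ n P Gf)
    (hPG : P.card ≤ Gf)
    (B : E n ≃ₗᵢ[ℝ] E n) (hA1 : ∀ e ∈ A, ∃ s ∈ P ×ˢ P, e.1 = zt B s)
    (hA2 : ∀ e ∈ A, ∃ r ∈ P ×ˢ P, e.2 = zt B r) :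
    ∀ e ∈ A, e ∈ R ∨ CntG S₁ (8 * t) (G₁ e.1) Gf e ∨ CntG S₂ (8 * t) (G₂ e.2) Gf e.swap ∨
      (BB S₁ S₂ e ∧ σ₁ < n ∧ σ₂ < n) := by
  have hA1' : ∀ e ∈ swp A, ∃ r ∈ P ×ˢ P, e.2 = zt B r := by
    intro e he
    exact hA1 e.swap (mem_swp.1 he)
  have hA2' : ∀ e ∈ swp A, ∃ r ∈ P ×ˢ P, e.1 = zt B r := by
    intro e he
    exact hA2 e.swap (mem_swp.1 he)
  intro e he
  rcases hE e he with h | hX
  · exact Or.inl h
  right
  have he2 : e.swap ∈ swp A := mem_swp.2 (by rwa [Prod.swap_swap])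
  have h0 := hcase_oneV S₁ S₂ (N := 4 * t) hste (fun e _ => sep_cls_T S₁ hs2 hE2 e)
    (fun e _ => sep_cls_T S₂ hs1 (fun e he => hE1 _ (mem_swp.1 he)) e) he hX
  have h8 : 2 * (4 * t) = 8 * t := by ring
  rw [h8] at h0
  rcases h0 with ⟨h1, h2⟩ | ⟨h1, h2⟩ | ⟨h, hI1, hI2⟩
  · left
    rcases lt_or_eq_of_le S₁.hσ with h | h
    · exact Or.inl ⟨h, h1⟩
    · exact Or.inr ⟨h, card_cls_of_flatQ S₁ hF B hA1 hA2 he h2⟩
  · right; left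
    rcases lt_or_eq_of_le S₂.hσ with h | h
    · exact Or.inl ⟨h, h1⟩
    · exact Or.inr ⟨h, card_cls_of_flatQ S₂ hF B hA2' hA1' he2 h2⟩
  · rcases lt_or_eq_of_le S₁.hσ with h3 | h3
    · rcases lt_or_eq_of_le S₂.hσ with h4 | h4
      · exact Or.inr (Or.inr ⟨h, h3, h4⟩)
      · exact Or.inr (Or.inl (Or.inr ⟨h4, (card_cls_of_iso S₂ B hA1' hI2).trans hPG⟩))
    · exact Or.inl (Or.inr ⟨h3, (card_cls_of_iso S₁ B hA2 hI1).trans hPG⟩)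

/-! ## no rich isometries at an edge, local version -/

/-- at the edge `e = (s, r)`, for the graph of every isometry with determinant `ε` through `s` and
`r`: at most `m s` edges of `E0` leave `s` within the graph, or at most `m r` edges of `E0` enter
`r` within the graph -/
def NoRichL (B : E n ≃ₗᵢ[ℝ] E n) (E0 : Finset (ZZ n × ZZ n)) (m : ZZ n → ℕ) (ε : ℝ)
    (e : ZZ n × ZZ n) : Prop :=
  ∀ (Φ : E n ≃ₗᵢ[ℝ] E n) (s r : E n × E n), e = (zt B s, zt B r) → dt Φ = ε →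
    r.1 - s.1 = Φ (r.2 - s.2) →
    (∀ cl : Finset (E n × E n), (∀ x ∈ cl, (zt B s, zt B x) ∈ E0 ∧
      x.1 - s.1 = Φ (x.2 - s.2)) → cl.card ≤ m e.1) ∨
    (∀ cl : Finset (E n × E n), (∀ x ∈ cl, (zt B x, zt B r) ∈ E0 ∧
      x.1 - s.1 = Φ (x.2 - s.2)) → cl.card ≤ m e.2)

theorem NoRichL.mono {B : E n ≃ₗᵢ[ℝ] E n} {E0 E1 : Finset (ZZ n × ZZ n)} {m m' : ZZ n → ℕ} {ε : ℝ}
    {e : ZZ n × ZZ n} (h : NoRichL B E0 m ε e) (hE : E1 ⊆ E0) (hm : ∀ z, m z ≤ m' z) :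
    NoRichL B E1 m' ε e := by
  intro Φ s r he hd h1
  rcases h Φ s r he hd h1 with h | h
  · exact Or.inl fun cl hcl => (h cl fun x hx => ⟨hE (hcl x hx).1, (hcl x hx).2⟩).trans (hm _)
  · exact Or.inr fun cl hcl => (h cl fun x hx => ⟨hE (hcl x hx).1, (hcl x hx).2⟩).trans (hm _)

/-- a point of `ZZ n` as a pair of points -/
noncomputable def uz (B : E n ≃ₗᵢ[ℝ] E n) (z : ZZ n) : E n × E n := (toX z, B.symm (toY z))

theorem uz_zt (B : E n ≃ₗᵢ[ℝ] E n) (s : E n × E n) : uz B (zt B s) = s := by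
  unfold uz
  rw [toX_zt, toY_zt, LinearIsometryEquiv.symm_apply_apply]

/-- a class in a graph -/
theorem card_cls_of_graph (S : Side n A W D σ v) (B : E n ≃ₗᵢ[ℝ] E n)
    (hA : ∀ e ∈ A, ∃ r : E n × E n, e.2 = zt B r) {e : ZZ n × ZZ n} (he : e ∈ A)
    {s : E n × E n} (hs : e.1 = zt B s) {U : Submodule ℝ (ZZ n)} {φ : E n ≃ₗᵢ[ℝ] E n}
    (hφ : ∀ w ∈ U, toX w = φ (toY w)) (hV : S.V e ≤ U) (hw : e.1 - e.2 ∈ U) {M : ℕ}
    (hN : ∀ cl : Finset (E n × E n), (∀ x ∈ cl, (zt B s, zt B x) ∈ A ∧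
      x.1 - s.1 = (φ * B) (x.2 - s.2)) → cl.card ≤ M) : (S.cls e).card ≤ M := by
  classical
  set cl : Finset (E n × E n) := (S.cls e).image fun e' => uz B e'.2 with hcl
  have h1 : S.cls e ⊆ cl.image fun r => (e.1, zt B r) := by
    intro e' he'
    have h2 := S.mem_cls.1 he'
    obtain ⟨r', hre⟩ := hA e' h2.1
    refine Finset.mem_image.2 ⟨uz B e'.2, Finset.mem_image_of_mem _ he', ?_⟩
    rw [hre, uz_zt, ← h2.2.1, ← hre]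
  refine ((Finset.card_le_card h1).trans Finset.card_image_le).trans ?_
  refine hN cl fun x hx => ?_
  obtain ⟨e', he', rfl⟩ := Finset.mem_image.1 hx
  have h2 := S.mem_cls.1 he'
  obtain ⟨r', hre⟩ := hA e' h2.1
  simp only [hre, uz_zt]
  refine ⟨?_, ?_⟩
  · have h3 : e' = (zt B s, zt B r') := Prod.ext (h2.2.1.trans hs) hre
    exact h3 ▸ h2.1
  · have h3 : zt B r' - zt B s ∈ U := by
      have h4 : e'.2 - e.2 ∈ S.V e := S.sub_mem_V he'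
      have h5 : zt B r' - zt B s = (e'.2 - e.2) - (e.1 - e.2) := by
        rw [hs, hre]; abel
      rw [h5]
      exact U.sub_mem (hV h4) hw
    have h6 := hφ _ h3
    rw [map_sub, map_sub, toX_zt, toX_zt, toY_zt, toY_zt, ← map_sub B] at h6
    exact h6

/-- both classes in the same graph -/
theorem cls_or_of_graph {σ₁ σ₂ v₁ v₂ : ℕ} (S₁ : Side n A W D σ₁ v₂)
    (S₂ : Side n (swp A) W D σ₂ v₁) (B : E n ≃ₗᵢ[ℝ] E n) {E0 : Finset (ZZ n × ZZ n)} (hA0 : A ⊆ E0)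
    (hA : ∀ e ∈ A, ∃ s r : E n × E n, e = (zt B s, zt B r)) {m : ZZ n → ℕ} {e : ZZ n × ZZ n}
    (he : e ∈ A) (hN : NoRichL B E0 m ((-1) ^ n * dt B) e) {U : Submodule ℝ (ZZ n)}
    (hU : ∃ φ : E n ≃ₗᵢ[ℝ] E n, dt φ = (-1) ^ n ∧ ∀ w ∈ U, toX w = φ (toY w))
    (h1 : S₁.V e ≤ U) (h2 : S₂.V e.swap ≤ U) (hw : e.1 - e.2 ∈ U) :
    (S₁.cls e).card ≤ m e.1 ∨ (S₂.cls e.swap).card ≤ m e.2 := by
  obtain ⟨φ, hφd, hφ⟩ := hU
  obtain ⟨s, r, hsr⟩ := hA e he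
  have he2 : e.swap ∈ swp A := mem_swp.2 (by rwa [Prod.swap_swap])
  have hs : e.1 = zt B s := by rw [hsr]
  have hr : e.2 = zt B r := by rw [hsr]
  have hrs : r.1 - s.1 = (φ * B) (r.2 - s.2) := by
    have h3 : zt B r - zt B s ∈ U := by
      rw [← hs, ← hr, ← neg_sub]
      exact U.neg_mem hw
    have h6 := hφ _ h3
    rw [map_sub, map_sub, toX_zt, toX_zt, toY_zt, toY_zt, ← map_sub B] at h6
    exact h6
  rcases hN (φ * B) s r hsr (by rw [dt_mul, hφd]) hrs with h | h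
  · left
    refine card_cls_of_graph S₁ B (fun e' he' => ?_) he hs hφ h1 hw fun cl hcl => ?_
    · obtain ⟨s', r', h3⟩ := hA e' he'
      exact ⟨r', by rw [h3]⟩
    · exact h cl fun x hx => ⟨hA0 (hcl x hx).1, (hcl x hx).2⟩
  · right
    refine card_cls_of_graph S₂ B (fun e' he' => ?_) he2 hr hφ h2 ?_ fun cl hcl => ?_
    · obtain ⟨s', r', h3⟩ := hA e'.swap (mem_swp.1 he')
      refine ⟨s', ?_⟩
      have h4 : e'.swap.1 = zt B s' := by rw [h3]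
      exact h4
    · have h3 : e.swap.1 - e.swap.2 = -(e.1 - e.2) := (neg_sub _ _).symm
      rw [h3]
      exact U.neg_mem hw
    · refine h cl fun x hx => ⟨?_, ?_⟩
      · have h3 := mem_swp.1 (hcl x hx).1
        exact hA0 h3
      · have h3 := (hcl x hx).2
        have h4 : x.1 - s.1 = (x.1 - r.1) + (r.1 - s.1) := by abel
        have h5 : x.2 - s.2 = (x.2 - r.2) + (r.2 - s.2) := by abel
        rw [h4, h3, hrs, ← map_add, ← h5]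

/-- `S.V e ⊔ ⟨s - r⟩` in a graph of determinant `(-1) ^ n` -/
theorem exists_graph_side (S : Side n A W D σ v) {e : ZZ n × ZZ n} (hE : EdgeS S e)
    (hI : Iso (S.V e ⊔ Submodule.span ℝ {e.1 - e.2}))
    (hd : finrank ℝ (S.V e ⊔ Submodule.span ℝ {e.1 - e.2} : Submodule ℝ (ZZ n)) ≤ n ∨
      (finrank ℝ (S.V e ⊔ Submodule.span ℝ {e.1 - e.2} : Submodule ℝ (ZZ n)) = n + 1 ∧
      ¬ ZInj (S.V e ⊔ Submodule.span ℝ {e.1 - e.2}))) :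
    ∃ φ : E n ≃ₗᵢ[ℝ] E n, dt φ = (-1) ^ n ∧
      ∀ w ∈ S.V e ⊔ Submodule.span ℝ {e.1 - e.2}, toX w = φ (toY w) := by
  rcases hd with hd | ⟨hd, hz⟩
  · exact exists_graph_dt hI hd (neg_one_pow_eq_or ℝ n)
  · rcases hE.genww hI hd with h | ⟨n₀, h1, h2, h3, h4, -⟩
    · exact absurd h hz
    · exact exists_graph_wrong hI hd h1 h2 h3 h4

/-- **[d = 3] the edge data with class bounds** from `EdgeW` and `NoRichL`. `hsub₁`, `hsub₂`: in the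
cases (A'), (B') the other direction space lies in the maximal isotropic space. -/
theorem edgeV_of_edgeW {σ₁ σ₂ v₁ v₂ : ℕ} (hn : n = 2) (S₁ : Side n A W D σ₁ v₂)
    (S₂ : Side n (swp A) W D σ₂ v₁) (B : E n ≃ₗᵢ[ℝ] E n) {E0 : Finset (ZZ n × ZZ n)} (hA0 : A ⊆ E0)
    (hA : ∀ e ∈ A, ∃ s r : E n × E n, e = (zt B s, zt B r)) {m : ZZ n → ℕ} {G₁ G₂ : ℕ}
    (h₁ : 2 ≤ σ₁ → IsoE S₁ G₁) (h₂ : 2 ≤ σ₂ → IsoE S₂ G₂)
    {e : ZZ n × ZZ n} (he : e ∈ A) (hM₁ : m e.1 ≤ G₁) (hM₂ : m e.2 ≤ G₂)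
    (hN : NoRichL B E0 m (dt B) e) (hE : EdgeW S₁ S₂ e)
    (hsub₁ : e.1 - e.2 ∉ S₁.V e → finrank ℝ (S₁.V e) = n →
      Iso (S₁.V e ⊔ Submodule.span ℝ {e.1 - e.2}) →
      S₂.V e.swap ≤ S₁.V e ⊔ Submodule.span ℝ {e.1 - e.2})
    (hsub₂ : e.1 - e.2 ∉ S₂.V e.swap → finrank ℝ (S₂.V e.swap) = n →
      Iso (S₂.V e.swap ⊔ Submodule.span ℝ {e.1 - e.2}) →
      S₁.V e ≤ S₂.V e.swap ⊔ Submodule.span ℝ {e.1 - e.2}) : EdgeV S₁ S₂ G₁ G₂ e := by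
  have he2 : e.swap ∈ swp A := mem_swp.2 (by rwa [Prod.swap_swap])
  have hs1 := S₁.hσ1
  have hs2 := S₂.hσ1
  have h1n : ((-1 : ℝ) ^ n) = 1 := by rw [hn]; norm_num
  have hdt : ((-1 : ℝ) ^ n * dt B) = dt B := by rw [h1n, one_mul]
  rw [← hdt] at hN
  have hor : ∀ U : Submodule ℝ (ZZ n),
      (∃ φ : E n ≃ₗᵢ[ℝ] E n, dt φ = (-1) ^ n ∧ ∀ w ∈ U, toX w = φ (toY w)) →
      S₁.V e ≤ U → S₂.V e.swap ≤ U → e.1 - e.2 ∈ U →
      (S₁.cls e).card ≤ G₁ ∨ (S₂.cls e.swap).card ≤ G₂ := by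
    intro U hU a b c
    rcases cls_or_of_graph S₁ S₂ B hA0 hA he hN hU a b c with h | h
    · exact Or.inl (h.trans hM₁)
    · exact Or.inr (h.trans hM₂)
  refine ⟨hE.side₁, hE.side₂, hE.hperp, hE.hw₁, hE.hw₂, hE.ste, ?_, ?_, ?_⟩
  · intro a1 a2 a3
    have hsup : S₁.V e ⊔ Submodule.span ℝ {e.1 - e.2} = S₁.V e :=
      sup_eq_left.2 ((Submodule.span_singleton_le_iff_mem _ _).2 a1)
    have hsup2 : S₂.V e.swap ⊔ Submodule.span ℝ {e.1 - e.2} = S₁.V e := by rw [← a2, hsup]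
    have hg : (finrank ℝ (S₁.V e) ≤ n ∨ (finrank ℝ (S₁.V e) = n + 1 ∧ ¬ ZInj (S₁.V e))) →
        (S₁.cls e).card ≤ G₁ ∨ (S₂.cls e.swap).card ≤ G₂ := by
      intro h
      refine hor (S₁.V e) ?_ le_rfl (le_of_eq a2.symm) a1
      have h1 := exists_graph_side S₁ hE.side₁ (by rw [hsup]; exact a3) (by rw [hsup]; exact h)
      rwa [hsup] at h1
    rcases hE.vert.vertN a1 a2 a3 with h | h | h | h
    · exact Or.inl h
    · right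
      rcases Nat.lt_or_ge 1 σ₁ with h3 | h3
      · exact Or.inl (h₁ h3 e he (by rw [hsup]; exact a3) h (Or.inl a1))
      · exact hg (Or.inl (h.trans (by omega)))
    · right
      rcases Nat.lt_or_ge 1 σ₂ with h3 | h3
      · refine Or.inr (h₂ h3 e.swap he2 ?_ ?_ (Or.inl ?_))
        · rw [span_swap, hsup2]
          exact a3
        · rw [← a2]; exact h
        · rw [mem_swap_iff, ← a2]; exact a1
      · exact hg (Or.inl (h.trans (by omega)))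
    · exact Or.inr (hg (Or.inr h))
  · intro a1 a2 a3 a4 a5
    have hd : finrank ℝ (S₁.V e ⊔ Submodule.span ℝ {e.1 - e.2} : Submodule ℝ (ZZ n)) = n + 1 := by
      rw [H192.finrank_sup_span _ a1, a2]
    have hU := exists_graph_side S₁ hE.side₁ a3 (Or.inr ⟨hd, a4⟩)
    have hs := hsub₁ a1 a2 a3
    rcases hor _ hU le_sup_left hs
      (Submodule.mem_sup_right (Submodule.mem_span_singleton_self _)) with h | h
    · exact Or.inl h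
    · exact Or.inr (Or.inr ⟨h, (Submodule.finrank_mono hs).trans (le_of_eq hd)⟩)
  · intro a1 a2 a3 a4 a5
    have hd : finrank ℝ (S₂.V e.swap ⊔ Submodule.span ℝ {e.1 - e.2} : Submodule ℝ (ZZ n)) =
        n + 1 := by
      rw [H192.finrank_sup_span _ a1, a2]
    have hU := exists_graph_side S₂ (e := e.swap) hE.side₂ (by rw [span_swap]; exact a3)
      (by rw [span_swap]; exact Or.inr ⟨hd, a4⟩)
    rw [span_swap] at hU
    have hs := hsub₂ a1 a2 a3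
    rcases hor _ hU hs le_sup_left
      (Submodule.mem_sup_right (Submodule.mem_span_singleton_self _)) with h | h
    · exact Or.inr (Or.inr ⟨h, (Submodule.finrank_mono hs).trans (le_of_eq hd)⟩)
    · exact Or.inl h

end Vale.Agent.P054.T3.H533
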