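import Vale.Agent.P054.T3.H807.SecCG
import Vale.Agent.P054.T3.H637.CasePS
import Vale.Agent.P054.T3.H854.Frame
import Vale.Agent.P054.T2.H82.ABEdge

set_option autoImplicit false
set_option linter.all false

/-!
# P054 / T3, sections B + C: the count of the good edges of one window

`count_X`: from the class data of section B (`ZData`, two sides, `EdgeX` at every edge outside `R`).
`count_B`: the same from `EdgeB`, `n ≥ 3`, `R` = the edges in isotropic planes with large classes.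
-/

namespace Vale.Agent.P054.T3.H533

open MvPolynomial Finset Module
open Vale.Agent.P054.T2
open Vale.Agent.P054.T2.SecC
open Vale.Agent.P054.T2.H163
open Vale.Agent.P054.T2.H686 (mu Qf Bf Crd zt dists E Ez Ez_pairs)
open Vale.Agent.P054.T2.H192 (Iso)
open Vale.Agent.P054.T2.H455 (Sep)
open Vale.Agent.P054.T2.H580 (Vw wh)
open Vale.Agent.P054.T2.H930 (germ Pt edgePt ZData)
open Vale.Agent.P054.T2.H269 (Cs)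
open Vale.Agent.P054.T3.H637 (IsoE EdgeX PSEdge CntG FlatQ edgeX_or_ps hcase_one
  card_cls_of_flatQ)
open Vale.Agent.P054.T3.H807 (leafB secC_G)
open Vale.Agent.P054.T3.H854 (IsoBL)

variable {n : ℕ} {A : Finset (ZZ n × ZZ n)} {W D σ v : ℕ}

/-- isotropic classes, `σ ≥ 2` -/
theorem isoE_of_isoBL (S : Side n A W D σ v) {P : Finset (E n)} {G : ℕ → ℕ} (hG : IsoBL n P G)
    (B : E n ≃ₗᵢ[ℝ] E n) (hA : ∀ e ∈ A, ∃ r ∈ P ×ˢ P, e.2 = zt B r) (hσ : 2 ≤ σ) :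
    IsoE S (G σ) := by
  classical
  intro e he hI hd _
  have hI' : Iso (S.V e) := hI.mono le_sup_left
  set cl : Finset (E n × E n) := (P ×ˢ P).filter fun r => (e.1, zt B r) ∈ S.cls e with hcl
  have h1 : S.cls e ⊆ cl.image fun r => (e.1, zt B r) := by
    intro e' he'
    have h2 := S.mem_cls.1 he'
    obtain ⟨r, hr, hre⟩ := hA e' h2.1
    have h3 : e' = (e.1, zt B r) := Prod.ext h2.2.1 hre
    refine Finset.mem_image.2 ⟨r, ?_, h3.symm⟩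
    rw [hcl, Finset.mem_filter]
    exact ⟨hr, h3 ▸ he'⟩
  refine ((Finset.card_le_card h1).trans Finset.card_image_le).trans ?_
  refine hG σ hσ B (S.V e) e.2 hI' hd cl (Finset.filter_subset _ _) fun r hr => ?_
  rw [hcl, Finset.mem_filter] at hr
  exact S.sub_mem_V hr.2

/-- **the case theorem for the point set**, with remaining edges `R` -/
theorem hcase_R {σ₁ σ₂ v₁ v₂ : ℕ} (S₁ : Side n A W D σ₁ v₂) (S₂ : Side n (swp A) W D σ₂ v₁)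
    {G₁ G₂ : ℕ} (R : Finset (ZZ n × ZZ n)) (hste : ∀ e ∈ A, Ste S₁ e)
    (hE : ∀ e ∈ A, e ∈ R ∨ EdgeX S₁ S₂ G₁ G₂ e)
    {P : Finset (E n)} {t : ℕ} {Gf : ℕ} (ht : (dists P).card ≤ t) (hF : FlatQ n P Gf)
    (B : E n ≃ₗᵢ[ℝ] E n) (hA1 : ∀ e ∈ A, ∃ s ∈ P ×ˢ P, e.1 = zt B s)
    (hA2 : ∀ e ∈ A, ∃ r ∈ P ×ˢ P, e.2 = zt B r) :
    ∀ e ∈ A, e ∈ R ∨ CntG S₁ (8 * t) G₁ Gf e ∨ CntG S₂ (8 * t) G₂ Gf e.swap ∨ BB S₁ S₂ e := by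
  have hA1' : ∀ e ∈ swp A, ∃ r ∈ P ×ˢ P, e.2 = zt B r := by
    intro e he
    exact hA1 e.swap (mem_swp.1 he)
  have hA2' : ∀ e ∈ swp A, ∃ r ∈ P ×ˢ P, e.1 = zt B r := by
    intro e he
    exact hA2 e.swap (mem_swp.1 he)
  intro e he
  rcases hE e he with h | hX
  · exact Or.inl h
  right
  have he2 : e.swap ∈ swp A := mem_swp.2 (by rwa [Prod.swap_swap])
  have h0 := hcase_one S₁ S₂ (N := 4 * t) hste (fun e _ => sep_cls S₁ ht B hA2 e)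
    (fun e _ => sep_cls S₂ ht B hA1' e) he hX
  have h8 : 2 * (4 * t) = 8 * t := by ring
  rw [h8] at h0
  rcases h0 with ⟨h1, h2⟩ | ⟨h1, h2⟩ | h
  · left
    rcases lt_or_eq_of_le S₁.hσ with h | h
    · exact Or.inl ⟨h, h1⟩
    · exact Or.inr ⟨h, card_cls_of_flatQ S₁ hF B hA1 hA2 he h2⟩
  · right; left
    rcases lt_or_eq_of_le S₂.hσ with h | h
    · exact Or.inl ⟨h, h1⟩
    · exact Or.inr ⟨h, card_cls_of_flatQ S₂ hF B hA2' hA1' he2 h2⟩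
  · exact Or.inr (Or.inr h)

/-- **[BC] the count**, general form. `𝓔` any set of edges which contains `A` (`A ⊆ Ez P B β'`). -/
theorem count_X {E0 E1 : Finset (ZZ n × ZZ n)} {N c₀ c₁ c₂ σ₁ σ₂ v₁ v₂ : ℕ}
    (Z : ZData ℝ n E0 E1 A (wh (Crd n) (Pt n) W) N c₀ c₁ c₂ σ₁ σ₂)
    (S₁ : Side n A W D σ₁ v₂) (S₂ : Side n (swp A) W D σ₂ v₁)
    (hK1 : ∀ e ∈ A, ∀ F : MvPolynomial (ZI n) ℝ, rename (fun x => Sum.inr (Sum.inr x)) F ∈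
      germ (edgePt e.1 e.2) Z.F ↔ F ∈ S₁.Pr e)
    (hK2 : ∀ e ∈ A, ∀ F : MvPolynomial (ZI n) ℝ, rename (fun x => Sum.inr (Sum.inl x)) F ∈
      germ (edgePt e.1 e.2) Z.F ↔ F ∈ S₂.Pr e.swap)
    (hhd : ∀ i, Z.h i ∈ Vw ℝ (wh (Crd n) (Pt n) W) (D * W))
    (hhd' : ∀ i, Z.h' i ∈ Vw ℝ (wh (Crd n) (Pt n) W) (D * W))
    (hc₁ : c₁ + v₁ = 2 * (n + 1)) (hc₂ : c₂ + v₂ = 2 * (n + 1))
    -- the degrees
    {dF d₁ d₂ : ℕ → ℕ} (hdF1 : ∀ i < c₀, 1 ≤ dF i) (hdF : ∀ i, (Z.f i).totalDegree ≤ dF i)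
    (hd₁1 : ∀ i < n - σ₁, 1 ≤ d₁ i) (hd₁ : ∀ s i, (S₁.f s i).totalDegree ≤ d₁ i)
    (hd₂1 : ∀ i < n - σ₂, 1 ≤ d₂ i) (hd₂ : ∀ s i, (S₂.f s i).totalDegree ≤ d₂ i)
    -- the point set
    {P : Finset (E n)} {B : E n ≃ₗᵢ[ℝ] E n} {t β' : ℕ} (ht : (dists P).card ≤ t) (ht1 : 1 ≤ t)
    (hA : A ⊆ Ez P B β') {G₁ G₂ Gf b a₁ : ℕ} (hF : FlatQ n P Gf)
    (R : Finset (ZZ n × ZZ n)) (hste : ∀ e ∈ A, Ste S₁ e)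
    (hE : ∀ e ∈ A, e ∈ R ∨ EdgeX S₁ S₂ G₁ G₂ e)
    {Sg₁ Sg₂ : Finset (ZZ n)} (hS1 : Sg₁ ⊆ H84.Sg P B) (hS2 : Sg₂ ⊆ H84.Sg P B)
    (hE1 : ∀ e ∈ A, e.1 ∈ Sg₁) (hE2 : ∀ e ∈ A, e.2 ∈ Sg₂)
    (hD : D ≤ b ^ a₁) (hCs : Cs n ≤ b) (hCx : H819.Cx n ≤ b) (h9 : 9 ^ n ≤ b)
    (h100 : 4 * 25 ^ n ≤ b) :
    A.card ≤ R.card + b ^ (a₁ * (4 * (n + 1)) + 2) *
      (Sg₁.card * ((∏ i : Fin (n - σ₁), d₁ i) * leafB n σ₁ t G₁ Gf) +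
        Sg₂.card * ((∏ i : Fin (n - σ₂), d₂ i) * leafB n σ₂ t G₂ Gf) +
        (∏ i : Fin c₀, dF i) * t ^ (σ₁ + σ₂)) := by
  have hA1 : ∀ e ∈ A, ∃ s ∈ P ×ˢ P, e.1 = zt B s := by
    intro e he
    obtain ⟨s, hs, r, hr, rfl, -⟩ := Ez_pairs (hA he)
    exact ⟨s, hs, rfl⟩
  have hA2 : ∀ e ∈ A, ∃ r ∈ P ×ˢ P, e.2 = zt B r := by
    intro e he
    obtain ⟨s, hs, r, hr, rfl, -⟩ := Ez_pairs (hA he)
    exact ⟨r, hr, rfl⟩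
  exact secC_G Z S₁ S₂ hK1 hK2 hhd hhd' hc₁ hc₂ (τF := fun i => dF i) (fun i => hdF1 i i.2) hdF
    (τ₁ := fun _ i => d₁ i) (fun _ i => hd₁1 i i.2) (τ₂ := fun _ i => d₂ i)
    (fun _ i => hd₂1 i i.2) le_rfl P B ht ht1 hS1 hS2 hE1 hE2 (fun s _ i => hd₁ s i)
    (fun s _ i => hd₂ s i) (fun _ _ => le_rfl) (fun _ _ => le_rfl) R
    (hcase_R S₁ S₂ R hste hE ht hF B hA1 hA2) (by omega) (by omega) hD hCs hCx h9 h100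

open Classical in
/-- **[BC] the count**, `n ≥ 3`: the remaining edges are those in isotropic planes with large
classes (`PSEdge`) -/
theorem count_B (hn : 3 ≤ n) {E0 E1 : Finset (ZZ n × ZZ n)} {N c₀ c₁ c₂ σ₁ σ₂ v₁ v₂ : ℕ}
    (Z : ZData ℝ n E0 E1 A (wh (Crd n) (Pt n) W) N c₀ c₁ c₂ σ₁ σ₂)
    (S₁ : Side n A W D σ₁ v₂) (S₂ : Side n (swp A) W D σ₂ v₁)
    (hK1 : ∀ e ∈ A, ∀ F : MvPolynomial (ZI n) ℝ, rename (fun x => Sum.inr (Sum.inr x)) F ∈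
      germ (edgePt e.1 e.2) Z.F ↔ F ∈ S₁.Pr e)
    (hK2 : ∀ e ∈ A, ∀ F : MvPolynomial (ZI n) ℝ, rename (fun x => Sum.inr (Sum.inl x)) F ∈
      germ (edgePt e.1 e.2) Z.F ↔ F ∈ S₂.Pr e.swap)
    (hEB : ∀ e ∈ A, EdgeB S₁ S₂ e)
    (hhd : ∀ i, Z.h i ∈ Vw ℝ (wh (Crd n) (Pt n) W) (D * W))
    (hhd' : ∀ i, Z.h' i ∈ Vw ℝ (wh (Crd n) (Pt n) W) (D * W))
    (hc₁ : c₁ + v₁ = 2 * (n + 1)) (hc₂ : c₂ + v₂ = 2 * (n + 1))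
    {dF d₁ d₂ : ℕ → ℕ} (hdF1 : ∀ i < c₀, 1 ≤ dF i) (hdF : ∀ i, (Z.f i).totalDegree ≤ dF i)
    (hd₁1 : ∀ i < n - σ₁, 1 ≤ d₁ i) (hd₁ : ∀ s i, (S₁.f s i).totalDegree ≤ d₁ i)
    (hd₂1 : ∀ i < n - σ₂, 1 ≤ d₂ i) (hd₂ : ∀ s i, (S₂.f s i).totalDegree ≤ d₂ i)
    {P : Finset (E n)} {B : E n ≃ₗᵢ[ℝ] E n} {t β' : ℕ} (ht : (dists P).card ≤ t) (ht1 : 1 ≤ t)
    (hA : A ⊆ Ez P B β') {G : ℕ → ℕ} (hG : IsoBL n P G) {G₁ G₂ Gf b a₁ : ℕ} (hF : FlatQ n P Gf)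
    (hG₁ : 2 ≤ σ₁ → G σ₁ ≤ G₁) (hG₂ : 2 ≤ σ₂ → G σ₂ ≤ G₂)
    {Sg₁ Sg₂ : Finset (ZZ n)} (hS1 : Sg₁ ⊆ H84.Sg P B) (hS2 : Sg₂ ⊆ H84.Sg P B)
    (hE1 : ∀ e ∈ A, e.1 ∈ Sg₁) (hE2 : ∀ e ∈ A, e.2 ∈ Sg₂)
    (hD : D ≤ b ^ a₁) (hCs : Cs n ≤ b) (hCx : H819.Cx n ≤ b) (h9 : 9 ^ n ≤ b)
    (h100 : 4 * 25 ^ n ≤ b) :
    A.card ≤ (A.filter fun e => PSEdge S₁ S₂ G₁ G₂ e).card + b ^ (a₁ * (4 * (n + 1)) + 2) *
      (Sg₁.card * ((∏ i : Fin (n - σ₁), d₁ i) * leafB n σ₁ t G₁ Gf) +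
        Sg₂.card * ((∏ i : Fin (n - σ₂), d₂ i) * leafB n σ₂ t G₂ Gf) +
        (∏ i : Fin c₀, dF i) * t ^ (σ₁ + σ₂)) := by
  have hA1 : ∀ e ∈ A, ∃ s ∈ P ×ˢ P, e.1 = zt B s := by
    intro e he
    obtain ⟨s, hs, r, hr, rfl, -⟩ := Ez_pairs (hA he)
    exact ⟨s, hs, rfl⟩
  have hA2 : ∀ e ∈ A, ∃ r ∈ P ×ˢ P, e.2 = zt B r := by
    intro e he
    obtain ⟨s, hs, r, hr, rfl, -⟩ := Ez_pairs (hA he)
    exact ⟨r, hr, rfl⟩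
  have hA1' : ∀ e ∈ swp A, ∃ r ∈ P ×ˢ P, e.2 = zt B r := by
    intro e he
    exact hA1 e.swap (mem_swp.1 he)
  have h₁ : 2 ≤ σ₁ → IsoE S₁ G₁ := fun h e he a1 a2 a3 =>
    (isoE_of_isoBL S₁ hG B hA2 h e he a1 a2 a3).trans (hG₁ h)
  have h₂ : 2 ≤ σ₂ → IsoE S₂ G₂ := fun h e he a1 a2 a3 =>
    (isoE_of_isoBL S₂ hG B hA1' h e he a1 a2 a3).trans (hG₂ h)
  refine count_X Z S₁ S₂ hK1 hK2 hhd hhd' hc₁ hc₂ hdF1 hdF hd₁1 hd₁ hd₂1 hd₂ ht ht1 hA hF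
    (A.filter fun e => PSEdge S₁ S₂ G₁ G₂ e) (fun e he => (hEB e he).ste) (fun e he => ?_)
    hS1 hS2 hE1 hE2 hD hCs hCx h9 h100
  rcases edgeX_or_ps hn S₁ S₂ h₁ h₂ he (hEB e he) with h | h
  · exact Or.inr h
  · exact Or.inl (Finset.mem_filter.2 ⟨he, h⟩)

end Vale.Agent.P054.T3.H533
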