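import Vale.Agent.P054.T3.H533.CountZ
import Vale.Agent.P054.T3.H533.Seam3
import Vale.Agent.P054.T3.H182.SecB
import Vale.Agent.P054.T3.H807.Gain
import Vale.Agent.P054.T2.H622.VertS

set_option autoImplicit false
set_option linter.all false

/-!
# P054 / T3: sections B + C over helper182's `BOut`, and the composite seam + B + C

`BOut.count`: the count of the good edges.  `abc3`, `abc2`: from three lossless families with a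
tight stable window to the inequality of section C.
-/

namespace Vale.Agent.P054.T3.H533

open MvPolynomial Finset Module
open Vale.Agent.P054.T2
open Vale.Agent.P054.T2.SecC
open Vale.Agent.P054.T2.H163
open Vale.Agent.P054.T2.H686 (mu Qf Bf Crd zt dists E Ez Gm Ez_pairs Ez_ne Ez_Qf)
open Vale.Agent.P054.T2.H192 (Iso)
open Vale.Agent.P054.T2.H580 (Vw wh kap)
open Vale.Agent.P054.T2.H930 (germ Pt edgePt ZData)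
open Vale.Agent.P054.T2.H269 (Cs)
open Vale.Agent.P054.T2.H307 (Ed NN xF xL)
open Vale.Agent.P054.T3.H182 (F5 BData BOut CB qB secB)
open Vale.Agent.P054.T3.H461 (FamU)
open Vale.Agent.P054.T3.H637 (IsoE EdgeX EdgeW PSEdge CntG FlatQ NoRich dt edgeX_or_ps
  edgeX_of_edgeW vertSW)
open Vale.Agent.P054.T3.H807 (leafB pdeg)
open Vale.Agent.P054.T3.H854 (IsoBL)
open Vale.Agent.P054.T3.H533.B (KB ML mS lenS exists_BD)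

variable {n : ℕ}

section bout

variable {W D c₀ σ₁ σ₂ : ℕ} {E' : Finset (ZZ n × ZZ n)} {P : Finset (E n)}
  {B : E n ≃ₗᵢ[ℝ] E n} {dF d1 d2 : ℕ → ℕ} (O : BOut n W D c₀ σ₁ σ₂ E' P B dF d1 d2)

include O

/-- `EdgeW` at every good edge, all `n ≥ 2` -/
theorem BOut.edgeW (hn : 2 ≤ n) {β : ℕ} (hB : Gm P B) (hE : E' ⊆ Ez P B β) :
    ∀ e ∈ O.A, EdgeW O.S₁ O.S₂ e := by
  intro e he
  have hv := vertSW hn E' O.E1 O.A W D O.N c₀ O.c₁ O.c₂ σ₁ σ₂ O.v₁ O.v₂ O.Z O.S₁ O.S₂ P B β hB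
    e he (hE (O.sub he)) O.hc₀ O.hc₁ O.hc₂ (O.hKc1 e he) (O.hKc2 e he)
    (O.hst₁ e he) (O.hst₂ e he) (O.hw₁ e he) (O.hw₂ e he)
  exact
    { side₁ := O.side₁ e he
      side₂ := O.side₂ e he
      hperp := O.hperp e he
      hw₁ := O.hw₁ e he
      hw₂ := O.hw₂ e he
      ste := O.ste e he
      vert := hv }

/-- **the count of `BOut`**, general form: `EdgeX` off `R`. -/
theorem BOut.count (hdF1 : ∀ i < c₀, 1 ≤ dF i) (hd11 : ∀ i < n - σ₁, 1 ≤ d1 i)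
    (hd21 : ∀ i < n - σ₂, 1 ≤ d2 i) {t β' : ℕ} (ht : (dists P).card ≤ t) (ht1 : 1 ≤ t)
    (hE : E' ⊆ Ez P B β') {G₁ G₂ Gf b a₁ : ℕ} (hF : FlatQ n P Gf) (hPG : P.card ≤ Gf)
    (R : Finset (ZZ n × ZZ n)) (hX : ∀ e ∈ O.A, e ∈ R ∨ EdgeX O.S₁ O.S₂ G₁ G₂ e)
    {Sg₁ Sg₂ : Finset (ZZ n)} (hS1 : Sg₁ ⊆ H84.Sg P B) (hS2 : Sg₂ ⊆ H84.Sg P B)
    (hE1 : ∀ e ∈ E', e.1 ∈ Sg₁) (hE2 : ∀ e ∈ E', e.2 ∈ Sg₂)
    (hD : D ≤ b ^ a₁) (hCs : Cs n ≤ b) (hCx : H819.Cx n ≤ b) (h9 : 9 ^ n ≤ b)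
    (h100 : 4 * 25 ^ n ≤ b) :
    E'.card ≤ 2 * (R.card + b ^ (a₁ * (4 * (n + 1)) + 2) *
      (Sg₁.card * ((∏ i : Fin (n - σ₁), d1 i) * leafB n σ₁ t G₁ Gf) +
        Sg₂.card * ((∏ i : Fin (n - σ₂), d2 i) * leafB n σ₂ t G₂ Gf) +
        termF n σ₁ σ₂ t (∏ i : Fin c₀, dF i))) :=
  O.card.trans (Nat.mul_le_mul_left _ (count_XZ O.Z O.S₁ O.S₂ O.hK1 O.hK2 O.hhd O.hhd' O.hc₁
    O.hc₂ hdF1 O.hfd hd11 O.hd1 hd21 O.hd2 ht ht1 (O.sub.trans hE) hF hPG R O.ste hX hS1 hS2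
    (fun e he => hE1 e (O.sub he)) (fun e he => hE2 e (O.sub he)) hD hCs hCx h9 h100))

open Classical in
/-- `n ≥ 3`: the remaining edges are the `PSEdge`s -/
theorem BOut.count3 (hn : 3 ≤ n) (hdF1 : ∀ i < c₀, 1 ≤ dF i) (hd11 : ∀ i < n - σ₁, 1 ≤ d1 i)
    (hd21 : ∀ i < n - σ₂, 1 ≤ d2 i) {t β' : ℕ} (ht : (dists P).card ≤ t) (ht1 : 1 ≤ t)
    (hB : Gm P B) (hE : E' ⊆ Ez P B β') {G : ℕ → ℕ} (hG : IsoBL n P G)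
    {G₁ G₂ Gf b a₁ : ℕ} (hF : FlatQ n P Gf) (hPG : P.card ≤ Gf)
    (hG₁ : 2 ≤ σ₁ → G σ₁ ≤ G₁) (hG₂ : 2 ≤ σ₂ → G σ₂ ≤ G₂)
    {Sg₁ Sg₂ : Finset (ZZ n)} (hS1 : Sg₁ ⊆ H84.Sg P B) (hS2 : Sg₂ ⊆ H84.Sg P B)
    (hE1 : ∀ e ∈ E', e.1 ∈ Sg₁) (hE2 : ∀ e ∈ E', e.2 ∈ Sg₂)
    (hD : D ≤ b ^ a₁) (hCs : Cs n ≤ b) (hCx : H819.Cx n ≤ b) (h9 : 9 ^ n ≤ b)
    (h100 : 4 * 25 ^ n ≤ b) :
    E'.card ≤ 2 * ((O.A.filter fun e => PSEdge O.S₁ O.S₂ G₁ G₂ e).card +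
      b ^ (a₁ * (4 * (n + 1)) + 2) *
      (Sg₁.card * ((∏ i : Fin (n - σ₁), d1 i) * leafB n σ₁ t G₁ Gf) +
        Sg₂.card * ((∏ i : Fin (n - σ₂), d2 i) * leafB n σ₂ t G₂ Gf) +
        termF n σ₁ σ₂ t (∏ i : Fin c₀, dF i))) := by
  have hAE : O.A ⊆ Ez P B β' := O.sub.trans hE
  have hA1 : ∀ e ∈ O.A, ∃ s ∈ P ×ˢ P, e.1 = zt B s := by
    intro e he
    obtain ⟨s, hs, r, hr, rfl, -⟩ := Ez_pairs (hAE he)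
    exact ⟨s, hs, rfl⟩
  have hA2 : ∀ e ∈ O.A, ∃ r ∈ P ×ˢ P, e.2 = zt B r := by
    intro e he
    obtain ⟨s, hs, r, hr, rfl, -⟩ := Ez_pairs (hAE he)
    exact ⟨r, hr, rfl⟩
  have hA1' : ∀ e ∈ swp O.A, ∃ r ∈ P ×ˢ P, e.2 = zt B r := by
    intro e he
    exact hA1 e.swap (mem_swp.1 he)
  have h₁ : 2 ≤ σ₁ → IsoE O.S₁ G₁ := fun h e he a1 a2 a3 =>
    (isoE_of_isoBL O.S₁ hG B hA2 h e he a1 a2 a3).trans (hG₁ h)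
  have h₂ : 2 ≤ σ₂ → IsoE O.S₂ G₂ := fun h e he a1 a2 a3 =>
    (isoE_of_isoBL O.S₂ hG B hA1' h e he a1 a2 a3).trans (hG₂ h)
  have hEB := Vale.Agent.P054.T3.H182.BOut.edgeB O (H622.vertS hn) hB hE
  refine BOut.count O hdF1 hd11 hd21 ht ht1 hE hF hPG
    (O.A.filter fun e => PSEdge O.S₁ O.S₂ G₁ G₂ e) (fun e he => ?_)
    hS1 hS2 hE1 hE2 hD hCs hCx h9 h100
  rcases edgeX_or_ps hn O.S₁ O.S₂ h₁ h₂ he (hEB e he) with h | h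
  · exact Or.inr h
  · exact Or.inl (Finset.mem_filter.2 ⟨he, h⟩)

/-- `n = 2`: no remaining edges, if there are no rich isometries of determinant `dt B` at the
edges outside `R` -/
theorem BOut.count2 (hn : n = 2) (hdF1 : ∀ i < c₀, 1 ≤ dF i) (hd11 : ∀ i < n - σ₁, 1 ≤ d1 i)
    (hd21 : ∀ i < n - σ₂, 1 ≤ d2 i) {t β' : ℕ} (ht : (dists P).card ≤ t) (ht1 : 1 ≤ t)
    (hB : Gm P B) (hE : E' ⊆ Ez P B β') {G : ℕ → ℕ} (hG : IsoBL n P G)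
    {M G₁ G₂ Gf b a₁ : ℕ} (hF : FlatQ n P Gf) (hPG : P.card ≤ Gf)
    (hG₁ : 2 ≤ σ₁ → G σ₁ ≤ G₁) (hG₂ : 2 ≤ σ₂ → G σ₂ ≤ G₂) (hM₁ : M ≤ G₁) (hM₂ : M ≤ G₂)
    (R : Finset (ZZ n × ZZ n))
    (hN : ∀ e ∈ E', e ∉ R → ∀ s r : E n × E n, e.1 = zt B s → e.2 = zt B r →
      NoRich P M (dt B) s r)
    {Sg₁ Sg₂ : Finset (ZZ n)} (hS1 : Sg₁ ⊆ H84.Sg P B) (hS2 : Sg₂ ⊆ H84.Sg P B)
    (hE1 : ∀ e ∈ E', e.1 ∈ Sg₁) (hE2 : ∀ e ∈ E', e.2 ∈ Sg₂)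
    (hD : D ≤ b ^ a₁) (hCs : Cs n ≤ b) (hCx : H819.Cx n ≤ b) (h9 : 9 ^ n ≤ b)
    (h100 : 4 * 25 ^ n ≤ b) :
    E'.card ≤ 2 * (R.card + b ^ (a₁ * (4 * (n + 1)) + 2) *
      (Sg₁.card * ((∏ i : Fin (n - σ₁), d1 i) * leafB n σ₁ t G₁ Gf) +
        Sg₂.card * ((∏ i : Fin (n - σ₂), d2 i) * leafB n σ₂ t G₂ Gf) +
        termF n σ₁ σ₂ t (∏ i : Fin c₀, dF i))) := by
  have hAE : O.A ⊆ Ez P B β' := O.sub.trans hE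
  have hA1 : ∀ e ∈ O.A, ∃ s ∈ P ×ˢ P, e.1 = zt B s := by
    intro e he
    obtain ⟨s, hs, r, hr, rfl, -⟩ := Ez_pairs (hAE he)
    exact ⟨s, hs, rfl⟩
  have hA2 : ∀ e ∈ O.A, ∃ r ∈ P ×ˢ P, e.2 = zt B r := by
    intro e he
    obtain ⟨s, hs, r, hr, rfl, -⟩ := Ez_pairs (hAE he)
    exact ⟨r, hr, rfl⟩
  have hA1' : ∀ e ∈ swp O.A, ∃ r ∈ P ×ˢ P, e.2 = zt B r := by
    intro e he
    exact hA1 e.swap (mem_swp.1 he)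
  have h₁ : 2 ≤ σ₁ → IsoE O.S₁ G₁ := fun h e he a1 a2 a3 =>
    (isoE_of_isoBL O.S₁ hG B hA2 h e he a1 a2 a3).trans (hG₁ h)
  have h₂ : 2 ≤ σ₂ → IsoE O.S₂ G₂ := fun h e he a1 a2 a3 =>
    (isoE_of_isoBL O.S₂ hG B hA1' h e he a1 a2 a3).trans (hG₂ h)
  have hEW := BOut.edgeW O (by omega) hB hE
  refine BOut.count O hdF1 hd11 hd21 ht ht1 hE hF hPG R (fun e he => ?_)
    hS1 hS2 hE1 hE2 hD hCs hCx h9 h100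
  by_cases hR : e ∈ R
  · exact Or.inl hR
  right
  obtain ⟨s, -, hs⟩ := hA1 e he
  obtain ⟨r, -, hr⟩ := hA2 e he
  exact edgeX_of_edgeW hn O.S₁ O.S₂ B hA1 hA2 h₁ h₂ hM₁ hM₂ he hs hr
    (hN e (O.sub he) hR s r hs hr) (hEW e he)

end bout

/-- the exponent of the constant loss of sections B and C, in powers of `b = β ^ L` -/
def aBC (n L M : ℕ) : ℕ :=
  (mS n L (KB n (CB n)) M * KB n (CB n)) * (4 * (n + 1)) + 2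

/-- the length of the stable window needed by sections B and C -/
def lenBC (n L M : ℕ) : ℕ := lenS n L (KB n (CB n)) M

/-- the density loss (power of `β`) -/
def lossBC (n : ℕ) : ℕ := ML n (KB n (CB n))

theorem prod_eq_pdeg {σ b k₀ : ℕ} {v : ℕ → ℕ} (h : n - σ = v k₀) :
    ∏ i : Fin (n - σ), b ^ kap (k₀ + 1) v (i : ℕ) = pdeg b k₀ v := by
  unfold pdeg
  rw [h]

/-- **SEAM + B**: from the three lossless families with a tight stable window to `BOut` -/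
theorem exists_BOut (n L M : ℕ) (hn : 1 ≤ n) (hL : 0 < L) :
    ∃ β₀ : ℕ, ∀ β, β₀ ≤ β → ∀ (K₁ k₀ : ℕ) (E₁ : Finset (Ed n ℝ)) (vF v1 v2 : ℕ → ℕ),
      E₁.Nonempty →
      FamU (xF (n := n) (K := ℝ)) (fun _ => ()) (β ^ L) β M K₁ E₁ vF →
      FamU (xL (n := n) (K := ℝ)) Prod.fst (β ^ L) β M K₁ E₁ v1 →
      FamU (xL (n := n) (K := ℝ)) Prod.snd (β ^ L) β M K₁ E₁ v2 →
      k₀ + lenBC n L M ≤ K₁ + 1 →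
      (∀ l, k₀ ≤ l → l < k₀ + lenBC n L M → vF l = vF k₀ ∧ v1 l = v1 k₀ ∧ v2 l = v2 k₀) →
      (2 * n + 1) - vF k₀ = (n - v1 k₀) + (n - v2 k₀) → v1 k₀ < n → v2 k₀ < n →
      ∀ (P : Finset (E n)) (B : E n ≃ₗᵢ[ℝ] E n) (β' : ℕ), Gm P B → E₁ ⊆ Ez P B β' →
      ∃ E₂ ⊆ E₁, E₂.Nonempty ∧ E₁.card ≤ β ^ lossBC n * E₂.card ∧
        ∃ D, D ≤ (β ^ L) ^ (mS n L (KB n (CB n)) M * KB n (CB n)) ∧
        ∃ O : BOut n ((β ^ L) ^ k₀) D (vF k₀) (n - v1 k₀) (n - v2 k₀) E₂ P B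
          (fun j => (β ^ L) ^ kap (k₀ + 1) vF j) (fun j => (β ^ L) ^ kap (k₀ + 1) v1 j)
          (fun j => (β ^ L) ^ kap (k₀ + 1) v2 j), True := by
  obtain ⟨β₀, h⟩ := exists_BD n L (CB n) (qB n) M hL
  refine ⟨max β₀ (max 1 (H269.Cg (NN n))), fun β hβ => ?_⟩
  obtain ⟨k, C₁, h⟩ := h β ((le_max_left _ _).trans hβ)
  have hβ1 : 1 ≤ β := (le_max_left _ _).trans ((le_max_right _ _).trans hβ)
  have hβg : H269.Cg (NN n) ≤ β := (le_max_right _ _).trans ((le_max_right _ _).trans hβ)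
  intro K₁ k₀ E₁ vF v1 v2 hE₁ hF h1 h2 hlen hwin htight hp1 hp2 P B β' hB hE
  obtain ⟨E₂, hE₂, hc, v, i₀, i₁, ⟨BD, dF, d1, d2⟩, a1, a2, a3⟩ :=
    h K₁ k₀ E₁ vF v1 v2 hE₁ (fun e he => ⟨Ez_ne hB hn (hE he), Ez_Qf (hE he)⟩) hF h1 h2 hlen hwin
      htight hp1 hp2
  obtain ⟨O, -⟩ := secB BD le_rfl le_rfl hβg hB (hE₂.trans hE)
  rw [dF, d1, d2] at O
  rw [a1, a2, a3] at O
  refine ⟨E₂, hE₂, BD.ne, hc, _, ?_, O, trivial⟩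
  have hC1 : 1 ≤ CB n := by unfold CB; omega
  have h4 := (BD.i₀_le hC1).trans (BD.i₁_le hC1)
  rw [pow_mul β L (mS n L (KB n (CB n)) M), ← pow_mul]
  exact Nat.pow_le_pow_right (Nat.one_le_pow _ _ hβ1) (Nat.mul_le_mul_left _ h4)

open Classical in
/-- **SEAM + B + C**, `n ≥ 3` -/
theorem abc3 (n L M : ℕ) (hn : 3 ≤ n) (hL : 0 < L) :
    ∃ β₀ : ℕ, ∀ β, β₀ ≤ β → ∀ (K₁ k₀ : ℕ) (E₁ : Finset (Ed n ℝ)) (vF v1 v2 : ℕ → ℕ),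
      E₁.Nonempty →
      FamU (xF (n := n) (K := ℝ)) (fun _ => ()) (β ^ L) β M K₁ E₁ vF →
      FamU (xL (n := n) (K := ℝ)) Prod.fst (β ^ L) β M K₁ E₁ v1 →
      FamU (xL (n := n) (K := ℝ)) Prod.snd (β ^ L) β M K₁ E₁ v2 →
      k₀ + lenBC n L M ≤ K₁ + 1 →
      (∀ l, k₀ ≤ l → l < k₀ + lenBC n L M → vF l = vF k₀ ∧ v1 l = v1 k₀ ∧ v2 l = v2 k₀) →
      (2 * n + 1) - vF k₀ = (n - v1 k₀) + (n - v2 k₀) → v1 k₀ < n → v2 k₀ < n →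
      ∀ (P : Finset (E n)) (B : E n ≃ₗᵢ[ℝ] E n) (β' t : ℕ), Gm P B → E₁ ⊆ Ez P B β' →
      (dists P).card ≤ t → 1 ≤ t →
      ∀ (G : ℕ → ℕ) (G₁ G₂ Gf : ℕ), IsoBL n P G → FlatQ n P Gf → P.card ≤ Gf →
      (2 ≤ n - v1 k₀ → G (n - v1 k₀) ≤ G₁) → (2 ≤ n - v2 k₀ → G (n - v2 k₀) ≤ G₂) →
      ∀ Sg₁ Sg₂ : Finset (ZZ n), Sg₁ ⊆ H84.Sg P B → Sg₂ ⊆ H84.Sg P B →
      (∀ e ∈ E₁, e.1 ∈ Sg₁) → (∀ e ∈ E₁, e.2 ∈ Sg₂) →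
      ∃ E₂ ⊆ E₁, E₂.Nonempty ∧ E₁.card ≤ β ^ lossBC n * E₂.card ∧
        ∃ (D : ℕ) (O : BOut n ((β ^ L) ^ k₀) D (vF k₀) (n - v1 k₀) (n - v2 k₀) E₂ P B
          (fun j => (β ^ L) ^ kap (k₀ + 1) vF j) (fun j => (β ^ L) ^ kap (k₀ + 1) v1 j)
          (fun j => (β ^ L) ^ kap (k₀ + 1) v2 j)),
        (∀ e ∈ O.A, EdgeB O.S₁ O.S₂ e) ∧
        E₂.card ≤ 2 * ((O.A.filter fun e => PSEdge O.S₁ O.S₂ G₁ G₂ e).card +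
          (β ^ L) ^ aBC n L M *
          (Sg₁.card * (pdeg (β ^ L) k₀ v1 * leafB n (n - v1 k₀) t G₁ Gf) +
            Sg₂.card * (pdeg (β ^ L) k₀ v2 * leafB n (n - v2 k₀) t G₂ Gf) +
            termF n (n - v1 k₀) (n - v2 k₀) t (pdeg (β ^ L) k₀ vF))) := by
  obtain ⟨β₀, h⟩ := exists_BOut n L M (by omega) hL
  refine ⟨max β₀ (max 1 (max (Cs n) (max (H819.Cx n) (max (9 ^ n) (4 * 25 ^ n))))),
    fun β hβ => ?_⟩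
  have hβ1 : 1 ≤ β := (le_max_left _ _).trans ((le_max_right _ _).trans hβ)
  have hb : β ≤ β ^ L := Nat.le_self_pow hL.ne' _
  have hr2 := (le_max_right _ _).trans ((le_max_right _ _).trans hβ)
  have hCs : Cs n ≤ β ^ L := ((le_max_left _ _).trans hr2).trans hb
  have hr3 := (le_max_right _ _).trans hr2
  have hCx : H819.Cx n ≤ β ^ L := ((le_max_left _ _).trans hr3).trans hb
  have hr4 := (le_max_right _ _).trans hr3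
  have h9 : 9 ^ n ≤ β ^ L := ((le_max_left _ _).trans hr4).trans hb
  have h100 : 4 * 25 ^ n ≤ β ^ L := ((le_max_right _ _).trans hr4).trans hb
  have hb1 : 1 ≤ β ^ L := hβ1.trans hb
  intro K₁ k₀ E₁ vF v1 v2 hE₁ hF h1 h2 hlen hwin htight hp1 hp2 P B β' t hB hE ht ht1 G G₁ G₂ Gf
    hG hFl hPG hG₁ hG₂ Sg₁ Sg₂ hS1 hS2 hE1 hE2
  obtain ⟨E₂, hE₂, hne, hc, D, hD, O, -⟩ := h β ((le_max_left _ _).trans hβ) K₁ k₀ E₁ vF v1 v2 hE₁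
    hF h1 h2 hlen hwin htight hp1 hp2 P B β' hB hE
  refine ⟨E₂, hE₂, hne, hc, D, O,
    Vale.Agent.P054.T3.H182.BOut.edgeB O (H622.vertS hn) hB (hE₂.trans hE), ?_⟩
  have h3 := BOut.count3 O hn (fun i _ => Nat.one_le_pow _ _ hb1)
    (fun i _ => Nat.one_le_pow _ _ hb1) (fun i _ => Nat.one_le_pow _ _ hb1) ht ht1 hB
    (hE₂.trans hE) hG hFl hPG hG₁ hG₂ hS1 hS2 (fun e he => hE1 e (hE₂ he))
    (fun e he => hE2 e (hE₂ he)) hD hCs hCx h9 h100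
  rw [prod_eq_pdeg (σ := n - v1 k₀) (v := v1) (by omega),
    prod_eq_pdeg (σ := n - v2 k₀) (v := v2) (by omega)] at h3
  exact h3

open Classical in
/-- **SEAM + B + C**, `n = 2`; `Rp` = the edges where rich isometries of determinant `dt B` are
allowed -/
theorem abc2 (L M : ℕ) (hL : 0 < L) :
    ∃ β₀ : ℕ, ∀ β, β₀ ≤ β → ∀ (K₁ k₀ : ℕ) (E₁ : Finset (Ed 2 ℝ)) (vF v1 v2 : ℕ → ℕ),
      E₁.Nonempty →
      FamU (xF (n := 2) (K := ℝ)) (fun _ => ()) (β ^ L) β M K₁ E₁ vF →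
      FamU (xL (n := 2) (K := ℝ)) Prod.fst (β ^ L) β M K₁ E₁ v1 →
      FamU (xL (n := 2) (K := ℝ)) Prod.snd (β ^ L) β M K₁ E₁ v2 →
      k₀ + lenBC 2 L M ≤ K₁ + 1 →
      (∀ l, k₀ ≤ l → l < k₀ + lenBC 2 L M → vF l = vF k₀ ∧ v1 l = v1 k₀ ∧ v2 l = v2 k₀) →
      (2 * 2 + 1) - vF k₀ = (2 - v1 k₀) + (2 - v2 k₀) → v1 k₀ < 2 → v2 k₀ < 2 →
      ∀ (P : Finset (E 2)) (B : E 2 ≃ₗᵢ[ℝ] E 2) (β' t : ℕ), Gm P B → E₁ ⊆ Ez P B β' →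
      (dists P).card ≤ t → 1 ≤ t →
      ∀ (G : ℕ → ℕ) (M' G₁ G₂ Gf : ℕ), IsoBL 2 P G → FlatQ 2 P Gf → P.card ≤ Gf →
      (2 ≤ 2 - v1 k₀ → G (2 - v1 k₀) ≤ G₁) → (2 ≤ 2 - v2 k₀ → G (2 - v2 k₀) ≤ G₂) →
      M' ≤ G₁ → M' ≤ G₂ →
      ∀ Rp : ZZ 2 × ZZ 2 → Prop, (∀ e ∈ E₁, ¬ Rp e → ∀ s r : E 2 × E 2, e.1 = zt B s →
        e.2 = zt B r → NoRich P M' (dt B) s r) →
      ∀ Sg₁ Sg₂ : Finset (ZZ 2), Sg₁ ⊆ H84.Sg P B → Sg₂ ⊆ H84.Sg P B →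
      (∀ e ∈ E₁, e.1 ∈ Sg₁) → (∀ e ∈ E₁, e.2 ∈ Sg₂) →
      ∃ E₂ ⊆ E₁, E₂.Nonempty ∧ E₁.card ≤ β ^ lossBC 2 * E₂.card ∧
        E₂.card ≤ 2 * ((E₂.filter Rp).card + (β ^ L) ^ aBC 2 L M *
          (Sg₁.card * (pdeg (β ^ L) k₀ v1 * leafB 2 (2 - v1 k₀) t G₁ Gf) +
            Sg₂.card * (pdeg (β ^ L) k₀ v2 * leafB 2 (2 - v2 k₀) t G₂ Gf) +
            termF 2 (2 - v1 k₀) (2 - v2 k₀) t (pdeg (β ^ L) k₀ vF))) := by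
  obtain ⟨β₀, h⟩ := exists_BOut 2 L M (by omega) hL
  refine ⟨max β₀ (max 1 (max (Cs 2) (max (H819.Cx 2) (max (9 ^ 2) (4 * 25 ^ 2))))),
    fun β hβ => ?_⟩
  have hβ1 : 1 ≤ β := (le_max_left _ _).trans ((le_max_right _ _).trans hβ)
  have hb : β ≤ β ^ L := Nat.le_self_pow hL.ne' _
  have hr2 := (le_max_right _ _).trans ((le_max_right _ _).trans hβ)
  have hCs : Cs 2 ≤ β ^ L := ((le_max_left _ _).trans hr2).trans hb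
  have hr3 := (le_max_right _ _).trans hr2
  have hCx : H819.Cx 2 ≤ β ^ L := ((le_max_left _ _).trans hr3).trans hb
  have hr4 := (le_max_right _ _).trans hr3
  have h9 : 9 ^ 2 ≤ β ^ L := ((le_max_left _ _).trans hr4).trans hb
  have h100 : 4 * 25 ^ 2 ≤ β ^ L := ((le_max_right _ _).trans hr4).trans hb
  have hb1 : 1 ≤ β ^ L := hβ1.trans hb
  intro K₁ k₀ E₁ vF v1 v2 hE₁ hF h1 h2 hlen hwin htight hp1 hp2 P B β' t hB hE ht ht1 G M' G₁ G₂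
    Gf hG hFl hPG hG₁ hG₂ hM₁ hM₂ Rp hR Sg₁ Sg₂ hS1 hS2 hE1 hE2
  obtain ⟨E₂, hE₂, hne, hc, D, hD, O, -⟩ := h β ((le_max_left _ _).trans hβ) K₁ k₀ E₁ vF v1 v2 hE₁
    hF h1 h2 hlen hwin htight hp1 hp2 P B β' hB hE
  refine ⟨E₂, hE₂, hne, hc, ?_⟩
  have h3 := BOut.count2 O rfl (fun i _ => Nat.one_le_pow _ _ hb1)
    (fun i _ => Nat.one_le_pow _ _ hb1) (fun i _ => Nat.one_le_pow _ _ hb1) ht ht1 hB
    (hE₂.trans hE) hG hFl hPG hG₁ hG₂ hM₁ hM₂ (E₂.filter Rp) (fun e he hn => ?_) hS1 hS2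
    (fun e he => hE1 e (hE₂ he)) (fun e he => hE2 e (hE₂ he)) hD hCs hCx h9 h100
  · rw [prod_eq_pdeg (n := 2) (σ := 2 - v1 k₀) (v := v1) (by omega),
      prod_eq_pdeg (n := 2) (σ := 2 - v2 k₀) (v := v2) (by omega)] at h3
    exact h3
  · exact hR e (hE₂ he) fun h4 => hn (Finset.mem_filter.2 ⟨he, h4⟩)

end Vale.Agent.P054.T3.H533
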