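import Vale.Agent.P054.T3.H533.CountT

set_option autoImplicit false
set_option linter.all false

/-!
# P054 / T3, sections B + C: the count with thresholds which depend on the vertex

The class bounds `G₁ G₂ : ZZ n → ℕ` are functions of the vertex from which the class is counted; the
case distinction is a hypothesis.
-/

namespace Vale.Agent.P054.T3.H533

open MvPolynomial Finset Module
open Vale.Agent.P054.T2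
open Vale.Agent.P054.T2.SecC
open Vale.Agent.P054.T2.H163
open Vale.Agent.P054.T2.H686 (mu Qf Bf Crd zt dists E Ez Gm Ez_pairs Ez_ne Ez_Qf toX toY toX_zt
  toY_zt)
open Vale.Agent.P054.T2.H441 (hF rkY)
open Vale.Agent.P054.T2.H192 (Iso)
open Vale.Agent.P054.T2.H455 (Sep)
open Vale.Agent.P054.T2.H580 (Vw wh kap)
open Vale.Agent.P054.T2.H930 (germ Pt edgePt ZData)
open Vale.Agent.P054.T2.H269 (Cs)
open Vale.Agent.P054.T3.H637 (CntG)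
open Vale.Agent.P054.T3.H807 (leafB CntQ card_main2 card_split2 side_countQ exists_primesP leaf_natP
  pair_natP pow_N_le leafB_eq)

variable {n : ℕ} {A : Finset (ZZ n × ZZ n)} {W D σ v : ℕ}

/-- **section C, product of the degrees, bipartite**, abstract separation degree `4 * t`,
thresholds `G₁ G₂ : ZZ n → ℕ` -/
theorem secC_prodV {E0 E1 A : Finset (ZZ n × ZZ n)} {N c₀ c₁ c₂ σ₁ σ₂ W D v₁ v₂ : ℕ}
    (Z : ZData ℝ n E0 E1 A (wh (Crd n) (Pt n) W) N c₀ c₁ c₂ σ₁ σ₂)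
    (S₁ : Side n A W D σ₁ v₂) (S₂ : Side n (swp A) W D σ₂ v₁)
    (hK1 : ∀ e ∈ A, ∀ F : MvPolynomial (ZI n) ℝ, rename (fun x => Sum.inr (Sum.inr x)) F ∈
      germ (edgePt e.1 e.2) Z.F ↔ F ∈ S₁.Pr e)
    (hK2 : ∀ e ∈ A, ∀ F : MvPolynomial (ZI n) ℝ, rename (fun x => Sum.inr (Sum.inl x)) F ∈
      germ (edgePt e.1 e.2) Z.F ↔ F ∈ S₂.Pr e.swap)
    (hhd : ∀ i, Z.h i ∈ Vw ℝ (wh (Crd n) (Pt n) W) (D * W))
    (hhd' : ∀ i, Z.h' i ∈ Vw ℝ (wh (Crd n) (Pt n) W) (D * W))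
    (hc₁ : c₁ + v₁ = 2 * (n + 1)) (hc₂ : c₂ + v₂ = 2 * (n + 1))
    {τF : Fin c₀ → ℕ} (hτF1 : ∀ i, 1 ≤ τF i) (hτF : ∀ i, (Z.f i).totalDegree ≤ τF i)
    {τ₁ : ZZ n → Fin (n - σ₁) → ℕ} (hτ₁1 : ∀ s i, 1 ≤ τ₁ s i)
    {τ₂ : ZZ n → Fin (n - σ₂) → ℕ} (hτ₂1 : ∀ s i, 1 ≤ τ₂ s i)
    {t : ℕ} {Sg₁ Sg₂ : Finset (ZZ n)}
    (hs1 : Sep (fun s : ZZ n => pt s) (4 * t) Sg₁) (hs2 : Sep (fun s : ZZ n => pt s) (4 * t) Sg₂)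
    (hE1 : ∀ e ∈ A, e.1 ∈ Sg₁) (hE2 : ∀ e ∈ A, e.2 ∈ Sg₂)
    (hτ₁ : ∀ s ∈ Sg₁, ∀ i, (S₁.f s i).totalDegree ≤ τ₁ s i)
    (hτ₂ : ∀ s ∈ Sg₂, ∀ i, (S₂.f s i).totalDegree ≤ τ₂ s i)
    {N₁ N₂ κ₁ κ₂ : ℕ} {G₁ G₂ : ZZ n → ℕ} {q₁ q₂ : Prop} (hκ₁ : q₁ → (N₁ + 1) ^ σ₁ ≤ κ₁)
    (hκ₂ : q₂ → (N₂ + 1) ^ σ₂ ≤ κ₂) (R : Finset (ZZ n × ZZ n))
    (hcase : ∀ e ∈ A, e ∈ R ∨ CntQ S₁ q₁ N₁ (G₁ e.1) e ∨ CntQ S₂ q₂ N₂ (G₂ e.2) e.swap ∨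
      BB S₁ S₂ e) :
    A.card ≤ R.card +
      ((∑ s ∈ Sg₁, Cs n * D ^ (2 * (n + 1)) * (∏ i, τ₁ s i) * (κ₁ + G₁ s)) +
      (∑ s ∈ Sg₂, Cs n * D ^ (2 * (n + 1)) * (∏ i, τ₂ s i) * (κ₂ + G₂ s)) +
      (H819.Cx n * D ^ (4 * (n + 1)) * ∏ i, τF i) *
        ((2 * (4 * t + 1) ^ σ₁) * (2 * (4 * t + 1) ^ σ₂))) := by
  classical
  obtain ⟨X, hX1, hX2⟩ := exists_primesP Z S₁.hW S₁.hD hτF1 hτF hhd hhd' hc₁ hc₂
  refine card_main2 S₁ S₂ Sg₁ Sg₂ hE1 hE2 (H82.Qe Z) ?_ ?_ R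
    (fun e => CntQ S₁ q₁ N₁ (G₁ e.1) e) (fun e => CntQ S₂ q₂ N₂ (G₂ e.1) e) hcase ?_ ?_ ?_ ?_ ?_
  · intro e he e' he' h
    unfold H82.Qe at h
    ext F
    rw [← hK1 e he F, ← hK1 e' he' F, h]
  · intro e he e' he' h
    unfold H82.Qe at h
    ext F
    rw [← hK2 e he F, ← hK2 e' he' F, h]
  · intro s hs C hC hCp
    refine side_countQ S₁ s (hτ₁1 s) (hτ₁ s hs) q₁ N₁ (G₁ s) κ₁ hκ₁ C hC fun e he => ?_
    obtain ⟨h1, h2⟩ := hCp e he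
    rw [h1] at h2
    exact ⟨h1, h2⟩
  · intro s hs C hC hCp
    refine side_countQ S₂ s (hτ₂1 s) (hτ₂ s hs) q₂ N₂ (G₂ s) κ₂ hκ₂ C hC fun e he => ?_
    obtain ⟨h1, h2⟩ := hCp e he
    rw [h1] at h2
    exact ⟨h1, h2⟩
  · intro _ _
    refine le_trans (Finset.card_le_card ?_) hX2
    intro q hq
    obtain ⟨e, he, rfl⟩ := Finset.mem_image.1 hq
    exact hX1 e he
  · intro _ hv e he Y hY hbad
    exact card_bad_T S₁ hv he Y (hs1.subset hY) hbad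
  · intro hv _ e he Y hY hbad
    exact card_bad_T S₂ hv (mem_swp.2 (by simpa using he)) Y (hs2.subset hY) hbad

private theorem keyV {n D b a₁ : ℕ} (hb1 : 1 ≤ b) (hD : D ≤ b ^ a₁) (hCs : Cs n ≤ b)
    (h9 : 9 ^ n ≤ b) (pd κ G : ℕ) : Cs n * D ^ (2 * (n + 1)) * pd * (9 ^ n * κ + G) ≤
      b ^ (a₁ * (4 * (n + 1)) + 2) * (pd * (κ + G)) := by
  have e1 : b ^ (a₁ * (2 * (n + 1)) + 1) * b ≤ b ^ (a₁ * (4 * (n + 1)) + 2) := by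
    rw [← pow_succ]
    exact Nat.pow_le_pow_right hb1 (by nlinarith)
  refine (leaf_natP (σ := 0) (t := 0) hD hCs hb1).trans ?_
  have h2 : 9 ^ n * κ + G ≤ b * (κ + G) := by
    have h4 : 9 ^ n * κ ≤ b * κ := Nat.mul_le_mul_right _ h9
    have h5 : G ≤ b * G := Nat.le_mul_of_pos_left _ (by omega)
    calc 9 ^ n * κ + G ≤ b * κ + b * G := Nat.add_le_add h4 h5
      _ = _ := by ring
  calc b ^ (a₁ * (2 * (n + 1)) + 1) * (pd * (9 ^ n * κ + G)) ≤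
      b ^ (a₁ * (2 * (n + 1)) + 1) * (pd * (b * (κ + G))) := by gcongr
    _ = b ^ (a₁ * (2 * (n + 1)) + 1) * b * (pd * (κ + G)) := by ring
    _ ≤ _ := Nat.mul_le_mul_right _ e1

/-- the sum over the leaves of one side, normalised -/
private theorem sumV {n D b a₁ : ℕ} (hb1 : 1 ≤ b) (hD : D ≤ b ^ a₁) (hCs : Cs n ≤ b)
    (h9 : 9 ^ n ≤ b) (Sg : Finset (ZZ n)) (pr : ZZ n → ℕ) {pd κ : ℕ} (hpd : ∀ s ∈ Sg, pr s ≤ pd)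
    (G : ZZ n → ℕ) : ∑ s ∈ Sg, Cs n * D ^ (2 * (n + 1)) * pr s * (9 ^ n * κ + G s) ≤
      b ^ (a₁ * (4 * (n + 1)) + 2) * (pd * ∑ s ∈ Sg, (κ + G s)) := by
  rw [Finset.mul_sum, Finset.mul_sum]
  refine Finset.sum_le_sum fun s hs => ?_
  exact (keyV hb1 hD hCs h9 _ _ _).trans (Nat.mul_le_mul_left _ (Nat.mul_le_mul_right _ (hpd s hs)))

theorem leafB_fun (n σ t Gf : ℕ) (G : ZZ n → ℕ) (Sg : Finset (ZZ n)) :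
    ∑ s ∈ Sg, ((if σ < n then t ^ σ else 0) + (if σ < n then G s else Gf)) =
      ∑ s ∈ Sg, leafB n σ t (G s) Gf := by
  refine Finset.sum_congr rfl fun s _ => ?_
  exact leafB_eq n σ t (G s) Gf

/-- **section C, normalised**, thresholds which depend on the vertex -/
theorem secC_V {E0 E1 A : Finset (ZZ n × ZZ n)} {N c₀ c₁ c₂ σ₁ σ₂ W D v₁ v₂ : ℕ}
    (Z : ZData ℝ n E0 E1 A (wh (Crd n) (Pt n) W) N c₀ c₁ c₂ σ₁ σ₂)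
    (S₁ : Side n A W D σ₁ v₂) (S₂ : Side n (swp A) W D σ₂ v₁)
    (hK1 : ∀ e ∈ A, ∀ F : MvPolynomial (ZI n) ℝ, rename (fun x => Sum.inr (Sum.inr x)) F ∈
      germ (edgePt e.1 e.2) Z.F ↔ F ∈ S₁.Pr e)
    (hK2 : ∀ e ∈ A, ∀ F : MvPolynomial (ZI n) ℝ, rename (fun x => Sum.inr (Sum.inl x)) F ∈
      germ (edgePt e.1 e.2) Z.F ↔ F ∈ S₂.Pr e.swap)
    (hhd : ∀ i, Z.h i ∈ Vw ℝ (wh (Crd n) (Pt n) W) (D * W))
    (hhd' : ∀ i, Z.h' i ∈ Vw ℝ (wh (Crd n) (Pt n) W) (D * W))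
    (hc₁ : c₁ + v₁ = 2 * (n + 1)) (hc₂ : c₂ + v₂ = 2 * (n + 1))
    {τF : Fin c₀ → ℕ} (hτF1 : ∀ i, 1 ≤ τF i) (hτF : ∀ i, (Z.f i).totalDegree ≤ τF i)
    {τ₁ : ZZ n → Fin (n - σ₁) → ℕ} (hτ₁1 : ∀ s i, 1 ≤ τ₁ s i)
    {τ₂ : ZZ n → Fin (n - σ₂) → ℕ} (hτ₂1 : ∀ s i, 1 ≤ τ₂ s i)
    {pF pd₁ pd₂ : ℕ} (hpF : ∏ i, τF i ≤ pF)
    {t : ℕ} (ht1 : 1 ≤ t) {Sg₁ Sg₂ : Finset (ZZ n)}
    (hs1 : Sep (fun s : ZZ n => pt s) (4 * t) Sg₁) (hs2 : Sep (fun s : ZZ n => pt s) (4 * t) Sg₂)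
    (hE1 : ∀ e ∈ A, e.1 ∈ Sg₁) (hE2 : ∀ e ∈ A, e.2 ∈ Sg₂)
    (hτ₁ : ∀ s ∈ Sg₁, ∀ i, (S₁.f s i).totalDegree ≤ τ₁ s i)
    (hτ₂ : ∀ s ∈ Sg₂, ∀ i, (S₂.f s i).totalDegree ≤ τ₂ s i)
    (hpd₁ : ∀ s ∈ Sg₁, ∏ i, τ₁ s i ≤ pd₁) (hpd₂ : ∀ s ∈ Sg₂, ∏ i, τ₂ s i ≤ pd₂)
    {Gf b a₁ : ℕ} {G₁ G₂ : ZZ n → ℕ} (R : Finset (ZZ n × ZZ n))
    (hcase : ∀ e ∈ A, e ∈ R ∨ CntG S₁ (8 * t) (G₁ e.1) Gf e ∨
      CntG S₂ (8 * t) (G₂ e.2) Gf e.swap ∨ (BB S₁ S₂ e ∧ σ₁ < n ∧ σ₂ < n))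
    (hD : D ≤ b ^ a₁) (hCs : Cs n ≤ b) (hCx : H819.Cx n ≤ b) (h9 : 9 ^ n ≤ b)
    (h100 : 4 * 25 ^ n ≤ b) :
    A.card ≤ R.card + b ^ (a₁ * (4 * (n + 1)) + 2) *
      (pd₁ * (∑ s ∈ Sg₁, leafB n σ₁ t (G₁ s) Gf) + pd₂ * (∑ s ∈ Sg₂, leafB n σ₂ t (G₂ s) Gf) +
        termF n σ₁ σ₂ t pF) := by
  classical
  have hb1 : 1 ≤ b := by
    have h3 : 1 ≤ 9 ^ n := Nat.one_le_pow _ _ (by norm_num)
    omega
  have hN : 8 * t + 1 ≤ 9 * t := by omega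
  have hs1' := sumV hb1 hD hCs h9 Sg₁ (fun s => ∏ i, τ₁ s i) (κ := if σ₁ < n then t ^ σ₁ else 0)
    hpd₁ (fun s => if σ₁ < n then G₁ s else Gf)
  have hs2' := sumV hb1 hD hCs h9 Sg₂ (fun s => ∏ i, τ₂ s i) (κ := if σ₂ < n then t ^ σ₂ else 0)
    hpd₂ (fun s => if σ₂ < n then G₂ s else Gf)
  rw [leafB_fun] at hs1' hs2'
  by_cases hσ : σ₁ < n ∧ σ₂ < n
  · unfold termF
    rw [if_pos hσ]
    have hmain := secC_prodV Z S₁ S₂ hK1 hK2 hhd hhd' hc₁ hc₂ hτF1 hτF hτ₁1 hτ₂1 hs1 hs2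
      hE1 hE2 hτ₁ hτ₂ (N₁ := 8 * t) (N₂ := 8 * t) (q₁ := σ₁ < n) (q₂ := σ₂ < n)
      (G₁ := fun s => if σ₁ < n then G₁ s else Gf) (G₂ := fun s => if σ₂ < n then G₂ s else Gf)
      (κ₁ := 9 ^ n * (if σ₁ < n then t ^ σ₁ else 0)) (κ₂ := 9 ^ n * (if σ₂ < n then t ^ σ₂ else 0))
      (fun h => by rw [if_pos h]; exact pow_N_le S₁.hσ hN)
      (fun h => by rw [if_pos h]; exact pow_N_le S₂.hσ hN) R
      (fun e he => by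
        rcases hcase e he with h | h | h | h
        · exact Or.inl h
        · exact Or.inr (Or.inl (CntQ.of_cntG h))
        · exact Or.inr (Or.inr (Or.inl (CntQ.of_cntG h)))
        · exact Or.inr (Or.inr (Or.inr h.1)))
    have h3 : (H819.Cx n * D ^ (4 * (n + 1)) * ∏ i, τF i) *
        ((2 * (4 * t + 1) ^ σ₁) * (2 * (4 * t + 1) ^ σ₂)) ≤
        b ^ (a₁ * (4 * (n + 1)) + 2) * (pF * t ^ (σ₁ + σ₂)) := by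
      refine (pair_natP S₁.hσ S₂.hσ ht1 hD hCx h100).trans ?_
      exact Nat.mul_le_mul_left _ (Nat.mul_le_mul_right _ hpF)
    refine (hmain.trans (Nat.add_le_add_left (Nat.add_le_add (Nat.add_le_add hs1' hs2') h3)
      _)).trans (le_of_eq ?_)
    ring
  · unfold termF
    rw [if_neg hσ, Nat.add_zero]
    have hmain := card_split2 A R Sg₁ Sg₂ hE1 hE2
      (fun e => CntQ S₁ (σ₁ < n) (8 * t) (if σ₁ < n then G₁ e.1 else Gf) e)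
      (fun e => CntQ S₂ (σ₂ < n) (8 * t) (if σ₂ < n then G₂ e.2 else Gf) e.swap) (fun _ => False)
      (fun e he => by
        rcases hcase e he with h | h | h | h
        · exact Or.inl h
        · exact Or.inr (Or.inl (CntQ.of_cntG h))
        · exact Or.inr (Or.inr (Or.inl (CntQ.of_cntG h)))
        · exact absurd h.2 hσ)
      (Y₁ := fun s => Cs n * D ^ (2 * (n + 1)) * (∏ i, τ₁ s i) *
        (9 ^ n * (if σ₁ < n then t ^ σ₁ else 0) + (if σ₁ < n then G₁ s else Gf)))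
      (Y₂ := fun s => Cs n * D ^ (2 * (n + 1)) * (∏ i, τ₂ s i) *
        (9 ^ n * (if σ₂ < n then t ^ σ₂ else 0) + (if σ₂ < n then G₂ s else Gf)))
      (Y₃ := 0) ?_ ?_ ?_
    · refine (hmain.trans (Nat.add_le_add_left (Nat.add_le_add (Nat.add_le_add hs1' hs2')
        le_rfl) _)).trans (le_of_eq ?_)
      ring
    · intro s hs C hC hCp
      refine side_countQ S₁ s (hτ₁1 s) (hτ₁ s hs) (σ₁ < n) (8 * t) _ _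
        (fun h => by rw [if_pos h]; exact pow_N_le S₁.hσ hN) C hC fun e he => ?_
      obtain ⟨h1, h2⟩ := hCp e he
      rw [h1] at h2
      exact ⟨h1, h2⟩
    · intro s hs C hC hCp
      have h1 := side_countQ S₂ s (hτ₂1 s) (hτ₂ s hs) (σ₂ < n) (8 * t)
        (if σ₂ < n then G₂ s else Gf) (9 ^ n * (if σ₂ < n then t ^ σ₂ else 0))
        (fun h => by rw [if_pos h]; exact pow_N_le S₂.hσ hN) (swp C)
        (fun e he => mem_swp.2 (hC (mem_swp.1 he))) (fun e he => by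
          obtain ⟨h2, h3⟩ := hCp _ (mem_swp.1 he)
          rw [h2] at h3
          exact ⟨h2, by simpa using h3⟩)
      have h3 : (swp C).card = C.card := Finset.card_map _
      rwa [h3] at h1
    · intro C hC hCp
      rw [Nat.le_zero, Finset.card_eq_zero, Finset.eq_empty_iff_forall_notMem]
      exact fun e he => hCp e he

/-! ## the count over `BOut` -/

section bout

open Vale.Agent.P054.T3.H182 (F5 BData BOut CB qB secB)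

variable {c₀ σ₁ σ₂ : ℕ} {E' : Finset (ZZ n × ZZ n)} {P : Finset (E n)}
  {B : E n ≃ₗᵢ[ℝ] E n} {dF d1 d2 : ℕ → ℕ} (O : BOut n W D c₀ σ₁ σ₂ E' P B dF d1 d2)

include O

/-- **the count of `BOut`**, thresholds which depend on the vertex, the case distinction as a
hypothesis -/
theorem BOut.countV (hdF1 : ∀ i < c₀, 1 ≤ dF i) (hd11 : ∀ i < n - σ₁, 1 ≤ d1 i)
    (hd21 : ∀ i < n - σ₂, 1 ≤ d2 i) {t : ℕ} (ht1 : 1 ≤ t) {Gf b a₁ : ℕ} {G₁ G₂ : ZZ n → ℕ}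
    (R : Finset (ZZ n × ZZ n))
    (hcase : ∀ e ∈ O.A, e ∈ R ∨ CntG O.S₁ (8 * t) (G₁ e.1) Gf e ∨
      CntG O.S₂ (8 * t) (G₂ e.2) Gf e.swap ∨ (BB O.S₁ O.S₂ e ∧ σ₁ < n ∧ σ₂ < n))
    {Sg₁ Sg₂ : Finset (ZZ n)}
    (hs1 : Sep (fun s : ZZ n => pt s) (4 * t) Sg₁) (hs2 : Sep (fun s : ZZ n => pt s) (4 * t) Sg₂)
    (hE1 : ∀ e ∈ E', e.1 ∈ Sg₁) (hE2 : ∀ e ∈ E', e.2 ∈ Sg₂)
    (hD : D ≤ b ^ a₁) (hCs : Cs n ≤ b) (hCx : H819.Cx n ≤ b) (h9 : 9 ^ n ≤ b)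
    (h100 : 4 * 25 ^ n ≤ b) :
    E'.card ≤ 2 * (R.card + b ^ (a₁ * (4 * (n + 1)) + 2) *
      ((∏ i : Fin (n - σ₁), d1 i) * (∑ s ∈ Sg₁, leafB n σ₁ t (G₁ s) Gf) +
        (∏ i : Fin (n - σ₂), d2 i) * (∑ s ∈ Sg₂, leafB n σ₂ t (G₂ s) Gf) +
        termF n σ₁ σ₂ t (∏ i : Fin c₀, dF i))) :=
  O.card.trans (Nat.mul_le_mul_left _ (secC_V O.Z O.S₁ O.S₂ O.hK1 O.hK2 O.hhd O.hhd' O.hc₁
    O.hc₂ (τF := fun i => dF i) (fun i => hdF1 i i.2) O.hfd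
    (τ₁ := fun _ i => d1 i) (fun _ i => hd11 i i.2)
    (τ₂ := fun _ i => d2 i) (fun _ i => hd21 i i.2) le_rfl ht1 hs1 hs2
    (fun e he => hE1 e (O.sub he)) (fun e he => hE2 e (O.sub he))
    (fun s _ i => O.hd1 s i) (fun s _ i => O.hd2 s i) (fun _ _ => le_rfl) (fun _ _ => le_rfl)
    R hcase hD hCs hCx h9 h100))

end bout

end Vale.Agent.P054.T3.H533
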