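import Vale.Agent.P054.T3.H533.Count
import Vale.Agent.P054.T3.H637.CaseN2
import Vale.Agent.P054.T2.H83.Iso

set_option autoImplicit false
set_option linter.all false

/-!
# P054 / T3, sections B + C: the count, with `bad × bad` only for `σ₁, σ₂ < n`

If `σ₁ = n` or `σ₂ = n`, the class of an edge of case (N) lies in an isotropic flat, so it has at
most `|P|` points; the third term of the count is absent.
-/

namespace Vale.Agent.P054.T3.H533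

open MvPolynomial Finset Module
open Vale.Agent.P054.T2
open Vale.Agent.P054.T2.SecC
open Vale.Agent.P054.T2.H163
open Vale.Agent.P054.T2.H686 (mu Qf Bf Crd zt dists E Ez Ez_pairs)
open Vale.Agent.P054.T2.H192 (Iso)
open Vale.Agent.P054.T2.H455 (Sep)
open Vale.Agent.P054.T2.H580 (Vw wh)
open Vale.Agent.P054.T2.H930 (germ Pt edgePt ZData)
open Vale.Agent.P054.T2.H269 (Cs)
open Vale.Agent.P054.T3.H637 (IsoE EdgeX PSEdge CntG FlatQ edgeX_or_ps hcase_one cnt_A'x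
  card_cls_of_flatQ)
open Vale.Agent.P054.T3.H807 (leafB secC_G CntQ card_split2 side_countQ pow_N_le leaf_natP leafB_eq)
open Vale.Agent.P054.T3.H854 (IsoBL)

variable {n : ℕ} {A : Finset (ZZ n × ZZ n)} {W D σ v : ℕ}

/-- **the case theorem** for one edge, with more information in the case `bad × bad` -/
theorem hcase_oneN {σ₁ σ₂ v₁ v₂ : ℕ} (S₁ : Side n A W D σ₁ v₂) (S₂ : Side n (swp A) W D σ₂ v₁)
    {N G₁ G₂ : ℕ} (hste : ∀ e ∈ A, Ste S₁ e)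
    (hsep₁ : ∀ e ∈ A, Sep (fun e' : ZZ n × ZZ n => pt e'.2) N (S₁.cls e))
    (hsep₂ : ∀ e ∈ swp A, Sep (fun e' : ZZ n × ZZ n => pt e'.2) N (S₂.cls e))
    {e : ZZ n × ZZ n} (he : e ∈ A) (hEe : EdgeX S₁ S₂ G₁ G₂ e) :
    (S₁.Cnt (2 * N) G₁ e ∧ finrank ℝ (S₁.V e) ≤ n + 1) ∨
      (S₂.Cnt (2 * N) G₂ e.swap ∧ finrank ℝ (S₂.V e.swap) ≤ n + 1) ∨
      (BB S₁ S₂ e ∧ Iso (S₁.V e) ∧ Iso (S₂.V e.swap)) := by
  have he2 : e.swap ∈ swp A := mem_swp.2 (by rwa [Prod.swap_swap])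
  have hs1 := hsep₁ e he
  have hs2 := hsep₂ e.swap he2
  have h2N : N ≤ 2 * N := by omega
  have hiso1' : Iso (S₁.V e) → ∀ b ∈ S₁.V e, Bf (e.1 - e.2) b = 0 := fun h => S₁.iso_perp he h
  have hneg : ∀ b, Bf (e.1 - e.2) b = - Bf (e.swap.1 - e.swap.2) b := by
    intro b
    rw [sub_swap]
    unfold Bf
    rw [← Finset.sum_neg_distrib]
    refine Finset.sum_congr rfl fun i _ => ?_
    simp only [Prod.fst_neg, Prod.snd_neg, Pi.neg_apply]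
    ring
  have hiso2' : Iso (S₂.V e.swap) → ∀ b ∈ S₂.V e.swap, Bf (e.1 - e.2) b = 0 := by
    intro h b hb
    rw [hneg, S₂.iso_perp he2 h b hb, neg_zero]
  rcases H192.tree (k := ℝ) two_ne_zero (S₂.V e.swap) (S₁.V e) (e.1 - e.2) hEe.hperp hiso2' hiso1'
    hEe.hw₁ hEe.hw₂ with ⟨h1, h2, h3⟩ | ⟨h1, h2, h3, h4⟩ | ⟨h1, h2, h3⟩ | ⟨h1, h2, h3, h4⟩ |
    ⟨h1, h2, h3, h4, h5, h6, h7, h8⟩ | ⟨h1, h2, h3, h4⟩
  · -- (A0)
    exact Or.inl ⟨cnt_mono_N S₁ h2N (cnt_A0 S₁ he hEe.side₁ h1 h2 h3 hs1 G₁),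
      h2.trans (Nat.le_succ n)⟩
  · -- (A')
    rcases cnt_A'x S₁ he hEe.side₁ h1 h2 h3 (hEe.vertA₁ h1 h2 h3) hs1 with h | ⟨h5, h6⟩
    · exact Or.inl ⟨cnt_mono_N S₁ h2N h, (le_of_eq h2).trans (Nat.le_succ n)⟩
    · refine Or.inr (Or.inl ⟨cnt_mono_N S₂ h2N (cnt_A0 S₂ he2 hEe.side₂ ?_ h6.le (Or.inl h6)
        hs2 G₂), h6.le.trans (Nat.le_succ n)⟩)
      rwa [mem_swap_iff]
  · -- (B0)
    refine Or.inr (Or.inl ⟨cnt_mono_N S₂ h2N (cnt_A0 S₂ he2 hEe.side₂ ?_ h2 ?_ hs2 G₂),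
      h2.trans (Nat.le_succ n)⟩)
    · rwa [mem_swap_iff]
    · rwa [span_swap]
  · -- (B')
    have h1' : e.swap.1 - e.swap.2 ∉ S₂.V e.swap := by rwa [mem_swap_iff]
    have h3' : Iso (S₂.V e.swap ⊔ Submodule.span ℝ {e.swap.1 - e.swap.2}) := by rwa [span_swap]
    rcases cnt_A'x S₂ he2 hEe.side₂ h1' h2 h3' (by
      rw [span_swap]
      exact hEe.vertA₂ h1 h2 h3) hs2 with h | ⟨h5, h6⟩
    · exact Or.inr (Or.inl ⟨cnt_mono_N S₂ h2N h, (le_of_eq h2).trans (Nat.le_succ n)⟩)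
    · exact Or.inl ⟨cnt_mono_N S₁ h2N (cnt_A0 S₁ he hEe.side₁ h5 h6.le (Or.inl h6) hs1 G₁),
        h6.le.trans (Nat.le_succ n)⟩
  · -- (C)
    have hz : ZInj (S₁.V e) := hEe.side₁.geni (le_of_eq h4) (Or.inr h8)
    exact Or.inl ⟨cnt_ste S₁ he h2 h4 hz hste hs1 G₁, h4.le⟩
  · -- (N)
    have h4' : finrank ℝ (S₂.V e.swap) ≤ n + 1 := h4
    have h2' := h2
    have h3' := h3
    rw [h2] at h1 h3 h4
    rcases hEe.vertN h1 h2.symm h3 with ⟨hv1, hv2⟩ | h5 | h5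
    · have hg : ∀ {A' : Finset (ZZ n × ZZ n)} {σ' v' : ℕ} (S : Side n A' W D σ' v')
          (e' : ZZ n × ZZ n), EdgeS S e' → Iso (S.V e') → finrank ℝ (S.V e') ≤ n + 1 →
          ZInj (S.V e') ∨ WData v' (S.Pr e') e'.1 (S.V e') := by
        intro A' σ' v' S e' hS hI hd
        rcases Nat.lt_or_ge (finrank ℝ (S.V e')) (n + 1) with hlt | hge
        · exact Or.inl (hS.geni hd (Or.inl hlt))
        · exact hS.genw hI (le_antisymm hd hge)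
      rcases cnt_N S₁ he hv2 h1 (hg S₁ e hEe.side₁ h3 h4) hs1 G₁ with h6 | h6
      · exact Or.inl ⟨cnt_mono_N S₁ h2N h6, h4⟩
      · have h1' : e.swap.1 - e.swap.2 ∈ S₂.V e.swap := by rw [mem_swap_iff, h2]; exact h1
        rcases cnt_N S₂ he2 hv1 h1' (hg S₂ e.swap hEe.side₂ (by rw [h2]; exact h3)
          (by rw [h2]; exact h4)) hs2 G₂ with h7 | h7
        · exact Or.inr (Or.inl ⟨cnt_mono_N S₂ h2N h7, h4'⟩)
        · exact Or.inr (Or.inr ⟨⟨hv1, hv2, h6, h7⟩, h3, h3'⟩)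
    · exact Or.inl ⟨Or.inl h5, h4⟩
    · exact Or.inr (Or.inl ⟨Or.inl h5, h4'⟩)

/-- a class in an isotropic flat: at most `|P|` points -/
theorem card_cls_of_iso (S : Side n A W D σ v) {P : Finset (E n)} (B : E n ≃ₗᵢ[ℝ] E n)
    (hA : ∀ e ∈ A, ∃ r ∈ P ×ˢ P, e.2 = zt B r) {e : ZZ n × ZZ n}
    (hI : Iso (S.V e)) : (S.cls e).card ≤ P.card := by
  classical
  set cl : Finset (E n × E n) := (P ×ˢ P).filter fun r => (e.1, zt B r) ∈ S.cls e with hcl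
  have h1 : S.cls e ⊆ cl.image fun r => (e.1, zt B r) := by
    intro e' he'
    have h2 := S.mem_cls.1 he'
    obtain ⟨r, hr, hre⟩ := hA e' h2.1
    have h3 : e' = (e.1, zt B r) := Prod.ext h2.2.1 hre
    refine Finset.mem_image.2 ⟨r, ?_, h3.symm⟩
    rw [hcl, Finset.mem_filter]
    exact ⟨hr, h3 ▸ he'⟩
  refine ((Finset.card_le_card h1).trans Finset.card_image_le).trans ?_
  refine H83.card_isotropic_le_card P B (S.V e) hI cl (Finset.filter_subset _ _) ?_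
  intro s hs s' hs'
  rw [hcl, Finset.mem_filter] at hs hs'
  have h3 := (S.V e).sub_mem (S.sub_mem_V hs.2) (S.sub_mem_V hs'.2)
  rwa [sub_sub_sub_cancel_right] at h3

/-- **the case theorem for the point set**, with remaining edges `R`; `bad × bad` only if
`σ₁, σ₂ < n` -/
theorem hcase_Z {σ₁ σ₂ v₁ v₂ : ℕ} (S₁ : Side n A W D σ₁ v₂) (S₂ : Side n (swp A) W D σ₂ v₁)
    {G₁ G₂ : ℕ} (R : Finset (ZZ n × ZZ n)) (hste : ∀ e ∈ A, Ste S₁ e)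
    (hE : ∀ e ∈ A, e ∈ R ∨ EdgeX S₁ S₂ G₁ G₂ e)
    {P : Finset (E n)} {t : ℕ} {Gf : ℕ} (ht : (dists P).card ≤ t) (hF : FlatQ n P Gf)
    (hPG : P.card ≤ Gf)
    (B : E n ≃ₗᵢ[ℝ] E n) (hA1 : ∀ e ∈ A, ∃ s ∈ P ×ˢ P, e.1 = zt B s)
    (hA2 : ∀ e ∈ A, ∃ r ∈ P ×ˢ P, e.2 = zt B r) :
    ∀ e ∈ A, e ∈ R ∨ CntG S₁ (8 * t) G₁ Gf e ∨ CntG S₂ (8 * t) G₂ Gf e.swap ∨
      (BB S₁ S₂ e ∧ σ₁ < n ∧ σ₂ < n) := by
  have hA1' : ∀ e ∈ swp A, ∃ r ∈ P ×ˢ P, e.2 = zt B r := by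
    intro e he
    exact hA1 e.swap (mem_swp.1 he)
  have hA2' : ∀ e ∈ swp A, ∃ r ∈ P ×ˢ P, e.1 = zt B r := by
    intro e he
    exact hA2 e.swap (mem_swp.1 he)
  intro e he
  rcases hE e he with h | hX
  · exact Or.inl h
  right
  have he2 : e.swap ∈ swp A := mem_swp.2 (by rwa [Prod.swap_swap])
  have h0 := hcase_oneN S₁ S₂ (N := 4 * t) hste (fun e _ => sep_cls S₁ ht B hA2 e)
    (fun e _ => sep_cls S₂ ht B hA1' e) he hX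
  have h8 : 2 * (4 * t) = 8 * t := by ring
  rw [h8] at h0
  rcases h0 with ⟨h1, h2⟩ | ⟨h1, h2⟩ | ⟨h, hI1, hI2⟩
  · left
    rcases lt_or_eq_of_le S₁.hσ with h | h
    · exact Or.inl ⟨h, h1⟩
    · exact Or.inr ⟨h, card_cls_of_flatQ S₁ hF B hA1 hA2 he h2⟩
  · right; left
    rcases lt_or_eq_of_le S₂.hσ with h | h
    · exact Or.inl ⟨h, h1⟩
    · exact Or.inr ⟨h, card_cls_of_flatQ S₂ hF B hA2' hA1' he2 h2⟩
  · rcases lt_or_eq_of_le S₁.hσ with h3 | h3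
    · rcases lt_or_eq_of_le S₂.hσ with h4 | h4
      · exact Or.inr (Or.inr ⟨h, h3, h4⟩)
      · exact Or.inr (Or.inl (Or.inr ⟨h4, (card_cls_of_iso S₂ B hA1' hI2).trans hPG⟩))
    · exact Or.inl (Or.inr ⟨h3, (card_cls_of_iso S₁ B hA2 hI1).trans hPG⟩)

/-- **section C without `bad × bad`** -/
theorem secC_noBB {σ₁ σ₂ v₁ v₂ : ℕ} (S₁ : Side n A W D σ₁ v₂) (S₂ : Side n (swp A) W D σ₂ v₁)
    {τ₁ : ZZ n → Fin (n - σ₁) → ℕ} (hτ₁1 : ∀ s i, 1 ≤ τ₁ s i)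
    {τ₂ : ZZ n → Fin (n - σ₂) → ℕ} (hτ₂1 : ∀ s i, 1 ≤ τ₂ s i)
    {pd₁ pd₂ t : ℕ} (ht1 : 1 ≤ t)
    {Sg₁ Sg₂ : Finset (ZZ n)}
    (hE1 : ∀ e ∈ A, e.1 ∈ Sg₁) (hE2 : ∀ e ∈ A, e.2 ∈ Sg₂)
    (hτ₁ : ∀ s ∈ Sg₁, ∀ i, (S₁.f s i).totalDegree ≤ τ₁ s i)
    (hτ₂ : ∀ s ∈ Sg₂, ∀ i, (S₂.f s i).totalDegree ≤ τ₂ s i)
    (hpd₁ : ∀ s ∈ Sg₁, ∏ i, τ₁ s i ≤ pd₁) (hpd₂ : ∀ s ∈ Sg₂, ∏ i, τ₂ s i ≤ pd₂)
    {N₁ N₂ G₁ G₂ Gf₁ Gf₂ b a₁ : ℕ} (R : Finset (ZZ n × ZZ n))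
    (hcase : ∀ e ∈ A, e ∈ R ∨ CntG S₁ N₁ G₁ Gf₁ e ∨ CntG S₂ N₂ G₂ Gf₂ e.swap)
    (hN₁ : N₁ + 1 ≤ 9 * t) (hN₂ : N₂ + 1 ≤ 9 * t)
    (hD : D ≤ b ^ a₁) (hCs : Cs n ≤ b) (h9 : 9 ^ n ≤ b) :
    A.card ≤ R.card + b ^ (a₁ * (4 * (n + 1)) + 2) *
      (Sg₁.card * (pd₁ * leafB n σ₁ t G₁ Gf₁) + Sg₂.card * (pd₂ * leafB n σ₂ t G₂ Gf₂)) := by
  classical
  have hb1 : 1 ≤ b := by
    have h3 : 1 ≤ 9 ^ n := Nat.one_le_pow _ _ (by norm_num)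
    omega
  have e1 : b ^ (a₁ * (2 * (n + 1)) + 1) * b ≤ b ^ (a₁ * (4 * (n + 1)) + 2) := by
    rw [← pow_succ]
    exact Nat.pow_le_pow_right hb1 (by nlinarith)
  set bb := b ^ (a₁ * (4 * (n + 1)) + 2) with hbb
  have key : ∀ pd κ G : ℕ, Cs n * D ^ (2 * (n + 1)) * pd * (9 ^ n * κ + G) ≤
      bb * (pd * (κ + G)) := by
    intro pd κ G
    refine (leaf_natP (σ := 0) (t := 0) hD hCs hb1).trans ?_
    have h2 : 9 ^ n * κ + G ≤ b * (κ + G) := by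
      have h4 : 9 ^ n * κ ≤ b * κ := Nat.mul_le_mul_right _ h9
      have h5 : G ≤ b * G := Nat.le_mul_of_pos_left _ (by omega)
      calc 9 ^ n * κ + G ≤ b * κ + b * G := Nat.add_le_add h4 h5
        _ = _ := by ring
    calc b ^ (a₁ * (2 * (n + 1)) + 1) * (pd * (9 ^ n * κ + G)) ≤
        b ^ (a₁ * (2 * (n + 1)) + 1) * (pd * (b * (κ + G))) := by gcongr
      _ = b ^ (a₁ * (2 * (n + 1)) + 1) * b * (pd * (κ + G)) := by ring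
      _ ≤ _ := Nat.mul_le_mul_right _ e1
  have hmain := card_split2 A R Sg₁ Sg₂ hE1 hE2
    (fun e => CntQ S₁ (σ₁ < n) N₁ (if σ₁ < n then G₁ else Gf₁) e)
    (fun e => CntQ S₂ (σ₂ < n) N₂ (if σ₂ < n then G₂ else Gf₂) e.swap) (fun _ => False)
    (fun e he => by
      rcases hcase e he with h | h | h
      · exact Or.inl h
      · exact Or.inr (Or.inl (CntQ.of_cntG h))
      · exact Or.inr (Or.inr (Or.inl (CntQ.of_cntG h))))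
    (Y₁ := fun s => Cs n * D ^ (2 * (n + 1)) * (∏ i, τ₁ s i) *
      (9 ^ n * (if σ₁ < n then t ^ σ₁ else 0) + (if σ₁ < n then G₁ else Gf₁)))
    (Y₂ := fun s => Cs n * D ^ (2 * (n + 1)) * (∏ i, τ₂ s i) *
      (9 ^ n * (if σ₂ < n then t ^ σ₂ else 0) + (if σ₂ < n then G₂ else Gf₂)))
    (Y₃ := 0) ?_ ?_ ?_
  · have h1 : ∑ s ∈ Sg₁, Cs n * D ^ (2 * (n + 1)) * (∏ i, τ₁ s i) *
        (9 ^ n * (if σ₁ < n then t ^ σ₁ else 0) + (if σ₁ < n then G₁ else Gf₁)) ≤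
        Sg₁.card * (bb * (pd₁ * leafB n σ₁ t G₁ Gf₁)) := by
      refine (Finset.sum_le_card_nsmul _ _ _ fun s hs => ?_).trans (le_of_eq (by rw [smul_eq_mul]))
      refine (key _ _ _).trans (Nat.mul_le_mul_left _ ?_)
      rw [leafB_eq]
      exact Nat.mul_le_mul_right _ (hpd₁ s hs)
    have h2 : ∑ s ∈ Sg₂, Cs n * D ^ (2 * (n + 1)) * (∏ i, τ₂ s i) *
        (9 ^ n * (if σ₂ < n then t ^ σ₂ else 0) + (if σ₂ < n then G₂ else Gf₂)) ≤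
        Sg₂.card * (bb * (pd₂ * leafB n σ₂ t G₂ Gf₂)) := by
      refine (Finset.sum_le_card_nsmul _ _ _ fun s hs => ?_).trans (le_of_eq (by rw [smul_eq_mul]))
      refine (key _ _ _).trans (Nat.mul_le_mul_left _ ?_)
      rw [leafB_eq]
      exact Nat.mul_le_mul_right _ (hpd₂ s hs)
    calc A.card ≤ _ := hmain
      _ ≤ R.card + (Sg₁.card * (bb * (pd₁ * leafB n σ₁ t G₁ Gf₁)) +
          Sg₂.card * (bb * (pd₂ * leafB n σ₂ t G₂ Gf₂)) + 0) :=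
          Nat.add_le_add_left (Nat.add_le_add (Nat.add_le_add h1 h2) le_rfl) _
      _ = _ := by ring
  · intro s hs C hC hCp
    exact side_countQ S₁ s (hτ₁1 s) (hτ₁ s hs) (σ₁ < n) N₁ _ _
      (fun h => by rw [if_pos h]; exact pow_N_le S₁.hσ hN₁) C hC hCp
  · intro s hs C hC hCp
    have h1 := side_countQ S₂ s (hτ₂1 s) (hτ₂ s hs) (σ₂ < n) N₂ (if σ₂ < n then G₂ else Gf₂)
      (9 ^ n * (if σ₂ < n then t ^ σ₂ else 0))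
      (fun h => by rw [if_pos h]; exact pow_N_le S₂.hσ hN₂) (swp C)
      (fun e he => mem_swp.2 (hC (mem_swp.1 he))) (fun e he => by
        have h2 := hCp _ (mem_swp.1 he)
        exact ⟨h2.1, by simpa using h2.2⟩)
    have h3 : (swp C).card = C.card := Finset.card_map _
    rwa [h3] at h1
  · intro C hC hCp
    rw [Nat.le_zero, Finset.card_eq_zero, Finset.eq_empty_iff_forall_notMem]
    exact fun e he => hCp e he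

/-- the third term of the count -/
def termF (n σ₁ σ₂ t pF : ℕ) : ℕ := if σ₁ < n ∧ σ₂ < n then pF * t ^ (σ₁ + σ₂) else 0

/-- **[BC] the count**, general form; `bad × bad` only for `σ₁, σ₂ < n`. -/
theorem count_XZ {E0 E1 : Finset (ZZ n × ZZ n)} {N c₀ c₁ c₂ σ₁ σ₂ v₁ v₂ : ℕ}
    (Z : ZData ℝ n E0 E1 A (wh (Crd n) (Pt n) W) N c₀ c₁ c₂ σ₁ σ₂)
    (S₁ : Side n A W D σ₁ v₂) (S₂ : Side n (swp A) W D σ₂ v₁)
    (hK1 : ∀ e ∈ A, ∀ F : MvPolynomial (ZI n) ℝ, rename (fun x => Sum.inr (Sum.inr x)) F ∈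
      germ (edgePt e.1 e.2) Z.F ↔ F ∈ S₁.Pr e)
    (hK2 : ∀ e ∈ A, ∀ F : MvPolynomial (ZI n) ℝ, rename (fun x => Sum.inr (Sum.inl x)) F ∈
      germ (edgePt e.1 e.2) Z.F ↔ F ∈ S₂.Pr e.swap)
    (hhd : ∀ i, Z.h i ∈ Vw ℝ (wh (Crd n) (Pt n) W) (D * W))
    (hhd' : ∀ i, Z.h' i ∈ Vw ℝ (wh (Crd n) (Pt n) W) (D * W))
    (hc₁ : c₁ + v₁ = 2 * (n + 1)) (hc₂ : c₂ + v₂ = 2 * (n + 1))
    -- the degrees
    {dF d₁ d₂ : ℕ → ℕ} (hdF1 : ∀ i < c₀, 1 ≤ dF i) (hdF : ∀ i, (Z.f i).totalDegree ≤ dF i)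
    (hd₁1 : ∀ i < n - σ₁, 1 ≤ d₁ i) (hd₁ : ∀ s i, (S₁.f s i).totalDegree ≤ d₁ i)
    (hd₂1 : ∀ i < n - σ₂, 1 ≤ d₂ i) (hd₂ : ∀ s i, (S₂.f s i).totalDegree ≤ d₂ i)
    -- the point set
    {P : Finset (E n)} {B : E n ≃ₗᵢ[ℝ] E n} {t β' : ℕ} (ht : (dists P).card ≤ t) (ht1 : 1 ≤ t)
    (hA : A ⊆ Ez P B β') {G₁ G₂ Gf b a₁ : ℕ} (hF : FlatQ n P Gf) (hPG : P.card ≤ Gf)
    (R : Finset (ZZ n × ZZ n)) (hste : ∀ e ∈ A, Ste S₁ e)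
    (hE : ∀ e ∈ A, e ∈ R ∨ EdgeX S₁ S₂ G₁ G₂ e)
    {Sg₁ Sg₂ : Finset (ZZ n)} (hS1 : Sg₁ ⊆ H84.Sg P B) (hS2 : Sg₂ ⊆ H84.Sg P B)
    (hE1 : ∀ e ∈ A, e.1 ∈ Sg₁) (hE2 : ∀ e ∈ A, e.2 ∈ Sg₂)
    (hD : D ≤ b ^ a₁) (hCs : Cs n ≤ b) (hCx : H819.Cx n ≤ b) (h9 : 9 ^ n ≤ b)
    (h100 : 4 * 25 ^ n ≤ b) :
    A.card ≤ R.card + b ^ (a₁ * (4 * (n + 1)) + 2) *
      (Sg₁.card * ((∏ i : Fin (n - σ₁), d₁ i) * leafB n σ₁ t G₁ Gf) +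
        Sg₂.card * ((∏ i : Fin (n - σ₂), d₂ i) * leafB n σ₂ t G₂ Gf) +
        termF n σ₁ σ₂ t (∏ i : Fin c₀, dF i)) := by
  have hA1 : ∀ e ∈ A, ∃ s ∈ P ×ˢ P, e.1 = zt B s := by
    intro e he
    obtain ⟨s, hs, r, hr, rfl, -⟩ := Ez_pairs (hA he)
    exact ⟨s, hs, rfl⟩
  have hA2 : ∀ e ∈ A, ∃ r ∈ P ×ˢ P, e.2 = zt B r := by
    intro e he
    obtain ⟨s, hs, r, hr, rfl, -⟩ := Ez_pairs (hA he)
    exact ⟨r, hr, rfl⟩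
  have hcase := hcase_Z S₁ S₂ R hste hE ht hF hPG B hA1 hA2
  by_cases hσ : σ₁ < n ∧ σ₂ < n
  · unfold termF
    rw [if_pos hσ]
    exact secC_G Z S₁ S₂ hK1 hK2 hhd hhd' hc₁ hc₂ (τF := fun i => dF i) (fun i => hdF1 i i.2) hdF
      (τ₁ := fun _ i => d₁ i) (fun _ i => hd₁1 i i.2) (τ₂ := fun _ i => d₂ i)
      (fun _ i => hd₂1 i i.2) le_rfl P B ht ht1 hS1 hS2 hE1 hE2 (fun s _ i => hd₁ s i)
      (fun s _ i => hd₂ s i) (fun _ _ => le_rfl) (fun _ _ => le_rfl) R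
      (fun e he => (hcase e he).imp_right fun h => h.imp_right fun h => h.imp_right fun h => h.1)
      (by omega) (by omega) hD hCs hCx h9 h100
  · unfold termF
    rw [if_neg hσ, Nat.add_zero]
    refine secC_noBB S₁ S₂ (τ₁ := fun _ i => d₁ i) (fun _ i => hd₁1 i i.2)
      (τ₂ := fun _ i => d₂ i) (fun _ i => hd₂1 i i.2) ht1 hE1 hE2 (fun s _ i => hd₁ s i)
      (fun s _ i => hd₂ s i) (fun _ _ => le_rfl) (fun _ _ => le_rfl) (N₁ := 8 * t) (N₂ := 8 * t) R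
      (fun e he => ?_) (by omega) (by omega) hD hCs h9
    rcases hcase e he with h | h | h | h
    · exact Or.inl h
    · exact Or.inr (Or.inl h)
    · exact Or.inr (Or.inr h)
    · exact absurd h.2 hσ

end Vale.Agent.P054.T3.H533
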