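import Vale.Agent.P054.T3.H461.LS
import Vale.Agent.P054.T2.H580.Win

set_option autoImplicit false
set_option linter.unusedSectionVars false
set_option linter.unusedVariables false

/-!
# P054 / T3, seam A -> B: one family

`FamU` on a dense subset, equality of the coarse values with the fine values, the numbers
`(U)` and `(LO)` of one family at the base scale `W = b_f ^ k₀`.
-/

namespace Vale.Agent.P054.T3.H533

open Finset MvPolynomial Module
open Vale.Agent.P054.T2.H307 (gfr gfr_mono_set gr gr_mono gr_le fib mem_fib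
  fib_mono fib_subset self_mem_fib van van_mono mem_van pts mem_pts pts_mono pts_nonempty
  IsUnif)
open Vale.Agent.P054.T2.H580 (rkF IsFilt isFilt_total kap sum_kap_window)
open Vale.Agent.P054.T3.H461

variable {ι S σ K : Type*} [Field K] [Fintype σ] [DecidableEq σ]

/-- a family on a dense subset -/
theorem FamU.subset {x : ι → σ → K} {p : ι → S} {b β M M' K₀ : ℕ} {E E' : Finset ι} {v : ℕ → ℕ}
    (h : FamU x p b β M K₀ E v) (hE : E' ⊆ E) (hc : E.card ≤ β ^ M' * E'.card) :
    FamU x p b β (M + M') K₀ E' v := by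
  refine ⟨h.mono, fun i hi A hA => h.le i hi A (hA.trans hE), fun i hi A hA hAv => ?_⟩
  refine (h.small i hi A (hA.trans hE) hAv).trans ?_
  calc β ^ M * E.card ≤ β ^ M * (β ^ M' * E'.card) := Nat.mul_le_mul_left _ hc
    _ = _ := by rw [pow_add]; ring

/-- the value of a uniform set for a function which is a level of a family is the value of the
family, if the distance to the next drop is larger than `M` -/
theorem FamU.val_eq {κ : Type*} {c : κ → Finset ι → ι → ℕ} {J : Finset κ} {w : κ → ℕ}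
    {x : ι → σ → K} {p : ι → S} {b β M K₀ : ℕ} {E : Finset ι} {v : ℕ → ℕ}
    (h : FamU x p b β M K₀ E v) (hE : E.Nonempty) (hβ : 2 ≤ β) (hU : IsUnif c J β E w)
    {j : κ} (hj : j ∈ J) {i : ℕ} (hi : i ≤ K₀)
    (hc : ∀ e ∈ E, c j E e = gfr x p (restrictTotalDegree σ K) (b ^ i) E e)
    (hrem : M < rem K₀ v i) : w j = v i := by
  have hpos := hE.card_pos
  rcases Nat.lt_trichotomy (w j) (v i) with hlt | heq | hgt
  · exfalso
    have h1 := hU.small j hj E (Finset.Subset.refl _) fun e he => by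
      rw [hc e he]
      exact hlt.trans_le (h.le i hi E (Finset.Subset.refl _) e he)
    have h2 : 2 * E.card ≤ β * E.card := Nat.mul_le_mul_right _ hβ
    omega
  · exact heq
  · exfalso
    have h1 := h.small i hi E (Finset.Subset.refl _) fun e he => by
      rw [← hc e he]
      exact hgt.trans_le (hU.le j hj E (Finset.Subset.refl _) e he)
    have h2 : β ^ M < β ^ rem K₀ v i := Nat.pow_lt_pow_right (by omega) hrem
    have h3 := Nat.mul_lt_mul_of_pos_right h2 hpos
    omega

/-- (U) is an identity: the product of the degrees and `W ^ (N - v)` -/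
theorem prod_deg (N b k₀ : ℕ) (v : ℕ → ℕ) (hmono : ∀ k l : ℕ, k ≤ l → l ≤ k₀ → v k ≤ v l)
    (hv : v k₀ ≤ N) :
    (∏ j : Fin (v k₀), b ^ kap (k₀ + 1) v (j : ℕ)) * (b ^ k₀) ^ (N - v k₀) =
      b ^ (∑ l ∈ range k₀, (N - v l)) := by
  have h3 := sum_kap_window N (k₀ + 1) k₀ v (le_refl _)
    (fun k l hkl hl => hmono k l hkl (by omega))
    (by simpa using hv) (fun a h4 h5 => by simp only [Nat.add_sub_cancel] at h4; omega)
  simp only [Nat.add_sub_cancel] at h3
  rw [← h3, pow_add, ← pow_mul, Finset.prod_pow_eq_pow_sum, Finset.sum_range]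

/-- the base data of one family at the scale `W` -/
structure BaseFam (x : ι → σ → K) (p : ι → S) (W b q c R : ℕ) (d : ℕ → ℕ) (E : Finset ι) :
    Prop where
  sys : ∃ f : S → Fin c → MvPolynomial σ K,
    (∀ s, ∀ j : Fin c, f s j ∈ van x (fib p E s) (restrictTotalDegree σ K (d j))) ∧
    ∀ e ∈ E, LinearIndependent K (fun j => Vale.Agent.P054.T2.H930.grad (x e) (f (p e) j))
  d1 : ∀ j < c, 1 ≤ d j
  dW : ∀ j < c, d j ≤ W
  le : c ≤ Fintype.card σ
  up : (∏ j : Fin c, d j) * W ^ (Fintype.card σ - c) ≤ b * R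
  lo : ∀ B ⊆ E, E.card < q * B.card → ∃ e ∈ B,
    R ≤ b * rkF (restrictTotalDegree σ K) (pts x (fib p B (p e))) W

/-- **base data from the lossless section A** -/
theorem BaseFam.of_famU [CharZero K] [Infinite K] {x : ι → σ → K} {p : ι → S}
    {bf b β L M K₁ q : ℕ} {E : Finset ι} {v : ℕ → ℕ} (hbβ : bf = β ^ L) (hβ : 2 ≤ β)
    (hb : bmin (Fintype.card σ) ≤ bf) (h : FamU x p bf β M K₁ E v) (hE : E.Nonempty)
    {k₀ : ℕ} (hk₀ : k₀ ≤ K₁) (hq : q ≤ β)
    (hm : bf ^ (loA (Fintype.card σ) L + loC (Fintype.card σ) L M) ≤ b) :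
    BaseFam x p (bf ^ k₀) b q (v k₀) (bf ^ (∑ l ∈ range k₀, (Fintype.card σ - v l)))
      (fun j => bf ^ kap (k₀ + 1) v j) E := by
  have hbN := bmin_ge (Fintype.card σ)
  have hbf1 : 1 ≤ bf := by omega
  have hb1 : 1 ≤ b := le_trans (Nat.one_le_pow _ _ hbf1) hm
  have hmono : ∀ k l : ℕ, k ≤ l → l < k₀ + 1 → v k ≤ v l := fun k l hkl hl =>
    h.mono k l hkl (by omega)
  refine ⟨?_, ?_, ?_, h.le_card hE hk₀, ?_, ?_⟩
  · obtain ⟨f, hf, hind⟩ := h.sys hk₀
    exact ⟨f, hf, hind⟩
  · intro j _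
    exact Nat.one_le_pow _ _ hbf1
  · intro j hj
    refine Nat.pow_le_pow_right hbf1 ?_
    exact Vale.Agent.P054.T2.H580.kap_le_of_lt (k₀ + 1) v hmono j k₀ hj
  · have h1 := prod_deg (Fintype.card σ) bf k₀ v (fun k l hkl hl => hmono k l hkl (by omega))
      (h.le_card hE hk₀)
    rw [h1]
    exact Nat.le_mul_of_pos_left _ hb1
  · intro B hB hc
    have hBn : B.Nonempty := by
      rw [← Finset.card_pos]
      by_contra hcon
      have h0 : B.card = 0 := by omega
      rw [h0, mul_zero] at hc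
      omega
    have h1 := lo_all hbβ hβ hb h hE k₀ hk₀ 1 B hB hBn (by
      rw [pow_one]
      exact hc.le.trans (Nat.mul_le_mul_right _ hq))
    obtain ⟨e, he, h2⟩ := h1
    refine ⟨e, he, h2.trans (Nat.mul_le_mul_right _ ?_)⟩
    rw [mul_one]
    exact hm

end Vale.Agent.P054.T3.H533
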