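import Vale.Agent.P054.T3.H533.Seam0
import Vale.Agent.P054.T2.H84.HatWin
import Vale.Agent.P054.T2.H580.Inst

set_option autoImplicit false
set_option linter.unusedSectionVars false
set_option linter.unusedVariables false

/-!
# P054 / T3, seam A -> B: the five families at the base scale `W`
-/

namespace Vale.Agent.P054.T3.H533

open Finset MvPolynomial Module
open Vale.Agent.P054.T2.H307 (gfr gfr_mono_set gfr_le gr gr_mono gr_le fib mem_fib
  fib_mono fib_subset self_mem_fib van van_mono mem_van pts mem_pts pts_mono pts_nonempty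
  IsUnif IsFam exists_unif FI Ed cA NN xF xL xH1 xH2 wB ZK)
open Vale.Agent.P054.T2.H580 (rkF IsFilt isFilt_total kap sum_kap_window Vw Vw_mono Par exists_par)
open Vale.Agent.P054.T2.H686 (Crd)
open Vale.Agent.P054.T2.H930 (Pt)
open Vale.Agent.P054.T2.H84 (exists_geo_window geoLen)
open Vale.Agent.P054.T3.H461

/-- names of the five families of the window -/
inductive FW
  | F | L1 | L2 | H1 | H2
  deriving DecidableEq

/-- the values of the five families at the level `W * b ^ i` -/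
noncomputable def cW (n : ℕ) (K : Type*) [Field K] (W b : ℕ) (j : FW × ℕ)
    (A : Finset (Ed n K)) (e : Ed n K) : ℕ :=
  match j.1 with
  | FW.F => gfr xF (fun _ => ()) (restrictTotalDegree (Crd n) K) (W * b ^ j.2) A e
  | FW.L1 => gfr xL Prod.fst (restrictTotalDegree (Fin n) K) (W * b ^ j.2) A e
  | FW.L2 => gfr xL Prod.snd (restrictTotalDegree (Fin n) K) (W * b ^ j.2) A e
  | FW.H1 => gfr xH1 (fun _ => ()) (Vw K (wB W)) (W * b ^ j.2) A e
  | FW.H2 => gfr xH2 (fun _ => ()) (Vw K (wB W)) (W * b ^ j.2) A e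

/-- the index set of the five families, levels `≤ K₀` -/
def JW (K₀ : ℕ) : Finset (FW × ℕ) := {FW.F, FW.L1, FW.L2, FW.H1, FW.H2} ×ˢ range (K₀ + 1)

theorem mem_JW {K₀ : ℕ} {f : FW} {i : ℕ} : (f, i) ∈ JW K₀ ↔ i ≤ K₀ := by
  unfold JW
  rw [Finset.mem_product, Finset.mem_range, Nat.lt_succ_iff]
  constructor
  · exact fun h => h.2
  · intro h
    refine ⟨?_, h⟩
    cases f <;> simp

theorem card_JW (K₀ : ℕ) : (JW K₀).card = 5 * (K₀ + 1) := by
  unfold JW
  rw [Finset.card_product, Finset.card_range]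
  rfl

variable {n : ℕ} {K : Type*} [Field K]

theorem cW_le (W b : ℕ) (j : FW × ℕ) (A : Finset (Ed n K)) (e : Ed n K) :
    cW n K W b j A e ≤ NN n := by
  have hC : Fintype.card (Crd n) = 2 * n + 1 := by simp [Crd]; ring
  have hP : Fintype.card (Pt n) = 2 * n + 2 := by simp [Pt]; ring
  obtain ⟨f, i⟩ := j
  unfold NN
  cases f
  all_goals
    refine (gfr_le _ _ _ _ _ _).trans ?_
    simp only [Fintype.card_sum, hC, hP, Fintype.card_fin]
    omega

theorem cW_mono (W b : ℕ) (j : FW × ℕ) {A B : Finset (Ed n K)} (h : A ⊆ B) (e : Ed n K) :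
    cW n K W b j B e ≤ cW n K W b j A e := by
  obtain ⟨f, i⟩ := j
  cases f
  all_goals exact gfr_mono_set _ _ _ _ h e

theorem isFam_F (W b K₀ : ℕ) : IsFam (cW n K W b) (JW K₀) (fun i => (FW.F, i)) K₀ xF
    (fun _ => ()) (restrictTotalDegree (Crd n) K) W b :=
  fun j hj => ⟨mem_JW.2 hj, fun _ _ => rfl⟩

theorem isFam_L1 (W b K₀ : ℕ) : IsFam (cW n K W b) (JW K₀) (fun i => (FW.L1, i)) K₀ xL
    Prod.fst (restrictTotalDegree (Fin n) K) W b :=
  fun j hj => ⟨mem_JW.2 hj, fun _ _ => rfl⟩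

theorem isFam_L2 (W b K₀ : ℕ) : IsFam (cW n K W b) (JW K₀) (fun i => (FW.L2, i)) K₀ xL
    Prod.snd (restrictTotalDegree (Fin n) K) W b :=
  fun j hj => ⟨mem_JW.2 hj, fun _ _ => rfl⟩

theorem isFam_H1 (W b K₀ : ℕ) : IsFam (cW n K W b) (JW K₀) (fun i => (FW.H1, i)) K₀ xH1
    (fun _ => ()) (Vw K (wB W)) W b :=
  fun j hj => ⟨mem_JW.2 hj, fun _ _ => rfl⟩

theorem isFam_H2 (W b K₀ : ℕ) : IsFam (cW n K W b) (JW K₀) (fun i => (FW.H2, i)) K₀ xH2
    (fun _ => ()) (Vw K (wB W)) W b :=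
  fun j hj => ⟨mem_JW.2 hj, fun _ _ => rfl⟩

end Vale.Agent.P054.T3.H533
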