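import Vale.Agent.P054.T3.H109.WarrenSpan

set_option autoImplicit false
set_option linter.all false

/-!
# P054 / T3: sign classes met by a rationally parametrised set; cylinders over spheres

`card_cells_rat`: the image of `ℝ ^ k` under `u ↦ ψ(u) / q(u)`, `q > 0`, `deg ≤ c`, meets at most
`(k (c D + 2)) ^ k` sign classes.  `card_sgn_cyl`: a cylinder over a sphere in `ℝ ^ (n + 1)` times
`τ → ℝ`, `#τ = m`: at most `((n + m) (3 D + 2)) ^ (n + m) + (m (D + 2)) ^ m`.
-/

namespace Vale.Agent.P054.T3.H533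

open Finset MvPolynomial
open Vale.Agent.P054.T3.H109

section rat

variable {σ : Type*} {k : ℕ}

/-- degree of an exponent -/
def dg (m : σ →₀ ℕ) : ℕ := ∑ a ∈ m.support, m a

/-- pull back along `ψ / q`, with denominators cleared -/
noncomputable def rpull (q : MvPolynomial (Fin k) ℝ) (ψ : σ → MvPolynomial (Fin k) ℝ)
    (f : MvPolynomial σ ℝ) : MvPolynomial (Fin k) ℝ :=
  ∑ m ∈ f.support, C (coeff m f) * q ^ (f.totalDegree - dg m) * m.prod fun a e => ψ a ^ e

theorem degree_le_of_mem {f : MvPolynomial σ ℝ} {m : σ →₀ ℕ} (hm : m ∈ f.support) :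
    dg m ≤ f.totalDegree := le_totalDegree hm

theorem totalDegree_rpull (q : MvPolynomial (Fin k) ℝ) (ψ : σ → MvPolynomial (Fin k) ℝ) {c : ℕ}
    (hq : q.totalDegree ≤ c) (hψ : ∀ a, (ψ a).totalDegree ≤ c) (f : MvPolynomial σ ℝ) :
    (rpull q ψ f).totalDegree ≤ c * f.totalDegree := by
  classical
  unfold rpull
  refine totalDegree_finsetSum_le fun m hm => ?_
  have hm' := degree_le_of_mem hm
  have h1 : (m.prod fun a e => ψ a ^ e).totalDegree ≤ c * dg m := by
    unfold Finsupp.prod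
    refine (totalDegree_finset_prod _ _).trans ?_
    unfold dg
    rw [Finset.mul_sum]
    refine Finset.sum_le_sum fun a _ => ?_
    refine (totalDegree_pow _ _).trans ?_
    rw [mul_comm c]
    exact Nat.mul_le_mul_left _ (hψ a)
  have h2 : (q ^ (f.totalDegree - dg m)).totalDegree ≤ c * (f.totalDegree - dg m) := by
    refine (totalDegree_pow _ _).trans ?_
    rw [mul_comm c]
    exact Nat.mul_le_mul_left _ hq
  have h3 : (C (coeff m f) * q ^ (f.totalDegree - dg m)).totalDegree ≤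
      c * (f.totalDegree - dg m) := by
    refine (totalDegree_mul _ _).trans ?_
    rw [totalDegree_C, zero_add]
    exact h2
  refine (totalDegree_mul _ _).trans ((Nat.add_le_add h3 h1).trans ?_)
  rw [← Nat.mul_add]
  exact Nat.mul_le_mul_left _ (by omega)

theorem eval_rpull (q : MvPolynomial (Fin k) ℝ) (ψ : σ → MvPolynomial (Fin k) ℝ)
    (f : MvPolynomial σ ℝ) (u : Fin k → ℝ) (hq : eval u q ≠ 0) :
    eval u (rpull q ψ f) =
      (eval u q) ^ f.totalDegree * eval (fun a => eval u (ψ a) / eval u q) f := by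
  classical
  unfold rpull
  rw [map_sum, eval_eq (fun a => eval u (ψ a) / eval u q) f, Finset.mul_sum]
  refine Finset.sum_congr rfl fun m hm => ?_
  have hm' := degree_le_of_mem hm
  rw [map_mul, map_mul, eval_C, map_pow]
  have h1 : eval u (m.prod fun a e => ψ a ^ e) = ∏ a ∈ m.support, (eval u (ψ a)) ^ m a := by
    unfold Finsupp.prod
    rw [map_prod]
    exact Finset.prod_congr rfl fun a _ => map_pow _ _ _
  have h2 : ∏ a ∈ m.support, (eval u (ψ a) / eval u q) ^ m a =
      (∏ a ∈ m.support, (eval u (ψ a)) ^ m a) / (eval u q) ^ dg m := by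
    unfold dg
    rw [← Finset.prod_pow_eq_pow_sum, ← Finset.prod_div_distrib]
    exact Finset.prod_congr rfl fun a _ => div_pow _ _ _
  rw [h1, h2]
  have h3 : (eval u q) ^ f.totalDegree =
      (eval u q) ^ (f.totalDegree - dg m) * (eval u q) ^ dg m := by
    rw [← pow_add, Nat.sub_add_cancel hm']
  rw [h3]
  have h4 : (eval u q) ^ dg m ≠ 0 := pow_ne_zero _ hq
  field_simp

/-- **sign classes met by a rational image of `ℝ ^ k`** -/
theorem card_cells_rat {J : ℕ} (f : Fin J → MvPolynomial σ ℝ) (q : MvPolynomial (Fin k) ℝ)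
    (ψ : σ → MvPolynomial (Fin k) ℝ) {c : ℕ} (hq : q.totalDegree ≤ c)
    (hψ : ∀ a, (ψ a).totalDegree ≤ c) (hpos : ∀ u, 0 < eval u q) (S : Finset (Fin J → Bool))
    (hS : ∀ s ∈ S, ∃ u, cell f s (fun a => eval u (ψ a) / eval u q)) :
    S.card ≤ (k * (c * ∑ j, (f j).totalDegree + 2)) ^ k := by
  refine (card_cells_le (fun j => rpull q ψ (f j)) S fun s hs => ?_).trans ?_
  · obtain ⟨u, hu⟩ := hS s hs
    refine ⟨u, fun j => ?_⟩
    have h1 := hu j
    have h2 := eval_rpull q ψ (f j) u (hpos u).ne'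
    have h3 : 0 < (eval u q) ^ (f j).totalDegree := pow_pos (hpos u) _
    show if s j then 0 < eval u (rpull q ψ (f j)) else eval u (rpull q ψ (f j)) < 0
    rw [h2]
    by_cases hj : s j
    · rw [if_pos hj] at h1 ⊢
      exact mul_pos h3 h1
    · rw [if_neg hj] at h1 ⊢
      exact mul_neg_of_pos_of_neg h3 h1
  · refine Nat.pow_le_pow_left (Nat.mul_le_mul_left _ (Nat.add_le_add_right ?_ _)) _
    rw [Finset.mul_sum]
    exact Finset.sum_le_sum fun j _ => totalDegree_rpull q ψ hq hψ (f j)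

open scoped Classical in
/-- the same for the sign vectors of a finite set -/
theorem card_sgn_rat {ι : Type*} {J : ℕ} (f : Fin J → MvPolynomial σ ℝ)
    (q : MvPolynomial (Fin k) ℝ) (ψ : σ → MvPolynomial (Fin k) ℝ) {c : ℕ}
    (hq : q.totalDegree ≤ c) (hψ : ∀ a, (ψ a).totalDegree ≤ c) (hpos : ∀ u, 0 < eval u q)
    (T : Finset ι) (φ : ι → σ → ℝ) (hT : ∀ t ∈ T, ∃ u, φ t = fun a => eval u (ψ a) / eval u q)
    (h0 : ∀ t ∈ T, ∀ j, eval (φ t) (f j) ≠ 0) :
    (T.image fun t => sgn f (φ t)).card ≤ (k * (c * ∑ j, (f j).totalDegree + 2)) ^ k := by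
  refine card_cells_rat f q ψ hq hψ hpos _ fun s hs => ?_
  obtain ⟨t, ht, rfl⟩ := mem_image.1 hs
  obtain ⟨u, hu⟩ := hT t ht
  refine ⟨u, ?_⟩
  rw [← hu]
  exact cell_sgn (h0 t ht)

end rat

/-! ## cylinders over spheres -/

section cyl

variable {n m : ℕ}

/-- parameters: `u ∈ ℝ ^ n` (stereographic), `y ∈ ℝ ^ m` -/
noncomputable def pu (n m : ℕ) (i : Fin n) : MvPolynomial (Fin (n + m)) ℝ := X (Fin.castAdd m i)

noncomputable def py (n m : ℕ) (j : Fin m) : MvPolynomial (Fin (n + m)) ℝ := X (Fin.natAdd n j)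

/-- `|u|² + 1` -/
noncomputable def qS (n m : ℕ) : MvPolynomial (Fin (n + m)) ℝ := ∑ i, pu n m i ^ 2 + 1

/-- numerators of the stereographic parametrisation of the sphere with center `a`, radius `ρ` -/
noncomputable def psS (n m : ℕ) (a : Fin (n + 1) → ℝ) (ρ : ℝ) :
    Fin (n + 1) ⊕ Fin m → MvPolynomial (Fin (n + m)) ℝ :=
  Sum.elim (Fin.cons (C (a 0) * qS n m + C ρ * (qS n m - C 2))
    (fun i => C (a i.succ) * qS n m + C (2 * ρ) * pu n m i)) (fun j => py n m j * qS n m)

theorem totalDegree_qS (n m : ℕ) : (qS n m).totalDegree ≤ 2 := by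
  classical
  unfold qS
  refine (totalDegree_add _ _).trans (max_le ?_ ?_)
  · refine totalDegree_finsetSum_le fun i _ => ?_
    refine (totalDegree_pow _ _).trans ?_
    unfold pu
    rw [totalDegree_X]
  · rw [totalDegree_one]; norm_num

theorem totalDegree_psS (n m : ℕ) (a : Fin (n + 1) → ℝ) (ρ : ℝ) (i : Fin (n + 1) ⊕ Fin m) :
    (psS n m a ρ i).totalDegree ≤ 3 := by
  classical
  have hq := totalDegree_qS n m
  have hC : ∀ (c : ℝ) (p : MvPolynomial (Fin (n + m)) ℝ), (C c * p).totalDegree ≤ p.totalDegree :=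
    fun c p => by
      refine (totalDegree_mul _ _).trans ?_
      rw [totalDegree_C, zero_add]
  unfold psS
  rcases i with i | j
  · rw [Sum.elim_inl]
    refine Fin.cases ?_ (fun i => ?_) i
    · rw [Fin.cons_zero]
      refine (totalDegree_add _ _).trans (max_le ?_ ?_)
      · exact (hC _ _).trans (hq.trans (by norm_num))
      · refine (hC _ _).trans ((totalDegree_sub _ _).trans (max_le (hq.trans (by norm_num)) ?_))
        rw [totalDegree_C]; norm_num
    · rw [Fin.cons_succ]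
      refine (totalDegree_add _ _).trans (max_le ?_ ?_)
      · exact (hC _ _).trans (hq.trans (by norm_num))
      · refine (hC _ _).trans ?_
        unfold pu
        rw [totalDegree_X]; norm_num
  · rw [Sum.elim_inr]
    refine (totalDegree_mul _ _).trans ?_
    unfold py
    rw [totalDegree_X]
    omega

theorem eval_qS (u : Fin (n + m) → ℝ) :
    eval u (qS n m) = ∑ i : Fin n, (u (Fin.castAdd m i)) ^ 2 + 1 := by
  unfold qS pu
  simp [map_sum]

theorem eval_qS_pos (u : Fin (n + m) → ℝ) : 0 < eval u (qS n m) := by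
  rw [eval_qS]
  have : 0 ≤ ∑ i : Fin n, (u (Fin.castAdd m i)) ^ 2 := Finset.sum_nonneg fun i _ => sq_nonneg _
  linarith

/-- surjectivity, outside the pole -/
theorem exists_stereo (a : Fin (n + 1) → ℝ) {ρ : ℝ} (hρ : 0 < ρ)
    (z : Fin (n + 1) ⊕ Fin m → ℝ) (hz : ∑ i, (z (Sum.inl i) - a i) ^ 2 = ρ ^ 2)
    (hp : z (Sum.inl 0) - a 0 ≠ ρ) :
    ∃ u : Fin (n + m) → ℝ, z = fun i => eval u (psS n m a ρ i) / eval u (qS n m) := by
  set x0 := z (Sum.inl 0) - a 0 with hx0
  rw [Fin.sum_univ_succ] at hz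
  have hne : ρ - x0 ≠ 0 := sub_ne_zero.2 (Ne.symm hp)
  set u : Fin (n + m) → ℝ := Fin.append (fun i : Fin n => (z (Sum.inl i.succ) - a i.succ) / (ρ - x0))
    (fun j : Fin m => z (Sum.inr j)) with hu
  have hul : ∀ i : Fin n, u (Fin.castAdd m i) = (z (Sum.inl i.succ) - a i.succ) / (ρ - x0) :=
    fun i => by rw [hu, Fin.append_left]
  have hur : ∀ j : Fin m, u (Fin.natAdd n j) = z (Sum.inr j) :=
    fun j => by rw [hu, Fin.append_right]
  have hq : eval u (qS n m) = 2 * ρ / (ρ - x0) := by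
    rw [eval_qS]
    simp only [hul, div_pow]
    rw [← Finset.sum_div]
    have h1 : ∑ i : Fin n, (z (Sum.inl i.succ) - a i.succ) ^ 2 = ρ ^ 2 - x0 ^ 2 := by
      rw [← hz]; ring
    rw [h1]
    field_simp
    ring
  have hqp := eval_qS_pos (m := m) u
  have hq0 := hqp.ne'
  refine ⟨u, ?_⟩
  funext i
  rw [eq_div_iff hq0]
  rcases i with i | j
  · unfold psS
    rw [Sum.elim_inl]
    refine Fin.cases ?_ (fun i => ?_) i
    · rw [Fin.cons_zero]
      simp only [map_add, map_mul, map_sub, eval_C]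
      have h2 : z (Sum.inl 0) = a 0 + x0 := by rw [hx0]; ring
      rw [h2, hq]
      field_simp
      ring
    · rw [Fin.cons_succ]
      unfold pu
      simp only [map_add, map_mul, eval_C, eval_X]
      rw [hul, hq]
      field_simp
      ring
  · unfold psS
    rw [Sum.elim_inr]
    unfold py
    simp only [map_mul, eval_X]
    rw [hur]

open scoped Classical in
/-- **cylinders over spheres** -/
theorem card_sgn_cyl {ι : Type*} {J : ℕ} (f : Fin J → MvPolynomial (Fin (n + 1) ⊕ Fin m) ℝ)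
    (a : Fin (n + 1) → ℝ) (ρ : ℝ) (T : Finset ι) (φ : ι → Fin (n + 1) ⊕ Fin m → ℝ)
    (hT : ∀ t ∈ T, ∑ i, (φ t (Sum.inl i) - a i) ^ 2 = ρ ^ 2)
    (h0 : ∀ t ∈ T, ∀ j, eval (φ t) (f j) ≠ 0) :
    (T.image fun t => sgn f (φ t)).card ≤
      ((n + m) * (3 * ∑ j, (f j).totalDegree + 2)) ^ (n + m) +
      (m * (∑ j, (f j).totalDegree + 2)) ^ m := by
  wlog hρ0 : 0 ≤ ρ generalizing ρ
  · refine this (-ρ) (fun t ht => ?_) (by linarith)
    rw [hT t ht]; ring
  -- the pole
  set T₁ := T.filter fun t => φ t (Sum.inl 0) - a 0 = ρ with hT₁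
  set T₂ := T.filter fun t => ¬ (φ t (Sum.inl 0) - a 0 = ρ) with hT₂
  have hU : T = T₂ ∪ T₁ := by
    rw [hT₁, hT₂, Finset.union_comm, Finset.filter_union_filter_not_eq]
  have h1 : (T₁.image fun t => sgn f (φ t)).card ≤ (m * (∑ j, (f j).totalDegree + 2)) ^ m := by
    refine card_image_sgn_flat f T₁ φ
      (Sum.elim (fun i => if i = 0 then a 0 + ρ else a i) (fun _ => 0))
      (fun j => Sum.elim (fun _ => 0) (fun j' => if j' = j then 1 else 0)) (fun t ht => ?_)
      (fun t ht => h0 t (Finset.mem_filter.1 ht).1)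
    obtain ⟨ht, hp⟩ := Finset.mem_filter.1 ht
    refine ⟨fun j => φ t (Sum.inr j), ?_⟩
    have h2 := hT t ht
    rw [Fin.sum_univ_succ, hp] at h2
    have h3 : ∑ i : Fin n, (φ t (Sum.inl i.succ) - a i.succ) ^ 2 = 0 := by linarith
    have h4 : ∀ i : Fin n, φ t (Sum.inl i.succ) = a i.succ := by
      intro i
      have h5 := (Finset.sum_eq_zero_iff_of_nonneg (fun i _ => sq_nonneg _)).1 h3 i
        (Finset.mem_univ _)
      have h6 := pow_eq_zero_iff (two_ne_zero) |>.1 h5
      linarith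
    funext i
    rcases i with i | j
    · simp only [fl, Sum.elim_inl, mul_zero, Finset.sum_const_zero, add_zero]
      refine Fin.cases ?_ (fun i => ?_) i
      · rw [if_pos rfl]; linarith
      · rw [if_neg (Fin.succ_ne_zero i)]; exact h4 i
    · simp only [fl, Sum.elim_inr, zero_add, mul_ite, mul_one, mul_zero]
      rw [Finset.sum_ite_eq]
      simp
  have h2 : (T₂.image fun t => sgn f (φ t)).card ≤
      ((n + m) * (3 * ∑ j, (f j).totalDegree + 2)) ^ (n + m) := by
    rcases T₂.eq_empty_or_nonempty with h | ⟨t₀, ht₀⟩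
    · rw [h]; simp
    have hρ : 0 < ρ := by
      rcases lt_or_eq_of_le hρ0 with h | h
      · exact h
      · exfalso
        obtain ⟨ht, hp⟩ := Finset.mem_filter.1 ht₀
        have h3 := hT t₀ ht
        rw [← h, zero_pow two_ne_zero] at h3
        have h5 := (Finset.sum_eq_zero_iff_of_nonneg (fun i _ => sq_nonneg _)).1 h3 0
          (Finset.mem_univ _)
        have h6 := pow_eq_zero_iff (two_ne_zero) |>.1 h5
        exact hp (by rw [h6, h])
    refine card_sgn_rat f (qS n m) (psS n m a ρ) ((totalDegree_qS n m).trans (by norm_num))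
      (totalDegree_psS n m a ρ) eval_qS_pos T₂ φ (fun t ht => ?_)
      (fun t ht => h0 t (Finset.mem_filter.1 ht).1)
    obtain ⟨ht, hp⟩ := Finset.mem_filter.1 ht
    exact exists_stereo a hρ (φ t) (hT t ht) hp
  rw [hU, Finset.image_union]
  exact (Finset.card_union_le _ _).trans (Nat.add_le_add h2 h1)

end cyl

end Vale.Agent.P054.T3.H533
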